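import Mathlib

/-! Exponential bounded-differences inequality for product measures, and products of densities. -/

open MeasureTheory ProbabilityTheory Filter
open scoped ENNReal Topology

namespace Vale.Agent.P157.Teach

variable {α : Type*} [MeasurableSpace α] {P : Measure α} [IsProbabilityMeasure P]

lemma pi_cons (n : ℕ) :
    MeasurePreserving (fun p : α × (Fin n → α) => Fin.cons p.1 p.2)
      (P.prod (Measure.pi fun _ : Fin n => P)) (Measure.pi fun _ : Fin (n + 1) => P) := by
  have h := (measurePreserving_piFinSuccAbove (fun _ : Fin (n + 1) => P) 0).symm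
  have e : (fun p : α × (Fin n → α) => Fin.cons p.1 p.2) =
      ⇑(MeasurableEquiv.piFinSuccAbove (fun _ : Fin (n + 1) => α) 0).symm := by
    funext p
    simp [MeasurableEquiv.piFinSuccAbove, Fin.insertNthEquiv, Fin.insertNth_zero']
  rw [e]; exact h

lemma exp_abs_le_add (x : ℝ) : Real.exp |x| ≤ Real.exp x + Real.exp (-x) := by
  rcases abs_choice x with h | h <;> rw [h] <;> linarith [Real.exp_pos x, Real.exp_pos (-x)]

/-- The bounded-differences inequality in moment generating function form. -/
lemma mgf_le {d : α → α → ℝ} {h : α → ℝ} {C K t : ℝ}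
    (hh : Measurable h) (hint : ∀ c : ℝ, Integrable (fun z => Real.exp (c * h z)) P)
    (hd : Measurable fun p : α × α => d p.1 p.2)
    (hK : ∫⁻ p, ENNReal.ofReal (Real.cosh (t * d p.1 p.2)) ∂P.prod P ≤ ENNReal.ofReal (Real.exp K)) :
    ∀ (n : ℕ) (F : (Fin n → α) → ℝ), Measurable F → (∀ x, |F x| ≤ C + ∑ a, h (x a)) →
      (∀ x a z, |F (Function.update x a z) - F x| ≤ |d (x a) z|) →
      Integrable (fun x => Real.exp (t * (F x - ∫ y, F y ∂Measure.pi fun _ => P)))
          (Measure.pi fun _ => P) ∧
        ∫ x, Real.exp (t * (F x - ∫ y, F y ∂Measure.pi fun _ => P)) ∂Measure.pi (fun _ => P) ≤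
          Real.exp (n * K) := by
  intro n
  induction n generalizing C with
  | zero =>
    intro F hF _ _
    have e : ∀ x : Fin 0 → α, F x = F default := fun x => congrArg F (Subsingleton.elim _ _)
    have : ∫ y, F y ∂(Measure.pi fun _ : Fin 0 => P) = F default := by simp [e]
    refine ⟨Integrable.of_bound (by fun_prop) 1 (Eventually.of_forall fun x => by simp [this, e]), ?_⟩
    simp [this, e]
  | succ n ih =>
    intro F hF hb hup
    set π := Measure.pi fun _ : Fin n => P
    set ψ := fun (z : α) (x : Fin n → α) => F (Fin.cons z x)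
    have hψ : Measurable fun p : α × (Fin n → α) => ψ p.1 p.2 := hF.comp (pi_cons (P := P) n).measurable
    have hψb : ∀ z x, |ψ z x| ≤ C + h z + ∑ a, h (x a) := fun z x => by
      refine (hb _).trans_eq ?_
      simp [Fin.sum_univ_succ, add_assoc]
    have hexp : ∀ c : ℝ, Integrable (fun x : Fin n → α => Real.exp (c * ∑ a, h (x a))) π := fun c => by
      simp only [Finset.mul_sum, Real.exp_sum]
      exact Integrable.fintype_prod (f := fun _ z => Real.exp (c * h z)) fun _ => hint c
    have hsum : Integrable (fun x : Fin n → α => ∑ a, h (x a)) π := by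
      refine ((hexp 1).add (hexp (-1))).mono'
        (Finset.measurable_sum _ fun a _ => hh.comp (measurable_pi_apply a)).aestronglyMeasurable
        (Eventually.of_forall fun x => ?_)
      rw [Real.norm_eq_abs, Pi.add_apply, one_mul, neg_one_mul]
      refine le_trans ?_ (exp_abs_le_add _)
      linarith [Real.add_one_le_exp |∑ a, h (x a)|]
    have hh1 : Integrable h P := by
      refine ((hint 1).add (hint (-1))).mono' (by fun_prop) (Eventually.of_forall fun x => ?_)
      rw [Real.norm_eq_abs, Pi.add_apply, one_mul, neg_one_mul]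
      refine le_trans ?_ (exp_abs_le_add _)
      linarith [Real.add_one_le_exp |h x|]
    have hψi : Integrable (fun p : α × (Fin n → α) => ψ p.1 p.2) (P.prod π) :=
      Integrable.mono' (((integrable_const C).add (hh1.comp_fst π)).add (hsum.comp_snd P))
        hψ.aestronglyMeasurable (Eventually.of_forall fun p => hψb p.1 p.2)
    have hψz : ∀ x, Integrable (fun z => ψ z x) P := fun x =>
      Integrable.mono' (((integrable_const C).add hh1).add (integrable_const (∑ a, h (x a))))
        (hψ.comp (measurable_id.prodMk measurable_const)).aestronglyMeasurable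
        (Eventually.of_forall fun z => hψb z x)
    set G := fun x => ∫ z, ψ z x ∂P
    have hG : Measurable G := (hψ.stronglyMeasurable.integral_prod_left' (μ := P)).measurable
    have hGb : ∀ x, |G x| ≤ C + (∫ z, h z ∂P) + ∑ a, h (x a) := fun x => by
      have hi : Integrable (fun z => C + h z + ∑ a, h (x a)) P :=
        ((integrable_const C).add hh1).add (integrable_const _)
      refine (abs_integral_le_integral_abs).trans ((integral_mono (hψz x).abs hi fun z => hψb z x).trans_eq ?_)
      rw [integral_add _ (integrable_const _), integral_add (integrable_const _) hh1]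
      · simp
      · exact (integrable_const C).add hh1
    have hGup : ∀ x a z, |G (Function.update x a z) - G x| ≤ |d (x a) z| := fun x a z => by
      simp only [G]
      rw [← integral_sub (hψz _) (hψz _)]
      refine (abs_integral_le_integral_abs).trans ?_
      refine (integral_mono ((hψz _).sub (hψz _)).abs (integrable_const |d (x a) z|) fun z' => ?_).trans_eq
        (by simp)
      have := hup (Fin.cons z' x) a.succ z
      rwa [← Fin.cons_update, Fin.cons_succ] at this
    obtain ⟨hi, hle⟩ := ih G hG hGb hGup
    have hmean : ∫ y, F y ∂(Measure.pi fun _ : Fin (n + 1) => P) = ∫ x, G x ∂π := by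
      rw [← (pi_cons (P := P) n).map_eq,
        integral_map (pi_cons (P := P) n).measurable.aemeasurable hF.aestronglyMeasurable,
        integral_prod_symm _ hψi]
    -- one coordinate
    have key : ∀ x, ∫⁻ z, ENNReal.ofReal (Real.exp (t * (ψ z x - G x))) ∂P ≤ ENNReal.ofReal (Real.exp K) := by
      intro x
      have hdd : ∀ z z', |ψ z x - ψ z' x| ≤ |d z' z| := fun z z' => by
        have := hup (Fin.cons z' x) 0 z
        rwa [Fin.update_cons_zero, Fin.cons_zero] at this
      have he : ∀ z, ENNReal.ofReal (Real.exp (t * (ψ z x - G x))) ≤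
          ∫⁻ z', ENNReal.ofReal (Real.exp (t * (ψ z x - ψ z' x))) ∂P := by
        intro z
        have hcx : Integrable (fun z' => Real.exp (t * (ψ z x - ψ z' x))) P := by
          refine ((hint |t|).const_mul (Real.exp (|t| * (|ψ z x| + C + ∑ a, h (x a))))).mono'
            ((measurable_const.mul (measurable_const.sub
              (hψ.comp (measurable_id.prodMk measurable_const)))).exp.aestronglyMeasurable)
            (Eventually.of_forall fun z' => ?_)
          rw [Real.norm_eq_abs, Real.abs_exp, ← Real.exp_add, Real.exp_le_exp]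
          calc t * (ψ z x - ψ z' x) ≤ |t| * |ψ z x - ψ z' x| := (le_abs_self _).trans_eq (abs_mul _ _)
            _ ≤ |t| * (|ψ z x| + (C + h z' + ∑ a, h (x a))) :=
              mul_le_mul_of_nonneg_left ((abs_sub _ _).trans (add_le_add le_rfl (hψb z' x))) (abs_nonneg t)
            _ = _ := by ring
        have hlin : Integrable (fun z' => t * (ψ z x - ψ z' x)) P :=
          ((integrable_const (ψ z x)).sub (hψz x)).const_mul t
        have hj := ConvexOn.map_integral_le (g := Real.exp) convexOn_exp Real.continuous_exp.continuousOn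
          isClosed_univ (Eventually.of_forall fun _ => Set.mem_univ _) hlin hcx
        rw [integral_const_mul, integral_sub (integrable_const _) (hψz x), integral_const, probReal_univ,
          one_smul] at hj
        rw [← ofReal_integral_eq_lintegral_ofReal hcx (Eventually.of_forall fun _ => (Real.exp_pos _).le)]
        exact ENNReal.ofReal_le_ofReal hj
      refine (lintegral_mono he).trans ?_
      have hm : Measurable fun p : α × α => ENNReal.ofReal (Real.exp (t * (ψ p.1 x - ψ p.2 x))) :=
        (measurable_const.mul ((hψ.comp (measurable_fst.prodMk measurable_const)).sub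
          (hψ.comp (measurable_snd.prodMk measurable_const)))).exp.ennreal_ofReal
      rw [← lintegral_prod _ hm.aemeasurable]
      set I := ∫⁻ p, ENNReal.ofReal (Real.exp (t * (ψ p.1 x - ψ p.2 x))) ∂P.prod P
      have hswap : I = ∫⁻ p, ENNReal.ofReal (Real.exp (t * (ψ p.2 x - ψ p.1 x))) ∂P.prod P := by
        conv_lhs => rw [show I = ∫⁻ p, ENNReal.ofReal (Real.exp (t * (ψ p.1 x - ψ p.2 x))) ∂P.prod P from rfl,
          ← Measure.prod_swap, lintegral_map hm measurable_swap]
        rfl
      have h2 : I + I ≤ 2 * ∫⁻ p, ENNReal.ofReal (Real.cosh (t * d p.1 p.2)) ∂P.prod P := by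
        conv_lhs => arg 2; rw [hswap]
        rw [← lintegral_add_left hm, ← lintegral_const_mul' _ _ (by norm_num)]
        refine lintegral_mono fun p => ?_
        rw [← ENNReal.ofReal_add (Real.exp_pos _).le (Real.exp_pos _).le,
          show (2 : ℝ≥0∞) = ENNReal.ofReal 2 by simp, ← ENNReal.ofReal_mul zero_le_two]
        refine ENNReal.ofReal_le_ofReal ?_
        have e1 : Real.exp (t * (ψ p.1 x - ψ p.2 x)) + Real.exp (t * (ψ p.2 x - ψ p.1 x)) =
            2 * Real.cosh (t * (ψ p.1 x - ψ p.2 x)) := by
          rw [Real.cosh_eq, show t * (ψ p.2 x - ψ p.1 x) = -(t * (ψ p.1 x - ψ p.2 x)) by ring]; ring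
        rw [e1]
        refine mul_le_mul_of_nonneg_left (Real.cosh_le_cosh.2 ?_) zero_le_two
        rw [abs_mul, abs_mul, abs_sub_comm]
        exact mul_le_mul_of_nonneg_left (hdd p.2 p.1) (abs_nonneg t)
      rw [← two_mul] at h2
      exact ((ENNReal.mul_le_mul_iff_right (by norm_num) (by norm_num)).1 h2).trans hK
    -- assemble
    set T := ∫ x, G x ∂π
    have hm2 : Measurable fun p : α × (Fin n → α) => Real.exp (t * (ψ p.1 p.2 - T)) :=
      (measurable_const.mul (hψ.sub measurable_const)).exp
    have hnn : 0 ≤ᵐ[P.prod π] fun p => Real.exp (t * (ψ p.1 p.2 - T)) :=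
      Eventually.of_forall fun p => (Real.exp_pos _).le
    have hlint : ∫⁻ p, ENNReal.ofReal (Real.exp (t * (ψ p.1 p.2 - T))) ∂P.prod π ≤
        ENNReal.ofReal (Real.exp ((n + 1 : ℕ) * K)) := by
      rw [lintegral_prod_symm _ hm2.ennreal_ofReal.aemeasurable]
      have hx : ∀ x, ∫⁻ z, ENNReal.ofReal (Real.exp (t * (ψ z x - T))) ∂P ≤
          ENNReal.ofReal (Real.exp K) * ENNReal.ofReal (Real.exp (t * (G x - T))) := by
        intro x
        have e : ∀ z, ENNReal.ofReal (Real.exp (t * (ψ z x - T))) =
            ENNReal.ofReal (Real.exp (t * (ψ z x - G x))) * ENNReal.ofReal (Real.exp (t * (G x - T))) := fun z => by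
          rw [← ENNReal.ofReal_mul (Real.exp_pos _).le, ← Real.exp_add]; ring_nf
        simp only [e]
        rw [lintegral_mul_const' _ _ ENNReal.ofReal_ne_top]
        exact mul_le_mul' (key x) le_rfl
      refine (lintegral_mono hx).trans ?_
      rw [lintegral_const_mul' _ _ ENNReal.ofReal_ne_top,
        ← ofReal_integral_eq_lintegral_ofReal hi (Eventually.of_forall fun x => (Real.exp_pos _).le),
        Nat.cast_succ, add_mul, one_mul, Real.exp_add, ENNReal.ofReal_mul (Real.exp_pos _).le, mul_comm]
      exact mul_le_mul' (ENNReal.ofReal_le_ofReal hle) le_rfl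
    have hi2 : Integrable (fun p : α × (Fin n → α) => Real.exp (t * (ψ p.1 p.2 - T))) (P.prod π) :=
      ⟨hm2.aestronglyMeasurable, (hasFiniteIntegral_iff_ofReal hnn).2 (lt_of_le_of_lt hlint ENNReal.ofReal_lt_top)⟩
    rw [hmean]
    refine ⟨?_, ?_⟩
    · rw [← (pi_cons (P := P) n).map_eq]
      exact (integrable_map_measure (by fun_prop) (pi_cons (P := P) n).measurable.aemeasurable).2 hi2
    · rw [← (pi_cons (P := P) n).map_eq,
        integral_map (pi_cons (P := P) n).measurable.aemeasurable (by fun_prop)]
      rw [← ENNReal.ofReal_le_ofReal_iff (Real.exp_pos _).le,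
        show (fun p : α × (Fin n → α) => Real.exp (t * (F (Fin.cons p.1 p.2) - T))) =
          fun p => Real.exp (t * (ψ p.1 p.2 - T)) from rfl,
        ofReal_integral_eq_lintegral_ofReal hi2 hnn]
      exact hlint

lemma lintegral_prod_fin {μ : Measure α} [IsProbabilityMeasure μ] : ∀ {n : ℕ} {v : Fin n → α → ℝ≥0∞},
    (∀ a, Measurable (v a)) →
      ∫⁻ x, ∏ a, v a (x a) ∂Measure.pi (fun _ => μ) = ∏ a, ∫⁻ z, v a z ∂μ
  | 0, v, _ => by simp
  | n + 1, v, hv => by
    rw [← (pi_cons (P := μ) n).map_eq, lintegral_map (by fun_prop) (pi_cons (P := μ) n).measurable]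
    simp only [Fin.prod_univ_succ, Fin.cons_zero, Fin.cons_succ]
    refine (lintegral_prod_mul (hv 0).aemeasurable
      (Finset.measurable_prod Finset.univ fun (a : Fin n) _ =>
        (hv a.succ).comp (measurable_pi_apply a)).aemeasurable).trans ?_
    exact congrArg _ (lintegral_prod_fin fun a => hv a.succ)

lemma integral_withDensity_ofReal {μ : Measure α} {u : α → ℝ} (hu : Measurable u) (hn : ∀ z, 0 ≤ u z)
    (F : α → ℝ) : ∫ z, F z ∂μ.withDensity (fun z => ENNReal.ofReal (u z)) = ∫ z, u z * F z ∂μ := by
  rw [integral_withDensity_eq_integral_toReal_smul hu.ennreal_ofReal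
    (Eventually.of_forall fun _ => ENNReal.ofReal_lt_top)]
  simp only [ENNReal.toReal_ofReal (hn _), smul_eq_mul]

/-- A product of densities is the density of the product. -/
lemma pi_withDensity {μ : Measure α} [IsProbabilityMeasure μ] {u : α → ℝ} (hu : Measurable u)
    (hn : ∀ z, 0 ≤ u z) [IsProbabilityMeasure (μ.withDensity fun z => ENNReal.ofReal (u z))] (n : ℕ) :
    Measure.pi (fun _ : Fin n => μ.withDensity fun z => ENNReal.ofReal (u z)) =
      (Measure.pi fun _ : Fin n => μ).withDensity fun x => ENNReal.ofReal (∏ a, u (x a)) := by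
  refine Measure.pi_eq fun s hs => ?_
  simp only [withDensity_apply _ (MeasurableSet.univ_pi hs), withDensity_apply _ (hs _)]
  rw [← lintegral_indicator (MeasurableSet.univ_pi hs)]
  have e : (Set.univ.pi s).indicator (fun x => ENNReal.ofReal (∏ a, u (x a))) =
      fun x => ∏ a, (s a).indicator (fun z => ENNReal.ofReal (u z)) (x a) := by
    funext x
    by_cases h : x ∈ Set.univ.pi s
    · rw [Set.indicator_of_mem h, ENNReal.ofReal_prod_of_nonneg fun a _ => hn _]
      exact Finset.prod_congr rfl fun a _ => (Set.indicator_of_mem (h a (Set.mem_univ a)) (fun z => ENNReal.ofReal (u z))).symm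
    · obtain ⟨a, ha⟩ : ∃ a, x a ∉ s a := by simpa using h
      rw [Set.indicator_of_notMem h]
      exact (Finset.prod_eq_zero (Finset.mem_univ a) (Set.indicator_of_notMem ha _)).symm
  rw [e, lintegral_prod_fin fun a => hu.ennreal_ofReal.indicator (hs a)]
  exact Finset.prod_congr rfl fun a _ => lintegral_indicator (hs a) _

end Vale.Agent.P157.Teach
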