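import Vale.Agent.P157.Teach.Model
import Vale.Agent.P157.Teach.Mcd

/-! The planted law, moments of the free entropy, and the antiderivative that dominates overlap fluctuations. -/

open MeasureTheory ProbabilityTheory Set Filter
open scoped Topology ENNReal
open Vale.Agent.P150 (gauss dot l1 integrable_of_bound integrable_exp_l1)
open Vale.Agent.P157.Lim (sgn xv dot_xv)

namespace Vale.Agent.P157.Teach

/-- the all-plus configuration -/
def plus (N : ℕ) : Fin N → Bool := fun _ => true

/-- the law of one planted pattern -/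
noncomputable def qU (N : ℕ) (V : ℝ → ℝ) : Measure (Fin N → ℝ) :=
  (gauss (Fin N)).withDensity fun g => ENNReal.ofReal (V (dot (xv N (plus N)) g))

/-- the law of one planted channel output -/
noncomputable def qY (l : ℝ) : Measure ℝ :=
  (gaussianReal 0 1).withDensity fun t => ENNReal.ofReal (Real.exp (√l * t - l / 2))

variable {N : ℕ} {lo hi : ℝ}

lemma prob_qU (hN : 0 < N) {V : ℝ → ℝ} (hV : Pw V lo hi) : IsProbabilityMeasure (qU N V) := by
  refine ⟨?_⟩
  rw [qU, withDensity_apply _ MeasurableSet.univ, Measure.restrict_univ,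
    ← ofReal_integral_eq_lintegral_ofReal, integral_arg hV.meas (dot_xv hN _), hV.mean, ENNReal.ofReal_one]
  · exact Integrable.of_bound (hV.meas.comp (by unfold dot; fun_prop)).aestronglyMeasurable hi
      (Eventually.of_forall fun g => hV.abs_V _)
  · exact Eventually.of_forall fun g => (hV.pos.trans_le (hV.ge _)).le

lemma gauss_mgf (c : ℝ) : ∫ t, Real.exp (c * t) ∂gaussianReal 0 1 = Real.exp (c ^ 2 / 2) := by
  have := congrFun (mgf_id_gaussianReal (μ := 0) (v := 1)) c
  simpa [mgf, id] using this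

lemma qY_exp {l : ℝ} (hl : 0 ≤ l) (c : ℝ) :
    Integrable (fun t => Real.exp (c * t)) (qY l) ∧
      ∫ t, Real.exp (c * t) ∂qY l = Real.exp (c * √l + c ^ 2 / 2) := by
  have e : ∀ t, Real.exp (√l * t - l / 2) * Real.exp (c * t) = Real.exp (-(l / 2)) * Real.exp ((√l + c) * t) :=
    fun t => by rw [← Real.exp_add, ← Real.exp_add]; ring_nf
  constructor
  · rw [qY, integrable_withDensity_iff (by fun_prop) (Eventually.of_forall fun t => ENNReal.ofReal_lt_top)]
    simp only [ENNReal.toReal_ofReal (Real.exp_pos _).le, mul_comm (Real.exp (c * _)), e]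
    exact (integrable_exp_mul_gaussianReal _).const_mul _
  · rw [qY, integral_withDensity_ofReal (by fun_prop) (fun t => (Real.exp_pos _).le)]
    simp only [e, integral_const_mul, gauss_mgf]
    rw [← Real.exp_add]
    congr 1
    rw [add_sq, Real.sq_sqrt hl]; ring

lemma prob_qY {l : ℝ} (hl : 0 ≤ l) : IsProbabilityMeasure (qY l) := by
  have h := qY_exp hl 0
  simp at h
  exact ⟨(ENNReal.toReal_eq_one_iff _).1 h.2⟩

lemma qY_abs_exp {l : ℝ} (hl : 0 ≤ l) (c : ℝ) : Integrable (fun t => Real.exp (c * |t|)) (qY l) := by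
  refine ((qY_exp hl c).1.add (qY_exp hl (-c)).1).mono' (by fun_prop) (Eventually.of_forall fun t => ?_)
  rw [Real.norm_eq_abs, Real.abs_exp, Pi.add_apply, neg_mul]
  rcases abs_choice t with h | h <;> rw [h]
  · linarith [Real.exp_pos (-(c * t))]
  · rw [mul_neg]; linarith [Real.exp_pos (c * t)]

lemma qY_cosh {l : ℝ} (hl : 0 ≤ l) (t : ℝ) :
    ∫⁻ p, ENNReal.ofReal (Real.cosh (t * (√l * (p.1 - p.2)))) ∂(qY l).prod (qY l) ≤
      ENNReal.ofReal (Real.exp (t ^ 2 * l)) := by
  have := prob_qY hl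
  have e : ∀ p : ℝ × ℝ, Real.cosh (t * (√l * (p.1 - p.2))) =
      (Real.exp ((t * √l) * p.1) * Real.exp (-(t * √l) * p.2) +
        Real.exp (-(t * √l) * p.1) * Real.exp ((t * √l) * p.2)) / 2 := fun p => by
    rw [Real.cosh_eq, ← Real.exp_add, ← Real.exp_add]; ring_nf
  have i1 := (qY_exp hl (t * √l)).1.mul_prod (qY_exp hl (-(t * √l))).1
  have i2 := (qY_exp hl (-(t * √l))).1.mul_prod (qY_exp hl (t * √l)).1
  have i12 : Integrable (fun p : ℝ × ℝ => (Real.exp ((t * √l) * p.1) * Real.exp (-(t * √l) * p.2) +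
        Real.exp (-(t * √l) * p.1) * Real.exp ((t * √l) * p.2)) / 2) ((qY l).prod (qY l)) := (i1.add i2).div_const 2
  simp only [e]
  rw [← ofReal_integral_eq_lintegral_ofReal i12 (Eventually.of_forall fun p => by positivity)]
  refine le_of_eq (congrArg _ ?_)
  rw [integral_div, integral_add i1 i2,
    integral_prod_mul (μ := qY l) (ν := qY l) (fun x => Real.exp ((t * √l) * x)) (fun x => Real.exp (-(t * √l) * x)),
    integral_prod_mul (μ := qY l) (ν := qY l) (fun x => Real.exp (-(t * √l) * x)) (fun x => Real.exp ((t * √l) * x)),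
    (qY_exp hl _).2, (qY_exp hl _).2,
    mul_comm (Real.exp (-(t * √l) * √l + (-(t * √l)) ^ 2 / 2)), ← two_mul, mul_div_cancel_left₀ _ two_ne_zero,
    ← Real.exp_add]
  congr 1
  rw [neg_sq, mul_pow, Real.sq_sqrt hl]; ring

/-- `log Z` -/
noncomputable def ell (N : ℕ) {m : ℕ} (U : ℝ → ℝ) (l : ℝ) (g : Fin m → Fin N → ℝ) (y : Fin N → ℝ) : ℝ :=
  Real.log (tt (zed (sx N) (lp N (fun _ => U) g) l y))

lemma log_tt_sub {S : Type} [Fintype S] [Nonempty S] (z z' : S → ℝ) :
    |Real.log (tt z) - Real.log (tt z')| ≤ ‖z - z'‖ := by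
  have h := Vale.Agent.P157.Lim.good_lse (W := fun _ : S => (1:ℝ)) fun _ => zero_lt_one
  have e : ∀ z : S → ℝ, Vale.Agent.P157.Lim.lse (fun _ => (1:ℝ)) z = Real.log (tt z) := fun z => by
    simp [Vale.Agent.P157.Lim.lse, tt]
  have a := h z z'
  have b := h z' z
  rw [e, e] at a b
  rw [norm_sub_rev] at b
  rw [abs_le]; constructor <;> linarith

lemma abs_log_tt {S : Type} [Fintype S] [Nonempty S] (z : S → ℝ) :
    |Real.log (tt z)| ≤ Real.log (Fintype.card S) + ‖z‖ := by
  have h := log_tt_sub z 0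
  have e : Real.log (tt (0 : S → ℝ)) = Real.log (Fintype.card S) := by simp [tt]
  rw [sub_zero, e] at h
  have h2 := abs_le.1 h
  have := Real.log_natCast_nonneg (Fintype.card S)
  rw [abs_le]; constructor <;> linarith

variable {m : ℕ}

section Planted

variable (hN : 0 < N) {U : ℝ → ℝ} (hU : Pw U lo hi) {l : ℝ} (hl : 0 ≤ l)
include hN hU hl

omit hN in
lemma ell_bound (g : Fin m → Fin N → ℝ) (y : Fin N → ℝ) :
    |ell N U l g y| ≤ (N * Real.log 2 + lpB N m lo hi + N * l) + ∑ a, √l * |y a| := by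
  refine (abs_log_tt _).trans ?_
  have h := norm_zed_le (x := sx N) (fun s i => (abs_sx s i).le) (fun s => abs_lp (fun _ => hU) g s)
    (lpB_nonneg N m) (T := l) (by rw [abs_of_nonneg hl]) y (c := lp N (fun _ => U) g)
  have e : Real.log (Fintype.card (Fin N → Bool)) = N * Real.log 2 := by simp [Real.log_pow]
  rw [Fintype.card_fin, abs_one, one_mul] at h
  rw [e, ← Finset.mul_sum]
  show _ ≤ _ + √l * l1 y
  linarith

omit hN hl in
lemma ell_update_g (g : Fin m → Fin N → ℝ) (y : Fin N → ℝ) (a : Fin m) (z : Fin N → ℝ) :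
    |ell N U l (Function.update g a z) y - ell N U l g y| ≤ 2 * lb lo hi := by
  refine (log_tt_sub _ _).trans ((pi_norm_le_iff_of_nonneg (by linarith [lb_nonneg (lo := lo) (hi := hi)])).2 fun s => ?_)
  simp only [Pi.sub_apply, zed, lp, Real.norm_eq_abs]
  rw [← Finset.add_sum_erase _ _ (Finset.mem_univ a),
    ← Finset.add_sum_erase _ (fun b => Real.log (U (dot (xv N s) (g b)))) (Finset.mem_univ a),
    Finset.sum_congr (s₂ := Finset.univ.erase a) rfl fun b hb => by
      rw [Function.update_of_ne (Finset.ne_of_mem_erase hb)]]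
  simp only [Function.update_self]
  refine le_trans (le_of_eq ?_) ((abs_sub (Real.log (U (dot (xv N s) z))) (Real.log (U (dot (xv N s) (g a))))).trans
    ((add_le_add (hU.abs_log _) (hU.abs_log _)).trans_eq (two_mul _).symm))
  congr 1; ring

omit hN in
lemma ell_update_y (g : Fin m → Fin N → ℝ) (y : Fin N → ℝ) (a : Fin N) (z : ℝ) :
    |ell N U l g (Function.update y a z) - ell N U l g y| ≤ |√l * (y a - z)| := by
  refine (log_tt_sub _ _).trans ((pi_norm_le_iff_of_nonneg (abs_nonneg _)).2 fun s => ?_)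
  simp only [Pi.sub_apply, zed, Real.norm_eq_abs]
  rw [show lp N (fun _ => U) g s + (√l * dot (sx N s) (Function.update y a z) - Fintype.card (Fin N) * l / 2) -
      (lp N (fun _ => U) g s + (√l * dot (sx N s) y - Fintype.card (Fin N) * l / 2)) =
      √l * (dot (sx N s) (Function.update y a z) - dot (sx N s) y) by ring]
  have e : dot (sx N s) (Function.update y a z) - dot (sx N s) y = sx N s a * (z - y a) := by
    simp only [dot, ← Finset.sum_sub_distrib, ← mul_sub]
    rw [Finset.sum_eq_single a (fun b _ hb => by rw [Function.update_of_ne hb, sub_self, mul_zero])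
      (fun h => absurd (Finset.mem_univ a) h), Function.update_self]
  rw [e, abs_mul, abs_mul, abs_mul, abs_sx, one_mul, abs_sub_comm]

omit hN hU hl in
lemma measurable_ell' (hU : Pw U lo hi) :
    Measurable fun p : (Fin m → Fin N → ℝ) × (Fin N → ℝ) => ell N U l p.1 p.2 :=
  Real.measurable_log.comp (gro_tt.1.measurable.comp ((continuous_zed (sx N)).measurable.comp
    (((measurable_lp (N := N) (V := fun _ : Fin m => U) fun _ => hU).comp measurable_fst).prodMk
      (measurable_const.prodMk measurable_snd))))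

omit hN in
lemma mgf_y (t : ℝ) (g : Fin m → Fin N → ℝ) :
    Integrable (fun y => Real.exp (t * (ell N U l g y - ∫ y, ell N U l g y ∂Measure.pi fun _ : Fin N => qY l)))
        (Measure.pi fun _ : Fin N => qY l) ∧
      ∫ y, Real.exp (t * (ell N U l g y - ∫ y, ell N U l g y ∂Measure.pi fun _ : Fin N => qY l))
          ∂Measure.pi (fun _ : Fin N => qY l) ≤ Real.exp (N * (t ^ 2 * l)) := by
  have := prob_qY hl
  have hm : Measurable fun u : ℝ => √l * |u| := measurable_id.abs.const_mul _
  have hc : ∀ c : ℝ, Integrable (fun u => Real.exp (c * (√l * |u|))) (qY l) := fun c => by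
    simp only [← mul_assoc]; exact qY_abs_exp hl (c * √l)
  have hd : Measurable fun p : ℝ × ℝ => √l * (p.1 - p.2) := (measurable_fst.sub measurable_snd).const_mul _
  have hpair : Measurable fun y : Fin N → ℝ => (g, y) := measurable_prodMk_left
  have hF0 := (measurable_ell' (N := N) (m := m) (l := l) hU).comp hpair
  have hF : Measurable fun y => ell N U l g y := hF0
  obtain ⟨F, hF'⟩ : ∃ F : (Fin N → ℝ) → ℝ, F = fun y => ell N U l g y := ⟨_, rfl⟩
  have b1 : ∀ y, |F y| ≤ (N * Real.log 2 + lpB N m lo hi + N * l) + ∑ a, √l * |y a| := fun y => by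
    rw [hF']; exact ell_bound hU hl g y
  have b2 : ∀ y b z, |F (Function.update y b z) - F y| ≤ |√l * (y b - z)| := fun y b z => by
    rw [hF']; exact ell_update_y hU hl g y b z
  have key := mgf_le (P := qY l) (d := fun u v => √l * (u - v)) (h := fun u => √l * |u|)
    (C := N * Real.log 2 + lpB N m lo hi + N * l) (K := t ^ 2 * l) (t := t) hm hc hd (qY_cosh hl t) N
    F (hF' ▸ hF) b1 b2
  rw [hF'] at key
  exact key

/-- exponential moments of `log Z` under the planted law -/
lemma planted_mgf (t : ℝ) :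
    ∀ (a : ℝ), a = ∫ g, ∫ y, ell N (m := m) U l g y ∂Measure.pi (fun _ : Fin N => qY l) ∂Measure.pi (fun _ : Fin m => qU N U) →
    (∀ g : Fin m → Fin N → ℝ, Integrable (fun y => Real.exp (t * (ell N U l g y - a))) (Measure.pi fun _ : Fin N => qY l)) ∧
    Integrable (fun g => ∫ y, Real.exp (t * (ell N (m := m) U l g y - a)) ∂Measure.pi (fun _ : Fin N => qY l))
      (Measure.pi fun _ : Fin m => qU N U) ∧
    ∫ g, ∫ y, Real.exp (t * (ell N (m := m) U l g y - a)) ∂Measure.pi (fun _ : Fin N => qY l)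
        ∂Measure.pi (fun _ : Fin m => qU N U) ≤
      Real.exp (m * (2 * (t * lb lo hi) ^ 2) + N * (t ^ 2 * l)) := by
  intro a ha
  have := prob_qU hN hU
  have := prob_qY hl
  set P := Measure.pi fun _ : Fin N => qY l
  set C := N * Real.log 2 + lpB N m lo hi + N * l
  have hy : ∀ g : Fin m → Fin N → ℝ, Integrable (fun y => Real.exp (t * (ell N U l g y - ∫ y, ell N U l g y ∂P))) P ∧
      ∫ y, Real.exp (t * (ell N U l g y - ∫ y, ell N U l g y ∂P)) ∂P ≤ Real.exp (N * (t ^ 2 * l)) :=
    fun g => mgf_y hU hl t g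
  have habs : Integrable (fun y : Fin N → ℝ => ∑ b, √l * |y b|) P := integrable_finsetSum _ fun b _ => by
    have h1 : Integrable (fun t => √l * |t|) (qY l) := by
      refine ((qY_abs_exp hl 1).const_mul (√l)).mono' (by fun_prop) (Eventually.of_forall fun u => ?_)
      rw [Real.norm_eq_abs, abs_mul, abs_abs, abs_of_nonneg (Real.sqrt_nonneg l), one_mul]
      exact mul_le_mul_of_nonneg_left (by linarith [Real.add_one_le_exp |u|]) (Real.sqrt_nonneg l)
    exact (measurePreserving_eval (fun _ : Fin N => qY l) b).integrable_comp_of_integrable h1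
  set W := C + ∫ y : Fin N → ℝ, ∑ b, √l * |y b| ∂P
  have hiy : ∀ g, Integrable (fun y => ell N U l g y) P := fun g =>
    ((integrable_const C).add habs).mono' ((measurable_ell' hU).comp (measurable_const.prodMk measurable_id)).aestronglyMeasurable
      (Eventually.of_forall fun y => ell_bound hU hl g y)
  set G := fun g => ∫ y, ell N U l g y ∂P
  have hGm : Measurable G := ((measurable_ell' hU).stronglyMeasurable.integral_prod_right' (ν := P)).measurable
  have hG := mgf_le (P := qU N U) (d := fun _ _ => 2 * lb lo hi) (h := fun _ => 0) (C := W) (t := t)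
    (K := 2 * (t * lb lo hi) ^ 2) measurable_const (fun c => by simp) measurable_const
    (by
      rw [lintegral_const, measure_univ, mul_one]
      refine ENNReal.ofReal_le_ofReal ((Real.cosh_le_exp_half_sq _).trans (Real.exp_le_exp.2 (le_of_eq ?_)))
      ring)
    m G hGm
    (fun g => by
      simp only [Finset.sum_const_zero, add_zero]
      refine abs_integral_le_integral_abs.trans ((integral_mono (hiy g).abs ((integrable_const C).add habs)
        fun y => ell_bound hU hl g y).trans_eq ?_)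
      rw [integral_add' (integrable_const C) habs]; simp [W])
    (fun g b z => by
      simp only [G]
      rw [← integral_sub (hiy _) (hiy _)]
      refine abs_integral_le_integral_abs.trans ((integral_mono ((hiy _).sub (hiy _)).abs
        (integrable_const (2 * lb lo hi)) fun y => ell_update_g hU g y b z).trans ?_)
      simpa using le_abs_self _)
  rw [← show a = ∫ g, G g ∂Measure.pi (fun _ : Fin m => qU N U) from ha] at hG
  have e : ∀ (g : Fin m → Fin N → ℝ) (y : Fin N → ℝ), Real.exp (t * (ell N U l g y - a)) =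
      Real.exp (t * (G g - a)) * Real.exp (t * (ell N U l g y - G g)) := fun g y => by
    rw [← Real.exp_add]; ring_nf
  have hi1 : ∀ g : Fin m → Fin N → ℝ, Integrable (fun y => Real.exp (t * (ell N U l g y - a))) P := fun g => by
    rw [show (fun y => Real.exp (t * (ell N U l g y - a))) = _ from funext (e g)]
    exact (hy g).1.const_mul _
  have hb : ∀ g : Fin m → Fin N → ℝ, ∫ y, Real.exp (t * (ell N U l g y - a)) ∂P ≤
      Real.exp (N * (t ^ 2 * l)) * Real.exp (t * (G g - a)) := fun g => by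
    rw [show (fun y => Real.exp (t * (ell N U l g y - a))) = _ from funext (e g)]
    rw [integral_const_mul, mul_comm]
    exact mul_le_mul_of_nonneg_right (hy g).2 (Real.exp_pos _).le
  have hm : AEStronglyMeasurable (fun g => ∫ y, Real.exp (t * (ell N U l g y - a)) ∂P)
      (Measure.pi fun _ : Fin m => qU N U) :=
    (StronglyMeasurable.integral_prod_right' (ν := P)
      (f := fun p : (Fin m → Fin N → ℝ) × (Fin N → ℝ) => Real.exp (t * (ell N U l p.1 p.2 - a)))
      (Real.continuous_exp.measurable.comp (measurable_const.mul ((measurable_ell' hU).sub measurable_const))).stronglyMeasurable).aestronglyMeasurable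
  have hi2 : Integrable (fun g => ∫ y, Real.exp (t * (ell N U l g y - a)) ∂P) (Measure.pi fun _ : Fin m => qU N U) :=
    (hG.1.const_mul (Real.exp (N * (t ^ 2 * l)))).mono' hm (Eventually.of_forall fun g => by
      rw [Real.norm_eq_abs, abs_of_nonneg (integral_nonneg fun y => (Real.exp_pos _).le)]
      exact hb g)
  refine ⟨hi1, hi2, (integral_mono hi2 (hG.1.const_mul _) hb).trans ?_⟩
  rw [integral_const_mul, add_comm, Real.exp_add]
  exact mul_le_mul_of_nonneg_left hG.2 (Real.exp_pos _).le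

end Planted

/-- sign change along a configuration -/
def flipC (N : ℕ) (s : Fin N → Bool) : (Fin N → Bool) ≃ (Fin N → Bool) where
  toFun t := fun i => t i == s i
  invFun t := fun i => t i == s i
  left_inv t := funext fun i => by simp only; cases t i <;> cases s i <;> rfl
  right_inv t := funext fun i => by simp only; cases t i <;> cases s i <;> rfl

lemma sx_flipC (s t : Fin N → Bool) (i : Fin N) : sx N (flipC N s t) i = sx N t i * sx N s i := by
  simp only [sx, flipC, Equiv.coe_fn_mk, sgn]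
  rcases Bool.eq_false_or_eq_true (t i) with ht | ht <;> rcases Bool.eq_false_or_eq_true (s i) with hs | hs <;>
    simp [ht, hs]

lemma mp_sign (s : Fin N → Bool) :
    MeasurePreserving (fun g : Fin N → ℝ => fun i => sx N s i * g i) (gauss (Fin N)) (gauss (Fin N)) := by
  refine measurePreserving_pi _ _ fun i => ?_
  refine ⟨by fun_prop, ?_⟩
  rw [gaussianReal_map_const_mul]
  congr 1
  · simp
  · ext; push_cast; rw [mul_one, ← sq_abs, abs_sx, one_pow]

/-- change of measure to the planted configuration -/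
lemma avm_planted (hN : 0 < N) {U : ℝ → ℝ} (hU : Pw U lo hi) {l : ℝ} (hl : 0 ≤ l) {G : ℝ → ℝ}
    (hG : Continuous G) (hgro : Gro fun z : (Fin N → Bool) → ℝ => tt z * G (Real.log (tt z))) :
    avm N (fun _ : Fin m => U) (fun z => tt z * G (Real.log (tt z))) l =
      ∫ g, ∫ y, G (ell N U l g y) ∂Measure.pi (fun _ : Fin N => qY l) ∂Measure.pi (fun _ : Fin m => qU N U) := by
  have := prob_qU hN hU
  have := prob_qY hl
  set V : Fin m → ℝ → ℝ := fun _ => U
  set T := fun (s : Fin N → Bool) (z : (Fin N → Bool) → ℝ) => Real.exp (z s) * G (Real.log (tt z))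
  have gT : ∀ s, Gro (T s) := fun s => by
    have h := ((Gro.expEval (S := Fin N → Bool) s).mul gro_inv_tt).mul hgro
    have e : T s = fun z => Real.exp (z s) * (tt z)⁻¹ * (tt z * G (Real.log (tt z))) := funext fun z => by
      have := (tt_pos z).ne'
      simp only [T]; field_simp
    rw [e]; exact h
  have hsum : avm N V (fun z => tt z * G (Real.log (tt z))) l = ∑ s, avm N V (T s) l := by
    rw [avm_congr (G := fun z => ∑ s, T s z) (fun z => by simp only [T, tt, Finset.sum_mul])]
    unfold avm av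
    rw [← integral_finsetSum _ fun s _ =>
      integrable_inner (fun s i => (abs_sx s i).le) (measurable_lp fun _ => hU) (lpB_nonneg N m)
        (fun g s => abs_lp (fun _ => hU) g s) (gT s) l]
    exact integral_congr_ae (Eventually.of_forall fun g => integral_finsetSum _ fun s _ =>
      integrable_gro (fun s i => (abs_sx s i).le) (gT s) _ l)
  have hsym : ∀ s, avm N V (T s) l = avm N V (T (plus N)) l := by
    intro s
    set ε := fun g : Fin N → ℝ => fun i => sx N s i * g i
    have hε := mp_sign (N := N) s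
    have hE : MeasurePreserving (fun g : Fin m → Fin N → ℝ => fun a => ε (g a)) (pg N m) (pg N m) :=
      measurePreserving_pi _ _ fun _ => hε
    have hd : ∀ (t : Fin N → Bool) (g : Fin N → ℝ), dot (sx N t) (ε g) = dot (sx N (flipC N s t)) g := fun t g => by
      simp only [dot, ε, sx_flipC, mul_assoc]
    have hd' : ∀ (t : Fin N → Bool) (g : Fin N → ℝ), dot (xv N t) (ε g) = dot (xv N (flipC N s t)) g := fun t g => by
      simp only [dot, ε, xv_eq, sx_flipC]
      exact Finset.sum_congr rfl fun i _ => by ring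
    have hz : ∀ g y, zed (sx N) (lp N V (fun a => ε (g a))) l (ε y) =
        fun t => zed (sx N) (lp N V g) l y (flipC N s t) := fun g y => by
      funext t; simp only [zed, lp, hd, hd']
    have hs : flipC N s s = plus N := funext fun i => by simp [flipC, plus]
    have hinner : ∀ c : (Fin N → Bool) → ℝ, ∫ y, T s (zed (sx N) c l y) ∂gauss (Fin N) =
        ∫ y, T s (zed (sx N) c l (ε y)) ∂gauss (Fin N) := fun c => by
      conv_lhs => rw [← hε.map_eq]
      exact integral_map hε.measurable.aemeasurable ((gT s).1.comp (by unfold zed dot; fun_prop)).aestronglyMeasurable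
    unfold avm av
    conv_lhs => rw [← hE.map_eq]
    have hmE : AEStronglyMeasurable (fun g' => ∫ y, T s (zed (sx N) (lp N V g') l y) ∂gauss (Fin N))
        ((pg N m).map fun g a => ε (g a)) := by
      rw [hE.map_eq]; exact inner_meas (measurable_lp fun _ => hU) (gT s).1 l
    rw [integral_map hE.measurable.aemeasurable hmE]
    refine integral_congr_ae (Eventually.of_forall fun g => ?_)
    show ∫ y, T s (zed (sx N) (lp N V fun a => ε (g a)) l y) ∂gauss (Fin N) = _
    rw [hinner]
    refine integral_congr_ae (Eventually.of_forall fun y => ?_)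
    simp only [hz, T, tt, hs]
    rw [(flipC N s).sum_comp (fun t => Real.exp (zed (sx N) (lp N V g) l y t))]
  rw [hsum, Finset.sum_congr rfl fun s _ => hsym s, Finset.sum_const, Finset.card_univ, Fintype.card_fun,
    Fintype.card_bool, Fintype.card_fin, nsmul_eq_mul]
  set u := fun g : Fin N → ℝ => U (dot (xv N (plus N)) g)
  have hu : Measurable u := hU.meas.comp (by unfold dot; fun_prop)
  have hu0 : ∀ g, 0 ≤ u g := fun g => (hU.pos.trans_le (hU.ge _)).le
  set w := fun t : ℝ => Real.exp (√l * t - l / 2)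
  have e : ∀ (g : Fin m → Fin N → ℝ) (y : Fin N → ℝ),
      ((2 ^ N : ℕ) : ℝ) * T (plus N) (zed (sx N) (lp N V g) l y) =
        (∏ a, u (g a)) * ((∏ i, w (y i)) * G (ell N U l g y)) := by
    intro g y
    have e1 : (∏ a, u (g a)) = Real.exp (∑ a, Real.log (U (dot (xv N (plus N)) (g a)))) := by
      rw [Real.exp_sum]; exact Finset.prod_congr rfl fun a _ => (Real.exp_log (hU.pos.trans_le (hU.ge _))).symm
    have e2 : (∏ i, w (y i)) = Real.exp (√l * dot (sx N (plus N)) y - N * l / 2) := by
      simp only [w, ← Real.exp_sum, Finset.sum_sub_distrib, Finset.sum_const, Finset.card_univ, Fintype.card_fin,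
        nsmul_eq_mul, dot, sx, plus, sgn, if_true, one_mul, Finset.mul_sum]
      rw [mul_div_assoc]
    rw [e1, e2]
    simp only [T, zed, lp, V, Fintype.card_fin, Real.exp_add, Real.exp_neg, Real.exp_nat_mul, Real.exp_log two_pos]
    push_cast
    show _ = _ * (_ * G (Real.log (tt (zed (sx N) (lp N (fun _ => U) g) l y))))
    field_simp
  have : IsProbabilityMeasure ((gaussianReal 0 1).withDensity fun t => ENNReal.ofReal (w t)) := prob_qY hl
  rw [show qY l = (gaussianReal 0 1).withDensity fun t => ENNReal.ofReal (w t) from rfl,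
    show qU N U = (gauss (Fin N)).withDensity fun g => ENNReal.ofReal (u g) from rfl,
    pi_withDensity (μ := gaussianReal 0 1) (u := w) (by fun_prop) (fun t => (Real.exp_pos _).le) N]
  have : IsProbabilityMeasure ((gauss (Fin N)).withDensity fun g => ENNReal.ofReal (u g)) := prob_qU hN hU
  rw [pi_withDensity (μ := gauss (Fin N)) (u := u) hu hu0 m,
    integral_withDensity_ofReal (u := fun g : Fin m → Fin N → ℝ => ∏ a, u (g a))
      (Finset.measurable_prod _ fun a _ => hu.comp (measurable_pi_apply a)) fun g => Finset.prod_nonneg fun a _ => hu0 _]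
  unfold avm av
  rw [← integral_const_mul]
  refine integral_congr_ae (Eventually.of_forall fun g => ?_)
  dsimp only
  rw [integral_withDensity_ofReal (u := fun y : Fin N → ℝ => ∏ i, w (y i)) (by fun_prop)
    fun y => Finset.prod_nonneg fun i _ => (Real.exp_pos _).le, ← integral_const_mul, ← integral_const_mul]
  exact integral_congr_ae (Eventually.of_forall fun y => e g y)

lemma pow_four_le {x r : ℝ} (hr : 0 < r) : x ^ 4 ≤ 24 * r ^ 4 * (Real.exp (x / r) + Real.exp (-(x / r))) := by
  have h := Real.pow_div_factorial_le_exp |x / r| (abs_nonneg _) 4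
  rw [pow_abs, abs_of_nonneg (by positivity : 0 ≤ (x / r) ^ 4)] at h
  have h2 : Real.exp |x / r| ≤ Real.exp (x / r) + Real.exp (-(x / r)) := exp_abs_le_add _
  norm_num [Nat.factorial] at h
  have : (x / r) ^ 4 ≤ 24 * (Real.exp (x / r) + Real.exp (-(x / r))) := by linarith
  rw [div_pow, div_le_iff₀ (by positivity)] at this
  linarith

/-- fourth moment of `log Z` under the planted law -/
lemma moment_four (hN : 0 < N) {U : ℝ → ℝ} (hU : Pw U lo hi) {l : ℝ} (hl : 0 ≤ l) :
    avm N (fun _ : Fin m => U) (fun z => tt z * (Real.log (tt z) - avm N (fun _ : Fin m => U) ent l) ^ 4) l ≤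
      48 * (N:ℝ) ^ 2 * Real.exp (2 * (m / N) * lb lo hi ^ 2 + l) := by
  have := prob_qU hN hU
  have := prob_qY hl
  set a := avm N (fun _ : Fin m => U) ent l
  have ha : a = ∫ g, ∫ y, ell N U l g y ∂Measure.pi (fun _ : Fin N => qY l) ∂Measure.pi (fun _ : Fin m => qU N U) :=
    avm_planted hN hU hl continuous_id gro_ent
  rw [avm_planted hN hU hl (G := fun u => (u - a) ^ 4) (by fun_prop)
    (gro_tt.mul ((gro_log_tt.sub (Gro.const a)).pow 4))]
  have hN0 : (0:ℝ) < N := by exact_mod_cast hN
  set r := √(N:ℝ)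
  have hr : 0 < r := Real.sqrt_pos.2 hN0
  have hr2 : r ^ 2 = N := Real.sq_sqrt hN0.le
  obtain ⟨p1, p2, p3⟩ := planted_mgf (m := m) hN hU hl (1 / r) a ha
  obtain ⟨n1, n2, n3⟩ := planted_mgf (m := m) hN hU hl (-1 / r) a ha
  have hpt : ∀ (g : Fin m → Fin N → ℝ) (y : Fin N → ℝ), (ell N U l g y - a) ^ 4 ≤
      24 * r ^ 4 * (Real.exp (1 / r * (ell N U l g y - a)) + Real.exp (-1 / r * (ell N U l g y - a))) := fun g y => by
    have h := pow_four_le (x := ell N U l g y - a) hr
    rwa [show -((ell N U l g y - a) / r) = -1 / r * (ell N U l g y - a) by ring,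
      show (ell N U l g y - a) / r = 1 / r * (ell N U l g y - a) by ring] at h
  have hp1 : ∀ g : Fin m → Fin N → ℝ, Integrable (fun y => 24 * r ^ 4 * (Real.exp (1 / r * (ell N U l g y - a)) +
      Real.exp (-1 / r * (ell N U l g y - a)))) (Measure.pi fun _ : Fin N => qY l) := fun g =>
    ((p1 g).add (n1 g)).const_mul _
  refine (integral_mono_of_nonneg (Eventually.of_forall fun g => integral_nonneg fun y => by positivity)
    ((p2.add n2).const_mul (24 * r ^ 4)) (Eventually.of_forall fun g => ?_)).trans ?_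
  · refine (integral_mono_of_nonneg (Eventually.of_forall fun y => by positivity) (hp1 g)
      (Eventually.of_forall (hpt g))).trans_eq ?_
    simp only [Pi.add_apply]
    rw [integral_const_mul, integral_add (p1 g) (n1 g)]
  · rw [integral_const_mul, integral_add' p2 n2]
    have e1 : (m:ℝ) * (2 * (1 / r * lb lo hi) ^ 2) + N * ((1 / r) ^ 2 * l) = 2 * (m / N) * lb lo hi ^ 2 + l := by
      rw [mul_pow, div_pow, one_pow, hr2]; field_simp
    have e2 : (m:ℝ) * (2 * (-1 / r * lb lo hi) ^ 2) + N * ((-1 / r) ^ 2 * l) = 2 * (m / N) * lb lo hi ^ 2 + l := by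
      rw [mul_pow, div_pow, neg_one_sq, hr2]; field_simp
    rw [e1] at p3; rw [e2] at n3
    calc _ ≤ 24 * r ^ 4 * (Real.exp (2 * (m / N) * lb lo hi ^ 2 + l) + Real.exp (2 * (m / N) * lb lo hi ^ 2 + l)) :=
          mul_le_mul_of_nonneg_left (add_le_add p3 n3) (by positivity)
      _ = _ := by rw [show r ^ 4 = (r ^ 2) ^ 2 by ring, hr2]; ring

/-- an antiderivative dominating the overlap fluctuation -/
noncomputable def pot4 (N : ℕ) {m : ℕ} (U : ℝ → ℝ) (η K l : ℝ) : ℝ :=
  2 * (avm N (fun _ : Fin m => U) (ovl (sx N)) l -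
      avm N (fun _ : Fin m => U) ent l * ovm N (fun _ : Fin m => U) l) +
    2 * η * N * ovm N (fun _ : Fin m => U) l + 2 * K * N / η ^ 3 * l

lemma dfl_nonneg (hN : 0 < N) {U : ℝ → ℝ} (hU : Pw U lo hi) {l : ℝ} (hl : 0 ≤ l) :
    0 ≤ dfl N (fun _ : Fin m => U) l := by
  set V : Fin m → ℝ → ℝ := fun _ => U
  have hV : ∀ a, Pw (V a) lo hi := fun _ => hU
  set A := ovm N V l
  have gr : Gro (fun z => r2 (sx N) z * (tt z)⁻¹) := gro_r2.mul gro_inv_tt
  have h : avm N V (fun z => 2 * A * ov1 (sx N) z + (-A ^ 2) * tt z) l ≤ avm N V (fun z => r2 (sx N) z * (tt z)⁻¹) l := by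
    refine avm_mono hV (((Gro.const _).mul gro_ov1).add ((Gro.const _).mul gro_tt)) gr (fun z => ?_) l
    have hL := tt_pos z
    have h1 := qf_sq_le (x := sx N) z
    have e2 := xc_nonneg (x := sx N) z
    have hxc : 0 ≤ r2 (sx N) z * (tt z)⁻¹ - qf (sx N) z ^ 2 * (tt z)⁻¹ ^ 3 := by
      have : r2 (sx N) z * (tt z)⁻¹ - qf (sx N) z ^ 2 * (tt z)⁻¹ ^ 3 =
          xc (sx N) z + 2 * (p2 (sx N) z * tt z - qf (sx N) z ^ 2) * (tt z)⁻¹ ^ 3 := by
        rw [xc]; field_simp; ring
      rw [this]
      have := mul_nonneg (show 0 ≤ 2 * (p2 (sx N) z * tt z - qf (sx N) z ^ 2) by linarith)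
        (show 0 ≤ (tt z)⁻¹ ^ 3 by positivity)
      linarith
    have : 0 ≤ (qf (sx N) z * (tt z)⁻¹ - A * tt z) ^ 2 * (tt z)⁻¹ := by positivity
    have e : (qf (sx N) z * (tt z)⁻¹ - A * tt z) ^ 2 * (tt z)⁻¹ =
        qf (sx N) z ^ 2 * (tt z)⁻¹ ^ 3 - (2 * A * ov1 (sx N) z + (-A ^ 2) * tt z) := by
      rw [ov1]; field_simp; ring
    linarith
  rw [avm_add hV ((Gro.const _).mul gro_ov1) ((Gro.const _).mul gro_tt), avm_smul, avm_smul,
    avm_one hN hV l hl] at h
  rw [dfl]
  show 0 ≤ avm N V (fun z => r2 (sx N) z * (tt z)⁻¹) l - A ^ 2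
  rw [show avm N V (ov1 (sx N)) l = A from rfl] at h
  nlinarith [h]

section Pot4

variable (hN : 0 < N) {U : ℝ → ℝ} (hU : Pw U lo hi)
include hN hU

lemma continuous_pot4 (η K : ℝ) : Continuous (pot4 N (m := m) U η K) := by
  have h : ∀ {H : ((Fin N → Bool) → ℝ) → ℝ}, Gro H → Continuous (avm N (fun _ : Fin m => U) H) :=
    fun hH => continuous_avm (fun _ => hU) hH
  exact ((continuous_const.mul ((h gro_ovl).sub ((h gro_ent).mul (h gro_ov1)))).add
    (continuous_const.mul (h gro_ov1))).add (continuous_const.mul continuous_id)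

lemma hasDeriv_pot4 {η K l : ℝ} (hη : 0 < η) (hl : 0 < l)
    (hK : 48 * Real.exp (2 * (m / N) * lb lo hi ^ 2 + l) ≤ K) :
    ∃ d, HasDerivAt (pot4 N (m := m) U η K) d l ∧ 0 ≤ d ∧ dfl N (fun _ : Fin m => U) l ≤ d := by
  set V : Fin m → ℝ → ℝ := fun _ => U
  have hV : ∀ a, Pw (V a) lo hi := fun _ => hU
  have hc := measurable_lp (N := N) hV
  have hcb := fun g s => abs_lp (N := N) hV g s
  have hN0 : (0:ℝ) < N := by exact_mod_cast hN
  set a := avm N V ent l
  set A := ovm N V l
  set k2 := fun z => r2 (sx N) z * ((Real.log (tt z) + 1) * (tt z)⁻¹) -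
        2 * p2 (sx N) z * (Real.log (tt z) * (tt z)⁻¹ ^ 2) +
        qf (sx N) z ^ 2 * ((2 * Real.log (tt z) - 1) * (tt z)⁻¹ ^ 3) / 2
  have d1 := d_ovl (fun s i => (abs_sx s i).le) sx_self hc (lpB_nonneg N m) hcb hl (μ := pg N m)
  have d2 := d_ent (fun s i => (abs_sx s i).le) sx_self hc (lpB_nonneg N m) hcb hl (μ := pg N m)
  have d3 := d_ov1 (fun s i => (abs_sx s i).le) sx_self hc (lpB_nonneg N m) hcb hl (μ := pg N m)
  have hd := ((((d1.sub (d2.mul d3)).const_mul 2).add (d3.const_mul (2 * η * (N:ℝ)))).add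
    ((hasDerivAt_id l).const_mul (2 * K * N / η ^ 3)))
  set X := avm N V (xc (sx N)) l
  have hX : 0 ≤ X := integral_nonneg fun g => integral_nonneg fun y => xc_nonneg _
  have gk2 : Gro k2 := ((gro_r2.mul ((gro_log_tt.add (Gro.const 1)).mul gro_inv_tt)).sub
    (((Gro.const 2).mul gro_p2).mul (gro_log_tt.mul (gro_inv_tt.pow 2)))).add
    (by simpa [mul_div_assoc, mul_comm, mul_left_comm, div_eq_mul_inv] using
      (Gro.const (1/2:ℝ)).mul ((gro_qf (x := sx N)).pow 2 |>.mul
        ((((Gro.const 2).mul gro_log_tt).sub (Gro.const 1)).mul (gro_inv_tt.pow 3))))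
  set g4 := fun z : (Fin N → Bool) → ℝ => tt z * (Real.log (tt z) - a) ^ 4
  have gg4 : Gro g4 := gro_tt.mul ((gro_log_tt.sub (Gro.const a)).pow 4)
  have m4 : avm N V g4 l ≤ 48 * (N:ℝ) ^ 2 * Real.exp (2 * (m / N) * lb lo hi ^ 2 + l) := moment_four hN hU hl.le
  set cst := 2 * ((N:ℝ) ^ 2 / (η * N) ^ 3)
  have hc0 : 0 ≤ cst := by positivity
  have hb : avm N V (fun z => r2 (sx N) z * (tt z)⁻¹) l - 2 * avm N V k2 l + 2 * a * X ≤
      2 * (η * N) * X + cst * avm N V g4 l := by
    have gr : Gro (fun z : (Fin N → Bool) → ℝ => r2 (sx N) z * (tt z)⁻¹) := gro_r2.mul gro_inv_tt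
    have h := avm_mono hV ((gr.add ((Gro.const (-2)).mul gk2)).add ((Gro.const (2 * a)).mul (gro_xc (x := sx N))))
      (((Gro.const (2 * (η * N))).mul (gro_xc (x := sx N))).add ((Gro.const cst).mul gg4)) (fun z => ?_) l
    · rw [avm_add hV (gr.add ((Gro.const (-2)).mul gk2)) ((Gro.const (2 * a)).mul (gro_xc (x := sx N))),
        avm_add hV gr ((Gro.const (-2)).mul gk2), avm_smul, avm_smul,
        avm_add hV ((Gro.const (2 * (η * N))).mul (gro_xc (x := sx N))) ((Gro.const cst).mul gg4), avm_smul, avm_smul] at h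
      linarith
    · have hp := conc_point (x := sx N) a z
      have hx0 := xc_nonneg (x := sx N) z
      have hx1 := (xc_le (x := sx N) z).trans (r2_le hN z)
      have hη' : 0 < η * N := mul_pos hη hN0
      set d := |Real.log (tt z) - a|
      have hkey : xc (sx N) z * d ≤ η * N * xc (sx N) z + (N:ℝ) ^ 2 * tt z * (d ^ 4 / (η * N) ^ 3) := by
        rcases le_or_gt d (η * N) with h | h
        · linarith [mul_le_mul_of_nonneg_left h hx0,
            mul_nonneg (mul_nonneg (sq_nonneg (N:ℝ)) (tt_pos z).le) (show 0 ≤ d ^ 4 / (η * N) ^ 3 by positivity)]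
        · have h4 : d ≤ d ^ 4 / (η * N) ^ 3 := by
            rw [le_div_iff₀ (by positivity), show d ^ 4 = d * d ^ 3 by ring]
            exact mul_le_mul_of_nonneg_left (pow_le_pow_left₀ hη'.le h.le 3) (abs_nonneg _)
          linarith [mul_le_mul hx1 h4 (abs_nonneg _) (mul_nonneg (sq_nonneg (N:ℝ)) (tt_pos z).le), mul_nonneg hη'.le hx0]
      have e4 : d ^ 4 = (Real.log (tt z) - a) ^ 4 := by
        simp only [d]; rw [pow_abs]; exact abs_of_nonneg (by positivity)
      simp only [g4, cst, ← e4]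
      have : (N:ℝ) ^ 2 * tt z * (d ^ 4 / (η * N) ^ 3) = (N:ℝ) ^ 2 / (η * N) ^ 3 * (tt z * d ^ 4) := by ring
      simp only [k2]
      linarith
  have hK' : cst * avm N V g4 l ≤ 2 * K * N / η ^ 3 := by
    refine (mul_le_mul_of_nonneg_left m4 hc0).trans ?_
    have : cst * (48 * (N:ℝ) ^ 2 * Real.exp (2 * (m / N) * lb lo hi ^ 2 + l)) =
        2 * (48 * Real.exp (2 * (m / N) * lb lo hi ^ 2 + l)) * N / η ^ 3 := by
      simp only [cst]; field_simp
    rw [this]; gcongr
  refine ⟨_, hd.congr_of_eventuallyEq (Eventually.of_forall fun t => rfl), ?_, ?_⟩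
  all_goals
    have hdfl : 0 ≤ dfl N V l := dfl_nonneg hN hU hl.le
    simp only [mul_one]
    simp only [dfl, ovm, avm] at hdfl hb hK' ⊢
    simp only [k2, a, A, X, avm] at *
    linarith

lemma pot4_range {η K l : ℝ} (hη : 0 ≤ η) (hl : 0 ≤ l)
    (hK : 48 * Real.exp (2 * (m / N) * lb lo hi ^ 2 + l) ≤ K) :
    |pot4 N (m := m) U η K l| ≤ 2 * N * (1 + (1 + K) * √(N:ℝ)) + 2 * η * (N:ℝ) ^ 2 + 2 * K * N / |η| ^ 3 * l := by
  set V : Fin m → ℝ → ℝ := fun _ => U
  have hV : ∀ a, Pw (V a) lo hi := fun _ => hU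
  have hN0 : (0:ℝ) < N := by exact_mod_cast hN
  set a := avm N V ent l
  have hA := ovm_mem hN hV hl
  set r := √(N:ℝ)
  have hr : 0 < r := Real.sqrt_pos.2 hN0
  have hr2 : r ^ 2 = N := Real.sq_sqrt hN0.le
  set g4 := fun z : (Fin N → Bool) → ℝ => tt z * (Real.log (tt z) - a) ^ 4
  have gg4 : Gro g4 := gro_tt.mul ((gro_log_tt.sub (Gro.const a)).pow 4)
  have gR : Gro (fun z => (N:ℝ) * (1 + r) * tt z + (N:ℝ) / r ^ 3 * g4 z) :=
    ((Gro.const _).mul gro_tt).add ((Gro.const _).mul gg4)
  have gL : Gro (fun z => ovl (sx N) z + (-a) * ov1 (sx N) z) := gro_ovl.add ((Gro.const _).mul gro_ov1)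
  have hpt : ∀ z, |ovl (sx N) z + (-a) * ov1 (sx N) z| ≤ (N:ℝ) * (1 + r) * tt z + (N:ℝ) / r ^ 3 * g4 z := by
    intro z
    have e : ovl (sx N) z + (-a) * ov1 (sx N) z = ov1 (sx N) z * ((Real.log (tt z) - a) + 1) := by
      rw [ovl, ov1]; ring
    set d := Real.log (tt z) - a
    have hd : |d| ≤ r + d ^ 4 / r ^ 3 := by
      rcases le_or_gt |d| r with h | h
      · linarith [show 0 ≤ d ^ 4 / r ^ 3 by positivity]
      · have h4 : |d| ≤ |d| ^ 4 / r ^ 3 := by
          rw [le_div_iff₀ (by positivity), show |d| ^ 4 = |d| * |d| ^ 3 by ring]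
          exact mul_le_mul_of_nonneg_left (pow_le_pow_left₀ hr.le h.le 3) (abs_nonneg _)
        rw [pow_abs, abs_of_nonneg (show 0 ≤ d ^ 4 by positivity)] at h4
        linarith
    rw [e, abs_mul, abs_of_nonneg (ov1_nonneg hN z)]
    have h1 := abs_add_le d 1
    rw [abs_one] at h1
    refine (mul_le_mul (ov1_le hN z) (h1.trans (add_le_add hd le_rfl)) (abs_nonneg _)
      (mul_nonneg hN0.le (tt_pos z).le)).trans (le_of_eq ?_)
    simp only [g4]; ring
  have gnR : Gro (fun z => (-1:ℝ) * ((N:ℝ) * (1 + r) * tt z + (N:ℝ) / r ^ 3 * g4 z)) := (Gro.const _).mul gR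
  have hb : |avm N V (fun z => ovl (sx N) z + (-a) * ov1 (sx N) z) l| ≤
      avm N V (fun z => (N:ℝ) * (1 + r) * tt z + (N:ℝ) / r ^ 3 * g4 z) l := by
    rw [abs_le]
    constructor
    · have := avm_mono hV gnR gL (fun z => by linarith [neg_abs_le (ovl (sx N) z + (-a) * ov1 (sx N) z), hpt z]) l
      rw [avm_smul] at this
      linarith
    · exact avm_mono hV gL gR (fun z => (le_abs_self _).trans (hpt z)) l
  rw [avm_add hV gro_ovl ((Gro.const _).mul gro_ov1), avm_smul, avm_add hV ((Gro.const _).mul gro_tt)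
    ((Gro.const _).mul gg4), avm_smul, avm_smul, avm_one hN hV l hl] at hb
  have m4 : avm N V g4 l ≤ (N:ℝ) ^ 2 * K := by
    refine (moment_four hN hU hl).trans ?_
    rw [mul_comm (48:ℝ), mul_assoc]
    exact mul_le_mul_of_nonneg_left hK (sq_nonneg _)
  have hbd : |avm N V (ovl (sx N)) l - a * ovm N V l| ≤ N * (1 + (1 + K) * r) := by
    have e : avm N V (ovl (sx N)) l - a * ovm N V l = avm N V (ovl (sx N)) l + (-a) * avm N V (ov1 (sx N)) l := by
      rw [ovm]; ring
    rw [e]
    refine hb.trans ((add_le_add le_rfl (mul_le_mul_of_nonneg_left m4 (by positivity))).trans (le_of_eq ?_))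
    rw [← hr2]; field_simp; ring
  unfold pot4
  refine (abs_add_le _ _).trans (add_le_add ((abs_add_le _ _).trans (add_le_add ?_ ?_)) (le_of_eq ?_))
  · rw [abs_mul, abs_two]
    linarith [hbd]
  · rw [abs_of_nonneg (by have := hA.1; positivity), sq, ← mul_assoc]
    exact mul_le_mul_of_nonneg_left hA.2 (by positivity)
  · have hK0 : 0 ≤ K := le_trans (by positivity) hK
    rw [abs_of_nonneg (by positivity), abs_of_nonneg hη]

end Pot4

end Vale.Agent.P157.Teach
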