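import Vale.Agent.P157.Teach.Path
import Vale.Agent.P157.Phase

/-! The annealed gap and the planted free entropy vanish together. -/

open MeasureTheory ProbabilityTheory Set Filter
open scoped Topology ENNReal RealInnerProductSpace
open Vale.Agent.P150 (gauss dot)
open Vale.Agent.P157.Lim (sgn xv wt gauss_toLp)

namespace Vale.Agent.P157.Teach

/-- `log Z` without side channel -/
noncomputable def lz (N : ℕ) (U : ℝ → ℝ) {m : ℕ} (g : Fin m → Fin N → ℝ) : ℝ :=
  Real.log (tt (lp N (fun _ => U) g))

/-- the annealed gap per site -/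
noncomputable def gapN (N : ℕ) (U : ℝ → ℝ) (m : ℕ) : ℝ := -(∫ g, lz N U (m := m) g ∂pg N m) / N

variable {N m : ℕ} {lo hi : ℝ} {U : ℝ → ℝ}

lemma zed_zero {S ι : Type} [Fintype ι] (x : S → ι → ℝ) (c : S → ℝ) (y : ι → ℝ) : zed x c 0 y = c := by
  funext s; simp [zed]

lemma avm_zero (V : Fin m → ℝ → ℝ) (H : ((Fin N → Bool) → ℝ) → ℝ) :
    avm N V H 0 = ∫ g, H (lp N V g) ∂pg N m := by
  simp [avm, av, zed_zero]

lemma ell_zero (g : Fin m → Fin N → ℝ) (y : Fin N → ℝ) : ell N U 0 g y = lz N U g := by
  simp [ell, lz, zed_zero]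

lemma exp_line (c x a : ℝ) : Real.exp (c * a) * (1 + c * (x - a)) ≤ Real.exp (c * x) := by
  rw [show c * x = c * a + c * (x - a) by ring, Real.exp_add]
  exact mul_le_mul_of_nonneg_left (by linarith [Real.add_one_le_exp (c * (x - a))]) (Real.exp_pos _).le

section Bounds

variable (hN : 0 < N) (hU : Pw U lo hi)
include hN hU

omit hN in
lemma abs_lz (g : Fin m → Fin N → ℝ) : |lz N U g| ≤ N * Real.log 2 + lpB N m lo hi := by
  have h := ell_bound (l := 0) hU le_rfl g 0
  rw [ell_zero] at h
  simpa using h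

omit hN in
lemma meas_lz : Measurable fun g : Fin m → Fin N → ℝ => lz N U g :=
  Real.measurable_log.comp (gro_tt.1.measurable.comp (measurable_lp fun _ => hU))

/-- null exponential moment -/
lemma null_mgf (t : ℝ) : Integrable (fun g => Real.exp (t * lz N U g)) (pg N m) ∧
    ∫ g, Real.exp (t * lz N U g) ∂pg N m ≤
      Real.exp (t * (-(N:ℝ) * gapN N U m) + m * (2 * (t * lb lo hi) ^ 2)) := by
  have hN0 : (0:ℝ) < N := by exact_mod_cast hN
  obtain ⟨F, hF⟩ : ∃ F : (Fin m → Fin N → ℝ) → ℝ, F = fun g => lz N U g := ⟨_, rfl⟩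
  have b1 : ∀ g, |F g| ≤ (N * Real.log 2 + lpB N m lo hi) + ∑ a : Fin m, (fun _ : Fin N → ℝ => (0:ℝ)) (g a) :=
    fun g => by simpa [hF] using abs_lz hU g
  have b2 : ∀ g a z, |F (Function.update g a z) - F g| ≤
      |(fun _ _ : Fin N → ℝ => 2 * lb lo hi) (g a) z| := fun g a z => by
    have h := ell_update_g (l := 0) hU g 0 a z
    rw [ell_zero, ell_zero] at h
    rw [hF]
    exact h.trans (le_abs_self _)
  have key := mgf_le (P := gauss (Fin N)) (d := fun _ _ => 2 * lb lo hi) (h := fun _ => 0)
    (C := N * Real.log 2 + lpB N m lo hi) (K := 2 * (t * lb lo hi) ^ 2) (t := t) measurable_const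
    (fun c => integrable_const _) measurable_const
    (by
      rw [lintegral_const, measure_univ, mul_one]
      refine ENNReal.ofReal_le_ofReal ((Real.cosh_le_exp_half_sq _).trans (Real.exp_le_exp.2 (le_of_eq ?_)))
      ring)
    m F (hF ▸ meas_lz hU) b1 b2
  subst hF
  have e : ∫ g, lz N U g ∂pg N m = -(N:ℝ) * gapN N U m := by rw [gapN]; field_simp
  obtain ⟨k1, k2⟩ := key
  change Integrable _ (pg N m) at k1
  change ∫ g, Real.exp (t * (lz N U g - ∫ g, lz N U g ∂pg N m)) ∂pg N m ≤ _ at k2
  rw [e] at k2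
  have e2 : ∀ g : Fin m → Fin N → ℝ, Real.exp (t * lz N U g) =
      Real.exp (t * (-(N:ℝ) * gapN N U m)) * Real.exp (t * (lz N U g - -(N:ℝ) * gapN N U m)) := fun g => by
    rw [← Real.exp_add]; ring_nf
  constructor
  · rw [show (fun g : Fin m → Fin N → ℝ => Real.exp (t * lz N U g)) = _ from funext e2]
    refine Integrable.const_mul ?_ _
    rw [← e]; exact k1
  · rw [show (fun g : Fin m → Fin N → ℝ => Real.exp (t * lz N U g)) = _ from funext e2, integral_const_mul, Real.exp_add]
    exact mul_le_mul_of_nonneg_left k2 (Real.exp_pos _).le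

/-- the planted law of `log Z` is the size-biased null law -/
lemma planted_eq (c : ℝ) :
    ∫ g, Real.exp (c * lz N U g) ∂Measure.pi (fun _ : Fin m => qU N U) =
      ∫ g, Real.exp ((c + 1) * lz N U g) ∂pg N m := by
  have := prob_qU hN hU
  have := prob_qY (l := 0) le_rfl
  have hg : Gro fun z : (Fin N → Bool) → ℝ => tt z * Real.exp (c * Real.log (tt z)) := by
    refine gro_tt.mul ⟨Real.continuous_exp.comp (continuous_const.mul gro_log_tt.1),
      Real.exp (|c| * Real.log (Fintype.card (Fin N → Bool))), |c|, (Real.exp_pos _).le, abs_nonneg _, fun z => ?_⟩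
    rw [Real.abs_exp, ← Real.exp_add, Real.exp_le_exp, ← mul_add]
    exact (le_abs_self _).trans ((abs_mul _ _).trans_le (mul_le_mul_of_nonneg_left (abs_log_tt z) (abs_nonneg c)))
  have h := avm_planted (m := m) hN hU (l := 0) le_rfl (G := fun u => Real.exp (c * u)) (by fun_prop) hg
  rw [avm_zero] at h
  simp only [ell_zero, integral_const, probReal_univ, one_smul] at h
  rw [← h]
  refine integral_congr_ae (Eventually.of_forall fun g => ?_)
  show tt _ * Real.exp (c * Real.log (tt _)) = Real.exp ((c + 1) * lz N U g)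
  rw [add_mul, one_mul, Real.exp_add, lz, Real.exp_log (tt_pos _)]
  ring

lemma planted_mean :
    ∫ g, lz N U g ∂Measure.pi (fun _ : Fin m => qU N U) = N * kk N U m 0 := by
  have := prob_qU hN hU
  have := prob_qY (l := 0) le_rfl
  have hN0 : (0:ℝ) < N := by exact_mod_cast hN
  have h := avm_planted (m := m) hN hU (l := 0) le_rfl (G := fun u => u) continuous_id gro_ent
  simp only [ell_zero, integral_const, probReal_univ, one_smul] at h
  rw [← h, kk, ke, mul_div_cancel₀ _ hN0.ne']
  rfl

/-- planted exponential moment -/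
lemma planted_mgf0 (t : ℝ) : Integrable (fun g => Real.exp (t * lz N U g)) (Measure.pi fun _ : Fin m => qU N U) ∧
    ∫ g, Real.exp (t * lz N U g) ∂Measure.pi (fun _ : Fin m => qU N U) ≤
      Real.exp (t * (N * kk N U m 0) + m * (2 * (t * lb lo hi) ^ 2)) := by
  have := prob_qU hN hU
  have := prob_qY (l := 0) le_rfl
  obtain ⟨-, h2, h3⟩ := planted_mgf (m := m) hN hU (l := 0) le_rfl t _ rfl
  simp only [ell_zero, integral_const, probReal_univ, one_smul, mul_zero, add_zero] at h2 h3
  rw [planted_mean hN hU] at h2 h3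
  have e2 : ∀ g : Fin m → Fin N → ℝ, Real.exp (t * lz N U g) =
      Real.exp (t * (N * kk N U m 0)) * Real.exp (t * (lz N U g - N * kk N U m 0)) := fun g => by
    rw [← Real.exp_add]; ring_nf
  rw [show (fun g : Fin m → Fin N → ℝ => Real.exp (t * lz N U g)) = _ from funext e2]
  refine ⟨h2.const_mul _, ?_⟩
  rw [integral_const_mul, Real.exp_add]
  exact mul_le_mul_of_nonneg_left h3 (Real.exp_pos _).le

lemma jensen_exp {Ω : Type} [MeasurableSpace Ω] {μ : Measure Ω} [IsProbabilityMeasure μ] {X : Ω → ℝ} (c : ℝ)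
    (hX : Integrable X μ) (he : Integrable (fun w => Real.exp (c * X w)) μ) :
    Real.exp (c * ∫ w, X w ∂μ) ≤ ∫ w, Real.exp (c * X w) ∂μ := by
  set a := ∫ w, X w ∂μ
  have h1 : Integrable (fun w => Real.exp (c * a) * (1 + c * (X w - a))) μ :=
    ((integrable_const 1).add ((hX.sub (integrable_const a)).const_mul c)).const_mul _
  refine le_trans (le_of_eq ?_) (integral_mono h1 he fun w => exp_line c (X w) a)
  rw [integral_const_mul, integral_add (integrable_const 1) ((hX.sub' (integrable_const a)).const_mul c),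
    integral_const_mul, integral_sub hX (integrable_const a)]
  simp [a]

lemma gap_nonneg : 0 ≤ gapN N U m ∧ 0 ≤ kk N U m 0 := by
  have hN0 : (0:ℝ) < N := by exact_mod_cast hN
  have h1 := avm_one hN (V := fun _ : Fin m => U) (fun _ => hU) 0 le_rfl
  rw [avm_zero] at h1
  have itt : Integrable (fun g => tt (lp N (fun _ => U) g)) (pg N m) :=
    Integrable.of_integral_ne_zero (by rw [h1]; exact one_ne_zero)
  have ilz : Integrable (fun g => lz N U g) (pg N m) :=
    Integrable.of_bound (meas_lz hU).aestronglyMeasurable _ (Eventually.of_forall fun g => by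
      rw [Real.norm_eq_abs]; exact abs_lz hU g)
  constructor
  · have h := integral_mono ilz (itt.sub (integrable_const 1)) fun g =>
      Real.log_le_sub_one_of_pos (tt_pos (lp N (fun _ => U) g))
    rw [integral_sub' itt (integrable_const 1), h1] at h
    simp at h
    exact div_nonneg (neg_nonneg.2 h) hN0.le
  · have g0 : Gro fun z : (Fin N → Bool) → ℝ => tt z + (-1) := gro_tt.add (Gro.const _)
    have h := avm_mono (fun _ : Fin m => hU) g0 gro_ent (fun z => ?_) 0
    · refine div_nonneg ?_ hN0.le
      refine le_trans (le_of_eq ?_) h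
      rw [avm_zero, integral_add itt (integrable_const _), h1]
      simp
    · have := (phi_second (tt_pos z) one_pos).1
      simp only [phi, Real.log_one] at this
      rw [ent]; linarith

/-- quantitative equivalence -/
lemma gap_bounds {α : ℝ} (hm : (m:ℝ) ≤ α * N) {s : ℝ} :
    s * gapN N U m ≤ (1 - s) * kk N U m 0 + 2 * α * lb lo hi ^ 2 * s ^ 2 ∧
      s * kk N U m 0 ≤ (1 - s) * gapN N U m + 2 * α * lb lo hi ^ 2 * s ^ 2 := by
  have := prob_qU hN hU
  have hN0 : (0:ℝ) < N := by exact_mod_cast hN
  have herr : (m:ℝ) * (2 * (s * lb lo hi) ^ 2) ≤ N * (2 * α * lb lo hi ^ 2 * s ^ 2) := by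
    have := mul_le_mul_of_nonneg_right hm (show 0 ≤ 2 * (s * lb lo hi) ^ 2 by positivity)
    linarith
  constructor
  · obtain ⟨i1, -⟩ := planted_mgf0 (m := m) hN hU (s - 1)
    have ilz : Integrable (fun g => lz N U g) (Measure.pi fun _ : Fin m => qU N U) :=
      Integrable.of_bound (meas_lz hU).aestronglyMeasurable _ (Eventually.of_forall fun g => by
        rw [Real.norm_eq_abs]; exact abs_lz hU g)
    have j := jensen_exp hN hU (s - 1) ilz i1
    rw [planted_mean hN hU, planted_eq hN hU, sub_add_cancel] at j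
    have h := Real.exp_le_exp.1 (j.trans (null_mgf hN hU s).2)
    refine le_of_mul_le_mul_left ?_ hN0
    linarith
  · obtain ⟨i1, -⟩ := null_mgf (m := m) hN hU (1 - s)
    have ilz : Integrable (fun g => lz N U g) (pg N m) :=
      Integrable.of_bound (meas_lz hU).aestronglyMeasurable _ (Eventually.of_forall fun g => by
        rw [Real.norm_eq_abs]; exact abs_lz hU g)
    have j := jensen_exp hN hU (1 - s) ilz i1
    rw [show ∫ g, lz N U g ∂pg N m = -(N:ℝ) * gapN N U m by rw [gapN]; field_simp] at j
    have h2 := (planted_mgf0 (m := m) hN hU (-s)).2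
    rw [planted_eq hN hU, show -s + 1 = 1 - s by ring] at h2
    have h := Real.exp_le_exp.1 (j.trans h2)
    rw [show m * (2 * (-s * lb lo hi) ^ 2) = (m:ℝ) * (2 * (s * lb lo hi) ^ 2) by ring] at h
    refine le_of_mul_le_mul_left ?_ hN0
    linarith

end Bounds

/-- the normalised weight of a potential -/
noncomputable def wgt (f : ℝ → ℝ) (x : ℝ) : ℝ := Real.exp (f x - ann f)

lemma wgt_pw {f : ℝ → ℝ} {B : ℝ} (hf : Measurable f) (hB : ∀ s, |f s| ≤ B) :
    Pw (wgt f) (Real.exp (-(2 * B))) (Real.exp (2 * B)) := by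
  have hi' : Integrable (fun x => Real.exp (f x)) γ :=
    integrable_bdd (Real.measurable_exp.comp hf) (C := Real.exp B) fun x => by
      rw [Real.abs_exp]; exact Real.exp_le_exp.2 (abs_le.1 (hB x)).2
  have ha : |ann f| ≤ B := by
    have e := exp_ann hf hB
    rw [abs_le]
    constructor <;> rw [← Real.exp_le_exp, e]
    · simpa using integral_mono (integrable_const (Real.exp (-B))) hi' fun x => Real.exp_le_exp.2 (abs_le.1 (hB x)).1
    · simpa using integral_mono hi' (integrable_const (Real.exp B)) fun x => Real.exp_le_exp.2 (abs_le.1 (hB x)).2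
  refine ⟨Real.measurable_exp.comp (hf.sub measurable_const), Real.exp_pos _, fun x => ?_, fun x => ?_, ?_⟩
  · exact Real.exp_le_exp.2 (by linarith [(abs_le.1 (hB x)).1, (abs_le.1 ha).2])
  · exact Real.exp_le_exp.2 (by linarith [(abs_le.1 (hB x)).2, (abs_le.1 ha).1])
  · show ∫ x, Real.exp (f x - ann f) ∂gaussianReal 0 1 = 1
    simp only [sub_eq_add_neg, Real.exp_add, integral_mul_const]
    rw [← exp_ann hf hB, ← Real.exp_add, add_neg_cancel, Real.exp_zero]

/-- the cube is a finite average -/
lemma partition_cube {f : ℝ → ℝ} (hf : Measurable f) (N : ℕ) {M : ℕ} (g : Fin M → Fin N → ℝ) :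
    partition (isingUniform N) f (fun a => WithLp.toLp 2 (g a)) =
      ∑ σ, (1/2 : ℝ) ^ N * Real.exp (∑ a, f (dot (xv N σ) (g a))) := by
  set ν : Measure Bool := (2 : ℝ≥0∞)⁻¹ • Measure.count with hν
  have hmapν : ν.map sgn = (2 : ℝ≥0∞)⁻¹ • (Measure.dirac (-1 : ℝ) + Measure.dirac 1) := by
    have : (Measure.count : Measure Bool) = Measure.dirac false + Measure.dirac true := by
      ext s hs
      rw [Measure.count, Measure.sum_apply _ hs, tsum_fintype, Fintype.sum_bool, Measure.add_apply, add_comm]
    rw [hν, this, Measure.map_smul, Measure.map_add _ _ (measurable_of_finite _),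
      Measure.map_dirac' (measurable_of_finite _), Measure.map_dirac' (measurable_of_finite _)]
    simp [sgn]
  have hfin : IsFiniteMeasure ν := ⟨by simp [hν, ENNReal.mul_lt_top_iff]⟩
  have hiso : isingUniform N = (Measure.pi fun _ : Fin N => ν).map
      (fun σ => WithLp.toLp 2 (fun i => sgn (σ i))) := by
    rw [isingUniform, ← hmapν, ← Measure.pi_map_pi (fun _ => (measurable_of_finite _).aemeasurable),
      Measure.map_map (by fun_prop) (measurable_of_finite _)]
    rfl
  rw [partition, hiso, integral_map (measurable_of_finite _).aemeasurable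
    (measurable_energy_left hf _).aestronglyMeasurable, integral_fintype (Integrable.of_finite)]
  refine Finset.sum_congr rfl fun σ _ => ?_
  congr 1
  · simp [measureReal_def, Measure.pi_singleton, hν]
  · refine congrArg Real.exp (Finset.sum_congr rfl fun a _ => congrArg f ?_)
    simp only [PiLp.inner_apply, RCLike.inner_apply, conj_trivial, dot, xv, Finset.sum_div]
    exact Finset.sum_congr rfl fun i _ => by ring

/-- the pressure of the cube -/
lemma pressure_cube {f : ℝ → ℝ} {B : ℝ} (hf : Measurable f) (hB : ∀ s, |f s| ≤ B) {N : ℕ} (hN : 0 < N) (M : ℕ) :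
    pressure (isingUniform N) f M = (M:ℝ) / N * ann f - gapN N (wgt f) M := by
  have hN0 : (0:ℝ) < N := by exact_mod_cast hN
  have hU := wgt_pw hf hB
  have hpat : patterns N M = (Measure.pi fun _ : Fin M => gauss (Fin N)).map
      (fun g a => WithLp.toLp 2 (g a)) := by
    rw [Measure.pi_map_pi (f := fun _ => WithLp.toLp 2) (fun _ => Measurable.aemeasurable (by fun_prop))]
    simp only [patterns, gauss, map_pi_eq_stdGaussian]
  have hm : AEStronglyMeasurable (fun g => Real.log (partition (isingUniform N) f g))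
      ((Measure.pi fun _ : Fin M => gauss (Fin N)).map (fun g a => WithLp.toLp 2 (g a))) := by
    have := (carried_ising N).prob
    exact (Real.measurable_log.comp (measurable_partition hf)).aestronglyMeasurable
  rw [pressure, hpat, integral_map (Measurable.aemeasurable (by fun_prop)) hm]
  have hpt : ∀ g : Fin M → Fin N → ℝ,
      Real.log (partition (isingUniform N) f (fun a => WithLp.toLp 2 (g a))) =
        (M:ℝ) * ann f + lz N (wgt f) g := fun g => by
    rw [partition_cube hf, lz, ← Real.log_exp ((M:ℝ) * ann f), ← Real.log_mul (Real.exp_pos _).ne' (tt_pos _).ne']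
    refine congrArg Real.log ?_
    rw [tt, Finset.mul_sum]
    refine Finset.sum_congr rfl fun σ _ => ?_
    simp only [lp, wgt, Real.log_exp, Finset.sum_sub_distrib, Finset.sum_const, Finset.card_univ, Fintype.card_fin,
      nsmul_eq_mul]
    rw [← Real.exp_add, show ((M:ℝ) * ann f + (-(N * Real.log 2) + (∑ a, f (dot (xv N σ) (g a)) - M * ann f))) =
      -(N * Real.log 2) + ∑ a, f (dot (xv N σ) (g a)) by ring, Real.exp_add, Real.exp_neg, Real.exp_nat_mul,
      Real.exp_log two_pos]
    simp [div_pow]
  simp only [hpt]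
  have ilz : Integrable (fun g => lz N (wgt f) g) (pg N M) :=
    Integrable.of_bound (meas_lz hU).aestronglyMeasurable _ (Eventually.of_forall fun g => by
      rw [Real.norm_eq_abs]; exact abs_lz hU g)
  change 1 / (N:ℝ) * ∫ g, (M:ℝ) * ann f + lz N (wgt f) g ∂pg N M = _
  rw [integral_add (integrable_const _) ilz, integral_const, probReal_univ, one_smul, gapN]
  field_simp
  ring

end Vale.Agent.P157.Teach
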