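import Vale.Agent.P157.Teach.Model

/-! Scalar facts: the channel entropy `I0`, and `Ψ` for measurable weights. -/

open MeasureTheory ProbabilityTheory Set Filter
open scoped Topology

namespace Vale.Agent.P157.Teach

private def noW : Fin 0 → ℝ → ℝ := fun a => a.elim0

private lemma noW_pw : ∀ a, Pw (noW a) 1 1 := fun a => a.elim0

lemma ke_one {l : ℝ} (hl : 0 ≤ l) : ke 1 noW l = I0 l := ke_zero one_pos noW hl

/-- supporting lines of the channel entropy -/
lemma I0_tangent {a : ℝ} (ha : 0 ≤ a) :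
    ∃ d ∈ Icc (0:ℝ) 1, ∀ b, 0 ≤ b → I0 a + d / 2 * (b - a) ≤ I0 b := by
  have h := ovm_mem one_pos noW_pw ha
  rw [Nat.cast_one] at h
  refine ⟨ovm 1 noW a, h, fun b hb => ?_⟩
  rw [← ke_one ha, ← ke_one hb]
  rcases le_total a b with hab | hab
  · have := (ke_slope one_pos noW_pw ha hab).1
    rw [Nat.cast_one, mul_one] at this
    linarith
  · have := (ke_slope one_pos noW_pw hb hab).2
    rw [Nat.cast_one, mul_one] at this
    linarith

lemma I0_zero : I0 0 = 0 := by simp [I0, phi]

lemma I0_incr {a b : ℝ} (ha : 0 ≤ a) (hab : a ≤ b) : I0 a ≤ I0 b ∧ I0 b ≤ I0 a + (b - a) / 2 := by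
  obtain ⟨d, ⟨hd0, -⟩, hd⟩ := I0_tangent ha
  obtain ⟨e, ⟨-, he1⟩, he⟩ := I0_tangent (ha.trans hab)
  constructor
  · linarith [hd b (ha.trans hab), mul_nonneg (show 0 ≤ d / 2 by linarith) (sub_nonneg.2 hab)]
  · linarith [he a ha, mul_le_mul_of_nonneg_right (show e / 2 ≤ 1 / 2 by linarith) (sub_nonneg.2 hab)]

variable {lo hi : ℝ} {U V : ℝ → ℝ}

lemma Pw.hi_pos (h : Pw U lo hi) : 0 < hi := h.pos.trans_le ((h.ge 0).trans (h.le 0))

lemma Pw.meas_smooth (h : Pw U lo hi) (q : ℝ) :
    Measurable fun z => Uraw U (√q * z) (1 - q) :=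
  ((h.meas.comp (show Measurable fun p : ℝ × ℝ => √q * p.1 + √(1 - q) * p.2 by fun_prop)).stronglyMeasurable.integral_prod_right'
    (ν := gaussianReal 0 1)).measurable

lemma Pw.smooth_mem (h : Pw U lo hi) (x v : ℝ) : lo ≤ Uraw U x v ∧ Uraw U x v ≤ hi := by
  have hi' : Integrable (fun ξ => U (x + √v * ξ)) (gaussianReal 0 1) :=
    Integrable.of_bound (h.meas.comp (by fun_prop)).aestronglyMeasurable hi
      (Eventually.of_forall fun ξ => h.abs_V _)
  exact ⟨by simpa [Uraw] using integral_mono (integrable_const lo) hi' fun ξ => h.ge _,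
    by simpa [Uraw] using integral_mono hi' (integrable_const hi) fun ξ => h.le _⟩

lemma Pw.int_smooth (h : Pw U lo hi) (q : ℝ) :
    Integrable (fun z => Uraw U (√q * z) (1 - q)) (gaussianReal 0 1) ∧
      Integrable (fun z => phi (Uraw U (√q * z) (1 - q))) (gaussianReal 0 1) := by
  constructor
  · exact Integrable.of_bound (h.meas_smooth q).aestronglyMeasurable hi
      (Eventually.of_forall fun z => by simpa using abs_Uraw h.abs_V _ _)
  · refine Integrable.of_bound (Real.continuous_mul_log.measurable.comp (h.meas_smooth q)).aestronglyMeasurable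
      (hi * lb lo hi) (Eventually.of_forall fun z => ?_)
    obtain ⟨a, b⟩ := h.smooth_mem (√q * z) (1 - q)
    have a0 := h.pos.trans_le a
    rw [Real.norm_eq_abs, phi, abs_mul, abs_of_pos a0, lb]
    refine mul_le_mul b (abs_le.2 ⟨?_, ?_⟩) (abs_nonneg _) h.hi_pos.le
    · linarith [Real.log_le_log h.pos a, neg_abs_le (Real.log lo), abs_nonneg (Real.log hi)]
    · linarith [Real.log_le_log a0 b, le_abs_self (Real.log hi), abs_nonneg (Real.log lo)]

lemma Pw.mean_smooth (h : Pw U lo hi) {q : ℝ} (hq : q ∈ Icc (0:ℝ) 1) :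
    ∫ z, Uraw U (√q * z) (1 - q) ∂gaussianReal 0 1 = 1 := by
  have e := gauss_pair h.meas h.abs_V (√q) (√(1 - q))
  rw [Real.sq_sqrt hq.1, Real.sq_sqrt (by linarith [hq.2]), add_sub_cancel, Real.sqrt_one] at e
  simp only [one_mul, h.mean] at e
  exact e

/-- the information of one observation is nonnegative and bounded -/
lemma Pw.Psi_mem (h : Pw U lo hi) {q : ℝ} (hq : q ∈ Icc (0:ℝ) 1) :
    0 ≤ Psi U q ∧ Psi U q ≤ hi * lb lo hi := by
  obtain ⟨i1, i2⟩ := h.int_smooth q
  constructor
  · have hle : ∫ z, (Uraw U (√q * z) (1 - q) - 1) ∂gaussianReal 0 1 ≤ Psi U q :=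
      integral_mono (i1.sub (integrable_const _)) i2 fun z => by
        have := (phi_second (h.pos.trans_le (h.smooth_mem (√q * z) (1 - q)).1) one_pos).1
        simp only [phi, Real.log_one] at this ⊢
        linarith
    rw [integral_sub i1 (integrable_const _), h.mean_smooth hq] at hle
    simpa using hle
  · refine (integral_mono i2 (integrable_const (hi * lb lo hi)) fun z => ?_).trans_eq (by simp)
    obtain ⟨a, b⟩ := h.smooth_mem (√q * z) (1 - q)
    have a0 := h.pos.trans_le a
    have hl : Real.log (Uraw U (√q * z) (1 - q)) ≤ lb lo hi := (Real.log_le_log a0 b).trans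
      (by rw [lb]; linarith [le_abs_self (Real.log hi), abs_nonneg (Real.log lo)])
    exact (mul_le_mul_of_nonneg_left hl a0.le).trans (mul_le_mul_of_nonneg_right b lb_nonneg)

/-- `Ψ` is Lipschitz in the weight for the `L¹` distance -/
lemma Psi_stable (hU : Pw U lo hi) (hV : Pw V lo hi) {q : ℝ} (hq : q ∈ Icc (0:ℝ) 1) :
    |Psi U q - Psi V q| ≤ (lb lo hi + 1) * ∫ x, |U x - V x| ∂gaussianReal 0 1 := by
  have hB : ∀ x, |(fun x => |U x - V x|) x| ≤ hi + hi := fun x => by
    simp only [abs_abs]; exact (abs_sub _ _).trans (add_le_add (hU.abs_V x) (hV.abs_V x))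
  have hm : Measurable fun x => |U x - V x| := (hU.meas.sub hV.meas).abs
  set D := fun z => ∫ ξ, |U (√q * z + √(1 - q) * ξ) - V (√q * z + √(1 - q) * ξ)| ∂gaussianReal 0 1
  have hD : Measurable D :=
    ((hm.comp (show Measurable fun p : ℝ × ℝ => √q * p.1 + √(1 - q) * p.2 by fun_prop)).stronglyMeasurable.integral_prod_right'
      (ν := gaussianReal 0 1)).measurable
  have e : ∫ z, D z ∂gaussianReal 0 1 = ∫ x, |U x - V x| ∂gaussianReal 0 1 := by
    have := gauss_pair hm hB (√q) (√(1 - q))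
    rw [Real.sq_sqrt hq.1, Real.sq_sqrt (by linarith [hq.2]), add_sub_cancel, Real.sqrt_one] at this
    simpa using this
  have hDi : Integrable D (gaussianReal 0 1) := Integrable.of_bound hD.aestronglyMeasurable (hi + hi)
    (Eventually.of_forall fun z => by
      have := norm_integral_le_of_norm_le_const (μ := gaussianReal 0 1)
        (f := fun ξ => |U (√q * z + √(1 - q) * ξ) - V (√q * z + √(1 - q) * ξ)|) (C := hi + hi)
        (Eventually.of_forall fun ξ => hB _)
      simpa [D] using this)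
  obtain ⟨-, iU⟩ := hU.int_smooth q
  obtain ⟨-, iV⟩ := hV.int_smooth q
  rw [← e, ← integral_const_mul, Psi, Psi, ← integral_sub iU iV]
  refine abs_integral_le_integral_abs.trans (integral_mono (iU.sub iV).abs (hDi.const_mul _) fun z => ?_)
  set A := Uraw U (√q * z) (1 - q)
  set A' := Uraw V (√q * z) (1 - q)
  have hA := hU.smooth_mem (√q * z) (1 - q)
  have hA' := hV.smooth_mem (√q * z) (1 - q)
  have hlog : ∀ b, lo ≤ b → b ≤ hi → |Real.log b + 1| ≤ lb lo hi + 1 := fun b h1 h2 => by
    refine (abs_add_le _ _).trans (add_le_add ?_ (by norm_num))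
    rw [lb, abs_le]
    constructor
    · linarith [Real.log_le_log hU.pos h1, neg_abs_le (Real.log lo), abs_nonneg (Real.log hi)]
    · linarith [Real.log_le_log (hU.pos.trans_le h1) h2, le_abs_self (Real.log hi), abs_nonneg (Real.log lo)]
  have p1 := (phi_second (hU.pos.trans_le hA.1) (hU.pos.trans_le hA'.1)).1
  have p2 := (phi_second (hU.pos.trans_le hA'.1) (hU.pos.trans_le hA.1)).1
  have b1 := (abs_le.1 (show |(Real.log A' + 1) * (A - A')| ≤ (lb lo hi + 1) * |A - A'| by
    rw [abs_mul]; exact mul_le_mul_of_nonneg_right (hlog _ hA'.1 hA'.2) (abs_nonneg _))).1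
  have b2 := (abs_le.1 (show |(Real.log A + 1) * (A' - A)| ≤ (lb lo hi + 1) * |A - A'| by
    rw [abs_mul, abs_sub_comm A' A]; exact mul_le_mul_of_nonneg_right (hlog _ hA.1 hA.2) (abs_nonneg _))).1
  refine (show |phi A - phi A'| ≤ (lb lo hi + 1) * |A - A'| from abs_le.2 ⟨by linarith, by linarith⟩).trans ?_
  refine mul_le_mul_of_nonneg_left ?_ (by linarith [lb_nonneg (lo := lo) (hi := hi)])
  have iu : ∀ {W : ℝ → ℝ}, Pw W lo hi → Integrable (fun ξ => W (√q * z + √(1 - q) * ξ)) (gaussianReal 0 1) :=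
    fun hW => Integrable.of_bound (hW.meas.comp (by fun_prop)).aestronglyMeasurable hi
      (Eventually.of_forall fun ξ => hW.abs_V _)
  simp only [A, A', Uraw]
  rw [← integral_sub (iu hU) (iu hV)]
  exact abs_integral_le_integral_abs

namespace Sm

variable {U1 U2 : ℝ → ℝ} {L : ℝ} (h : Sm U U1 U2 lo hi L)
include h

lemma rho_le (q : ℝ) : rho U U1 q ≤ L ^ 2 / lo := by
  refine (integral_mono_of_nonneg (Eventually.of_forall fun z => (h.rho_integrand q z).1)
    (integrable_const _) (Eventually.of_forall fun z => (h.rho_integrand q z).2)).trans_eq (by simp)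

lemma continuousOn_Psi : ContinuousOn (Psi U) (Icc 0 1) := by
  have key : ∀ s t : ℝ, s ∈ Icc (0:ℝ) 1 → t ∈ Icc (0:ℝ) 1 → |Psi U s - Psi U t| ≤ L ^ 2 / lo / 2 * |s - t| := by
    intro s t hs ht
    rcases lt_trichotomy t s with hl | rfl | hl
    · obtain ⟨h1, h2⟩ := h.slope ht.1 hl hs.2
      have := mul_nonneg (div_nonneg (h.rho_nonneg t) two_pos.le) (sub_nonneg.2 hl.le)
      have := mul_le_mul_of_nonneg_right (div_le_div_of_nonneg_right (h.rho_le s) two_pos.le) (sub_nonneg.2 hl.le)
      rw [abs_of_pos (sub_pos.2 hl), abs_le]; constructor <;> linarith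
    · simp
    · obtain ⟨h1, h2⟩ := h.slope hs.1 hl ht.2
      have := mul_nonneg (div_nonneg (h.rho_nonneg s) two_pos.le) (sub_nonneg.2 hl.le)
      have := mul_le_mul_of_nonneg_right (div_le_div_of_nonneg_right (h.rho_le t) two_pos.le) (sub_nonneg.2 hl.le)
      rw [abs_of_neg (sub_neg.2 hl), abs_le]; constructor <;> linarith
  refine (LipschitzOnWith.of_dist_le_mul (K := (L ^ 2 / lo / 2).toNNReal) fun s hs t ht => ?_).continuousOn
  rw [Real.dist_eq, Real.dist_eq, Real.coe_toNNReal _ (by have := h.pos; positivity)]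
  exact key s t hs ht

end Sm

end Vale.Agent.P157.Teach
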