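import Mathlib

/-! A base point at which a sum of fluctuations along monotone curves is small. -/

open Set Filter
open scoped Topology

namespace Vale.Agent.P157.Teach

/-- If `g i` is dominated by the derivative of a bounded `F i`, then along curves of slope at least
one some base point makes the sum of the `g i` small. -/
lemma select {ι : Type} [Fintype ι] {a b T R : ℝ} (hab : a < b)
    (F g : ι → ℝ → ℝ) (Λ : ι → ℝ → ℝ)
    (hΛc : ∀ i, ContinuousOn (Λ i) (Icc a b))
    (hΛm : ∀ i s t, a ≤ s → s ≤ t → t ≤ b → t - s ≤ Λ i t - Λ i s)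
    (hΛr : ∀ i, ∀ s ∈ Icc a b, 0 < Λ i s ∧ Λ i s < T)
    (hF : ∀ i l, 0 < l → l < T → ∃ d, HasDerivAt (F i) d l ∧ 0 ≤ d ∧ g i l ≤ d)
    (hR : ∀ i l, 0 < l → l < T → |F i l| ≤ R) :
    ∃ s ∈ Icc a b, (b - a) * ∑ i, g i (Λ i s) ≤ 2 * Fintype.card ι * R + 1 := by
  by_contra hne
  push Not at hne
  set S := fun s => ∑ i, F i (Λ i s)
  set Θ := (2 * (Fintype.card ι : ℝ) * R + 1) / (b - a)
  have hba : 0 < b - a := sub_pos.2 hab
  have hg : ∀ s ∈ Icc a b, Θ < ∑ i, g i (Λ i s) := fun s hs => by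
    rw [div_lt_iff₀ hba]; linarith [hne s hs]
  have hmono : ∀ i u v, 0 < u → u ≤ v → v < T → F i u ≤ F i v := by
    intro i u v hu huv hv
    rcases huv.eq_or_lt with rfl | hlt
    · exact le_rfl
    have hd : ∀ x ∈ Icc u v, ∃ d, HasDerivAt (F i) d x ∧ 0 ≤ d := fun x hx =>
      let ⟨d, h1, h2, _⟩ := hF i x (hu.trans_le hx.1) (hx.2.trans_lt hv)
      ⟨d, h1, h2⟩
    choose! d hd1 hd2 using hd
    obtain ⟨c, hc, he⟩ := exists_hasDerivAt_eq_slope (F i) d hlt
      (fun x hx => (hd1 x hx).continuousAt.continuousWithinAt) fun x hx => hd1 x (Ioo_subset_Icc_self hx)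
    have := hd2 c (Ioo_subset_Icc_self hc)
    rw [he, le_div_iff₀ (by linarith), zero_mul] at this
    linarith
  have hcS : ContinuousOn (fun s => -S s) (Icc a b) := by
    refine (continuousOn_finsetSum _ fun i _ s hs => ?_).neg
    obtain ⟨d, hd, -, -⟩ := hF i (Λ i s) (hΛr i s hs).1 (hΛr i s hs).2
    exact hd.continuousAt.comp_continuousWithinAt (hΛc i s hs)
  have key := image_le_of_liminf_slope_right_le_deriv_boundary (B := fun s => -S a - Θ * (s - a))
    (B' := fun _ => -Θ) hcS (by simp) (by fun_prop)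
    (fun x _ => ((((hasDerivAt_id x).sub_const a).const_mul Θ).const_sub _).hasDerivWithinAt.congr_deriv
      (by simp))
    (fun x hx r hr => by
      have hxb := Ico_subset_Icc_self hx
      have hd : ∀ i, ∃ d, HasDerivAt (F i) d (Λ i x) ∧ g i (Λ i x) ≤ d := fun i =>
        let ⟨d, h1, _, h3⟩ := hF i (Λ i x) (hΛr i x hxb).1 (hΛr i x hxb).2
        ⟨d, h1, h3⟩
      choose d hd1 hd2 using hd
      set Q := fun z => ∑ i, F i (Λ i x + (z - x))
      have hQ : HasDerivAt Q (∑ i, d i) x := by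
        refine (HasDerivAt.fun_sum fun i _ => ?_).congr_deriv rfl
        have h2 : HasDerivAt (fun z => Λ i x + (z - x)) 1 x := ((hasDerivAt_id x).sub_const x).const_add _
        have := (hd1 i).comp_of_eq x h2 (by simp)
        rwa [mul_one] at this
      have hlt : -r < ∑ i, d i := by
        linarith [hg x hxb, Finset.sum_le_sum fun i (_ : i ∈ Finset.univ) => hd2 i]
      have ev : ∀ᶠ z in 𝓝[>] x, -r < slope Q x z :=
        (((hasDerivAt_iff_tendsto_slope_left_right).1 hQ).2).eventually (eventually_gt_nhds hlt)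
      refine Eventually.frequently ?_
      filter_upwards [ev, self_mem_nhdsWithin,
        nhdsWithin_le_nhds (eventually_lt_nhds hx.2)] with z hz hxz hzb
      have hxz' : x < z := hxz
      have hle : Q z - Q x ≤ S z - S x := by
        simp only [Q, S, sub_self, add_zero, ← Finset.sum_sub_distrib]
        refine Finset.sum_le_sum fun i _ => ?_
        have h1 := hΛm i x z hx.1 hxz'.le hzb.le
        have h2 := hΛr i z ⟨hx.1.trans hxz'.le, hzb.le⟩
        linarith [hmono i (Λ i x + (z - x)) (Λ i z) (by linarith [(hΛr i x hxb).1]) (by linarith) h2.2]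
      rw [slope_def_field] at hz ⊢
      rw [lt_div_iff₀ (by linarith)] at hz
      rw [div_lt_iff₀ (by linarith)]
      show -S z - -S x < _
      linarith)
    (right_mem_Icc.2 hab.le)
  have e : Θ * (b - a) = 2 * (Fintype.card ι : ℝ) * R + 1 := div_mul_cancel₀ _ hba.ne'
  have hSb : ∀ s ∈ Icc a b, |S s| ≤ Fintype.card ι * R := fun s hs => by
    refine (Finset.abs_sum_le_sum_abs _ _).trans
      ((Finset.sum_le_sum fun i _ => hR i _ (hΛr i s hs).1 (hΛr i s hs).2).trans (by simp))
  have h1 := abs_le.1 (hSb a (left_mem_Icc.2 hab.le))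
  have h2 := abs_le.1 (hSb b (right_mem_Icc.2 hab.le))
  have : -S b ≤ -S a - Θ * (b - a) := key
  linarith

end Vale.Agent.P157.Teach
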