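import Vale.Agent.P157.Teach.Conc
import Vale.Agent.P157.Teach.Sel
import Vale.Agent.P157.Teach.Scalar

/-! The planted free entropy along discrete paths: matching upper and lower bounds. -/

open MeasureTheory ProbabilityTheory Set Filter
open scoped Topology

namespace Vale.Agent.P157.Teach

/-- free entropy with `m` copies of the weight -/
noncomputable def kk (N : ℕ) (U : ℝ → ℝ) (m : ℕ) (l : ℝ) : ℝ := ke N (fun _ : Fin m => U) l

/-- mean overlap per site -/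
noncomputable def qq (N : ℕ) (U : ℝ → ℝ) (m : ℕ) (l : ℝ) : ℝ := ovm N (fun _ : Fin m => U) l / N

/-- the adaptive side channel -/
noncomputable def lam (N : ℕ) (U U1 : ℝ → ℝ) (M : ℕ) : ℕ → ℝ → ℝ
  | 0, s => s
  | j + 1, s => lam N U U1 M j s + rho U U1 (qq N U (M - (j + 1)) (lam N U U1 M j s)) / N

/-- potential range divided by `N ^ 2` -/
noncomputable def Rg (η K T : ℝ) (N : ℕ) : ℝ :=
  2 * η + (2 + 2 * K * T / η ^ 3) * (N:ℝ)⁻¹ + 2 * (1 + K) * (√(N:ℝ))⁻¹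

lemma tendsto_Rg (η K T : ℝ) : Tendsto (Rg η K T) atTop (𝓝 (2 * η)) := by
  have h1 : Tendsto (fun N : ℕ => (N:ℝ)⁻¹) atTop (𝓝 0) :=
    tendsto_inv_atTop_zero.comp tendsto_natCast_atTop_atTop
  have h2 : Tendsto (fun N : ℕ => (√(N:ℝ))⁻¹) atTop (𝓝 0) :=
    tendsto_inv_atTop_zero.comp (Real.tendsto_sqrt_atTop.comp tendsto_natCast_atTop_atTop)
  have := ((tendsto_const_nhds (x := 2 * η)).add (h1.const_mul (2 + 2 * K * T / η ^ 3))).add
    (h2.const_mul (2 * (1 + K)))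
  rw [mul_zero, add_zero, mul_zero, add_zero] at this
  exact this

variable {N : ℕ} {lo hi : ℝ} {U : ℝ → ℝ}

section One

variable (hN : 0 < N) (hUp : Pw U lo hi)
include hN hUp

lemma qq_mem (m : ℕ) {l : ℝ} (hl : 0 ≤ l) : qq N U m l ∈ Icc (0:ℝ) 1 := by
  have h := ovm_mem hN (fun _ : Fin m => hUp) hl
  have hN0 : (0:ℝ) < N := by exact_mod_cast hN
  exact ⟨div_nonneg h.1 hN0.le, by rw [qq, div_le_one hN0]; exact h.2⟩

omit hN in
lemma continuous_qq (m : ℕ) : Continuous (qq N U m) :=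
  (continuous_avm (fun _ : Fin m => hUp) gro_ov1).div_const _

lemma qq_mono (m : ℕ) {a b : ℝ} (ha : 0 ≤ a) (hab : a ≤ b) : qq N U m a ≤ qq N U m b :=
  div_le_div_of_nonneg_right (ovm_mono hN (fun _ : Fin m => hUp) ha hab) (Nat.cast_nonneg N)

lemma kk_slope (m : ℕ) {a b : ℝ} (ha : 0 ≤ a) (hab : a ≤ b) :
    qq N U m a / 2 * (b - a) ≤ kk N U m b - kk N U m a ∧
      kk N U m b - kk N U m a ≤ qq N U m b / 2 * (b - a) := by
  have h := ke_slope hN (fun _ : Fin m => hUp) ha hab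
  simp only [qq, div_div]
  rw [mul_comm (N:ℝ) 2]
  exact h

lemma hasDeriv_kk (m : ℕ) {l : ℝ} (hl : 0 < l) : HasDerivAt (kk N U m) (qq N U m l / 2) l := by
  have := (d_ent (μ := pg N m) (fun s i => (abs_sx s i).le) sx_self (measurable_lp fun _ : Fin m => hUp) (lpB_nonneg N m)
    (fun g s => abs_lp (fun _ : Fin m => hUp) g s) hl).div_const (N:ℝ)
  rw [div_right_comm] at this
  exact this

lemma pot_bound (m : ℕ) {η K l T : ℝ} (hη : 0 < η) (hl : 0 ≤ l) (hlT : l ≤ T)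
    (hK : 48 * Real.exp (2 * (m / N) * lb lo hi ^ 2 + l) ≤ K) :
    |pot4 N (m := m) U η K l| ≤ (N:ℝ) ^ 2 * Rg η K T N := by
  refine (pot4_range hN hUp hη.le hl hK).trans ?_
  have hN0 : (0:ℝ) < N := by exact_mod_cast hN
  have hK0 : 0 ≤ K := le_trans (by positivity) hK
  have hr : 0 < √(N:ℝ) := Real.sqrt_pos.2 hN0
  have hr2 : √(N:ℝ) ^ 2 = N := Real.sq_sqrt hN0.le
  have e : (N:ℝ) ^ 2 * Rg η K T N =
      2 * N * (1 + (1 + K) * √(N:ℝ)) + 2 * η * (N:ℝ) ^ 2 + 2 * K * N / η ^ 3 * T := by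
    have e1 : (N:ℝ) ^ 2 * (√(N:ℝ))⁻¹ = N * √(N:ℝ) := by
      rw [← div_eq_mul_inv, div_eq_iff hr.ne', mul_assoc, ← sq, hr2, sq]
    have e2 : (N:ℝ) ^ 2 * (N:ℝ)⁻¹ = N := by field_simp
    rw [Rg, mul_add, mul_add, mul_left_comm ((N:ℝ) ^ 2) (2 + 2 * K * T / η ^ 3), e2,
      mul_left_comm ((N:ℝ) ^ 2) (2 * (1 + K)), e1]
    ring
  rw [e, abs_of_pos hη]
  exact add_le_add le_rfl (mul_le_mul_of_nonneg_left hlT (by positivity))

end One

section Paths

variable {U1 U2 : ℝ → ℝ} {L : ℝ} (hU : Sm U U1 U2 lo hi L) (hUp : Pw U lo hi) (hN : 0 < N)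
include hU hUp hN

omit hN in
lemma continuous_lam (M : ℕ) : ∀ j, Continuous (lam N U U1 M j)
  | 0 => continuous_id
  | j + 1 => (continuous_lam M j).add
      ((hU.continuous_rho.comp ((continuous_qq hUp _).comp (continuous_lam M j))).div_const _)

omit hUp hN in
lemma lam_ge (M : ℕ) (s : ℝ) : ∀ j, s ≤ lam N U U1 M j s ∧ lam N U U1 M j s ≤ s + j * (L ^ 2 / lo / N)
  | 0 => by simp [lam]
  | j + 1 => by
    obtain ⟨h1, h2⟩ := lam_ge M s j
    have a := div_nonneg (hU.rho_nonneg (qq N U (M - (j + 1)) (lam N U U1 M j s))) (Nat.cast_nonneg (α := ℝ) N)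
    have b := div_le_div_of_nonneg_right (hU.rho_le (qq N U (M - (j + 1)) (lam N U U1 M j s))) (Nat.cast_nonneg (α := ℝ) N)
    constructor <;> simp only [lam] <;> push_cast <;> linarith

lemma lam_slope (M : ℕ) {s t : ℝ} (hs : 0 ≤ s) (hst : s ≤ t) :
    ∀ j, t - s ≤ lam N U U1 M j t - lam N U U1 M j s
  | 0 => le_rfl
  | j + 1 => by
    have h := lam_slope M hs hst j
    have l0 : 0 ≤ lam N U U1 M j s := hs.trans (lam_ge hU M s j).1
    have l1 : lam N U U1 M j s ≤ lam N U U1 M j t := by linarith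
    have hρ := hU.rho_mono (qq_mem hN hUp (M - (j + 1)) l0).1 (qq_mono hN hUp _ l0 l1)
      (qq_mem hN hUp _ (l0.trans l1)).2
    have := div_le_div_of_nonneg_right hρ (Nat.cast_nonneg (α := ℝ) N)
    simp only [lam]
    linarith

/-- one step of the adaptive path -/
lemma step_upper {m : ℕ} {l : ℝ} (hl : 0 ≤ l) {r : ℝ} (hr : 0 < r) :
    (N:ℝ) * (kk N U (m + 1) l - kk N U m (l + rho U U1 (qq N U m l) / N)) ≤
      Psi U (qq N U m l) - rho U U1 (qq N U m l) * qq N U m l / 2 +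
        2 * L ^ 2 / lo * (r + dfl N (fun _ : Fin m => U) l / ((N:ℝ) ^ 2 * r)) := by
  have hN0 : (0:ℝ) < N := by exact_mod_cast hN
  have h1 := (abs_le.1 (increment hN hU hUp (m := m) hl hr)).2
  have h2 := (kk_slope hN hUp m hl (le_add_of_nonneg_right (div_nonneg (hU.rho_nonneg (qq N U m l)) hN0.le))).1
  have h3 := mul_le_mul_of_nonneg_left h2 hN0.le
  rw [add_sub_cancel_left, show (N:ℝ) * (qq N U m l / 2 * (rho U U1 (qq N U m l) / N)) =
    rho U U1 (qq N U m l) * qq N U m l / 2 by field_simp] at h3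
  simp only [kk, qq] at *
  linarith

/-- one step of the straight path -/
lemma step_lower {m : ℕ} {l Δ : ℝ} (hl : 0 ≤ l) (hΔ : 0 ≤ Δ) {r : ℝ} (hr : 0 < r) :
    Psi U (qq N U m l) - (N:ℝ) * Δ * qq N U m l / 2 -
        2 * L ^ 2 / lo * (r + dfl N (fun _ : Fin m => U) l / ((N:ℝ) ^ 2 * r)) -
        (N:ℝ) * Δ / 2 * (qq N U m (l + Δ) - qq N U m l) ≤
      (N:ℝ) * (kk N U (m + 1) l - kk N U m (l + Δ)) := by
  have hN0 : (0:ℝ) < N := by exact_mod_cast hN
  have h1 := (abs_le.1 (increment hN hU hUp (m := m) hl hr)).1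
  have h2 := (kk_slope hN hUp m hl (le_add_of_nonneg_right hΔ)).2
  have h3 := mul_le_mul_of_nonneg_left h2 hN0.le
  rw [add_sub_cancel_left] at h3
  simp only [kk, qq] at *
  linarith

end Paths

lemma sum_path (F : ℕ → ℝ) (M : ℕ) : F 0 = F M + ∑ j : Fin M, (F j - F (j + 1)) := by
  rw [Fin.sum_univ_eq_sum_range (fun j => F j - F (j + 1)) M, Finset.sum_range_sub']
  ring

/-- the upper bound -/
lemma upper {U1 U2 : ℝ → ℝ} {L : ℝ} (hU : Sm U U1 U2 lo hi L) (hUp : Pw U lo hi) {α : ℝ} (hα : 0 ≤ α)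
    {δ : ℝ} (hδ : 0 ≤ δ) (hH : ∀ r, 0 ≤ r → ∃ q ∈ Icc (0:ℝ) 1, α * Psi U q + I0 r ≤ r * q / 2 + δ)
    {ε : ℝ} (hε : 0 < ε) :
    ∀ᶠ N : ℕ in atTop, ∀ M : ℕ, (M:ℝ) ≤ α * N → kk N U M 0 ≤ δ + ε := by
  have hlo := hU.pos
  set C := 2 * L ^ 2 / lo
  have hC : 0 ≤ C := by positivity
  set r := ε / (8 * (C * α + 1))
  have hr : 0 < r := by positivity
  have hCr : C * α * r ≤ ε / 8 := by
    rw [show C * α * r = ε / 8 * ((C * α) / (C * α + 1)) by simp only [r]; field_simp]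
    exact mul_le_of_le_one_right (by positivity) ((div_le_one (by positivity)).2 (by linarith))
  set η := ε ^ 2 * r / (64 * (C * α + 1))
  have hη : 0 < η := by positivity
  set T := ε + α * (L ^ 2 / lo) + 1
  set K := 48 * Real.exp (2 * α * lb lo hi ^ 2 + T)
  have hlim : Tendsto (fun N : ℕ => C * (α * r + (2 * α * Rg η K T N + (N:ℝ)⁻¹ ^ 3) / (ε / 2) / r)) atTop
      (𝓝 (C * (α * r + (2 * α * (2 * η) + 0 ^ 3) / (ε / 2) / r))) :=
    ((((((tendsto_Rg η K T).const_mul (2 * α)).add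
      ((tendsto_inv_atTop_zero.comp tendsto_natCast_atTop_atTop).pow 3)).div_const (ε / 2)).div_const r).const_add
        (α * r)).const_mul C
  have hsmall : C * (α * r + (2 * α * (2 * η) + 0 ^ 3) / (ε / 2) / r) < ε / 2 := by
    rw [show C * (α * r + (2 * α * (2 * η) + 0 ^ 3) / (ε / 2) / r) =
      C * α * r + ε / 8 * ((C * α) / (C * α + 1)) by simp only [η]; field_simp; ring]
    have : ε / 8 * ((C * α) / (C * α + 1)) ≤ ε / 8 :=
      mul_le_of_le_one_right (by positivity) ((div_le_one (by positivity)).2 (by linarith))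
    linarith
  filter_upwards [hlim.eventually (eventually_lt_nhds hsmall), eventually_gt_atTop 0] with N hE hN M hM
  have hN0 : (0:ℝ) < N := by exact_mod_cast hN
  have hMN : ∀ m : ℕ, m ≤ M → 2 * ((m:ℝ) / N) * lb lo hi ^ 2 ≤ 2 * α * lb lo hi ^ 2 := fun m hm => by
    have : (m:ℝ) / N ≤ α := by rw [div_le_iff₀ hN0]; exact le_trans (by exact_mod_cast hm) hM
    exact mul_le_mul_of_nonneg_right (by linarith) (sq_nonneg _)
  have hKm : ∀ (j : Fin M) (l : ℝ), l < T →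
      48 * Real.exp (2 * ((M - ((j:ℕ) + 1) : ℕ) / N) * lb lo hi ^ 2 + l) ≤ K := fun j l hl =>
    mul_le_mul_of_nonneg_left (Real.exp_le_exp.2 (by linarith [hMN (M - ((j:ℕ) + 1)) (Nat.sub_le _ _)]))
      (by norm_num)
  have hlamT : ∀ (j : Fin M), ∀ s ∈ Icc (ε / 2) ε,
      0 < lam N U U1 M j s ∧ lam N U U1 M j s < T := fun j s hs => by
    obtain ⟨h1, h2⟩ := lam_ge (N := N) hU M s (j:ℕ)
    have : ((j:ℕ):ℝ) * (L ^ 2 / lo / N) ≤ α * (L ^ 2 / lo) := by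
      rw [← mul_div_assoc, div_le_iff₀ hN0, mul_right_comm]
      exact mul_le_mul_of_nonneg_right (le_trans (by exact_mod_cast j.2.le) hM) (by positivity)
    constructor <;> linarith [hs.1, hs.2]
  obtain ⟨s, hs, hsum⟩ := select (T := T) (R := (N:ℝ) ^ 2 * Rg η K T N) (show ε / 2 < ε by linarith)
    (fun j : Fin M => pot4 N (m := M - ((j:ℕ) + 1)) U η K)
    (fun j l => dfl N (fun _ : Fin (M - ((j:ℕ) + 1)) => U) l)
    (fun j => lam N U U1 M j)
    (fun j => (continuous_lam hU hUp M j).continuousOn)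
    (fun j s t hs hst _ => lam_slope hU hUp hN M (by linarith) hst j) hlamT
    (fun j l hl hlT => hasDeriv_pot4 hN hUp hη hl (hKm j l hlT))
    (fun j l hl hlT => pot_bound hN hUp _ hη hl.le hlT.le (hKm j l hlT))
  rw [Fintype.card_fin, show ε - ε / 2 = ε / 2 by ring] at hsum
  set q := fun j : Fin M => qq N U (M - ((j:ℕ) + 1)) (lam N U U1 M j s)
  set ρ := fun j : Fin M => rho U U1 (q j)
  have hs0 : 0 ≤ s := by linarith [hs.1]
  have hq : ∀ j, q j ∈ Icc (0:ℝ) 1 := fun j => qq_mem hN hUp _ (hlamT j s hs).1.le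
  -- telescoping
  set d := fun j : Fin M => dfl N (fun _ : Fin (M - ((j:ℕ) + 1)) => U) (lam N U U1 M j s)
  have hstep : ∀ j : Fin M, (N:ℝ) * (kk N U (M - (j:ℕ)) (lam N U U1 M j s) -
      kk N U (M - ((j:ℕ) + 1)) (lam N U U1 M (j + 1) s)) ≤
      Psi U (q j) - ρ j * q j / 2 + C * (r + d j / ((N:ℝ) ^ 2 * r)) := fun j => by
    have := step_upper hU hUp hN (m := M - ((j:ℕ) + 1)) (hlamT j s hs).1.le hr
    rw [show M - ((j:ℕ) + 1) + 1 = M - (j:ℕ) by omega] at this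
    exact this
  have htel := sum_path (fun j => kk N U (M - j) (lam N U U1 M j s)) M
  simp only [Nat.sub_zero, Nat.sub_self, lam] at htel
  have hk0 : ∀ l, 0 ≤ l → kk N U 0 l = I0 l := fun l hl => ke_zero hN _ hl
  rw [hk0 _ (hs0.trans (lam_ge (N := N) hU M s M).1)] at htel
  -- the end of the path
  set A := (∑ j, ρ j) / N
  have hA : lam N U U1 M M s = s + A := by
    have h := sum_path (fun j => lam N U U1 M j s) M
    simp only [lam, sub_add_cancel_left, Finset.sum_neg_distrib, ← Finset.sum_div] at h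
    simp only [A, ρ, q]
    linarith
  have hA0 : 0 ≤ A := div_nonneg (Finset.sum_nonneg fun j _ => hU.rho_nonneg _) hN0.le
  have hI : I0 (lam N U U1 M M s) ≤ I0 A + s / 2 := by
    rw [hA]
    have := (I0_incr hA0 (show A ≤ s + A by linarith)).2
    linarith
  set α' := (M:ℝ) / N
  have hα'0 : 0 ≤ α' := by positivity
  have hα' : α' ≤ α := (div_le_iff₀ hN0).2 hM
  have hJ : I0 A + (1 / N) * ∑ j, (Psi U (q j) - ρ j * q j / 2) ≤ δ := by
    rcases Nat.eq_zero_or_pos M with rfl | hM0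
    · simpa [A, I0_zero] using hδ
    have hM1 : (0:ℝ) < M := by exact_mod_cast hM0
    obtain ⟨e, -, he⟩ := I0_tangent hA0
    have hj : ∀ j, α' * Psi U (q j) - α' * ρ j * q j / 2 + (I0 A + e / 2 * (α' * ρ j - A)) ≤ δ := fun j => by
      have hb : 0 ≤ α' * ρ j := mul_nonneg hα'0 (hU.rho_nonneg _)
      obtain ⟨q', hq', hH'⟩ := hH _ hb
      have h1 := mul_le_mul_of_nonneg_right hα' (hUp.Psi_mem hq').1
      have h2 := mul_le_mul_of_nonneg_left (hU.tangent (hq j) hq') hα'0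
      linarith [he _ hb]
    have hS := Finset.sum_le_sum fun j (_ : j ∈ Finset.univ) => hj j
    have eS : ∑ j, (α' * Psi U (q j) - α' * ρ j * q j / 2 + (I0 A + e / 2 * (α' * ρ j - A))) =
        α' * ∑ j, (Psi U (q j) - ρ j * q j / 2) + M * I0 A + e / 2 * (α' * ∑ j, ρ j - M * A) := by
      rw [Finset.sum_congr rfl fun j (_ : j ∈ Finset.univ) =>
        show α' * Psi U (q j) - α' * ρ j * q j / 2 + (I0 A + e / 2 * (α' * ρ j - A)) =
          α' * (Psi U (q j) - ρ j * q j / 2) + I0 A + e / 2 * (α' * ρ j - A) by ring]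
      simp only [Finset.sum_add_distrib, ← Finset.mul_sum, Finset.sum_sub_distrib, Finset.sum_const,
        Finset.card_univ, Fintype.card_fin, nsmul_eq_mul]
    have eA : α' * ∑ j, ρ j = M * A := by simp only [α', A]; ring
    rw [eS, eA, sub_self, mul_zero, add_zero] at hS
    simp only [Finset.sum_const, Finset.card_univ, Fintype.card_fin, nsmul_eq_mul] at hS
    refine le_of_mul_le_mul_left ((le_of_eq ?_).trans hS) hM1
    simp only [α']
    ring
  have hsum2 : ∑ j : Fin M, (kk N U (M - (j:ℕ)) (lam N U U1 M j s) -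
      kk N U (M - ((j:ℕ) + 1)) (lam N U U1 M (j + 1) s)) ≤
      (1 / N) * ∑ j, (Psi U (q j) - ρ j * q j / 2) + C * (α * r + (2 * α * Rg η K T N + (N:ℝ)⁻¹ ^ 3) / (ε / 2) / r) := by
    have := Finset.sum_le_sum fun j (_ : j ∈ Finset.univ) => hstep j
    rw [← Finset.mul_sum, Finset.sum_add_distrib, ← Finset.mul_sum, Finset.sum_add_distrib, Finset.sum_const,
      Finset.card_univ, Fintype.card_fin, nsmul_eq_mul, ← Finset.sum_div] at this
    have hd : (∑ j, d j) / ((N:ℝ) ^ 2 * r) ≤ (N:ℝ) * ((2 * α * Rg η K T N + (N:ℝ)⁻¹ ^ 3) / (ε / 2) / r) := by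
      have hR : 0 ≤ Rg η K T N := by
        have : 0 ≤ K := by positivity
        have : 0 ≤ T := by positivity
        unfold Rg; positivity
      rw [div_le_iff₀ (by positivity)]
      have h1 : 2 * (M:ℝ) * ((N:ℝ) ^ 2 * Rg η K T N) ≤ 2 * (α * N) * ((N:ℝ) ^ 2 * Rg η K T N) := by gcongr
      have h2 : ∑ j, d j ≤ (2 * (α * N) * ((N:ℝ) ^ 2 * Rg η K T N) + 1) / (ε / 2) := by
        rw [le_div_iff₀ (by positivity)]; linarith
      refine h2.trans (le_of_eq ?_)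
      field_simp
    rw [one_div_mul_eq_div]
    rw [mul_comm, ← le_div_iff₀ hN0] at this
    refine this.trans ?_
    rw [add_div, mul_div_assoc C]
    refine add_le_add le_rfl (mul_le_mul_of_nonneg_left ?_ hC)
    rw [div_le_iff₀ hN0]
    have : (M:ℝ) * r ≤ α * N * r := mul_le_mul_of_nonneg_right hM hr.le
    linarith
  have hmono := (kk_slope hN hUp M le_rfl hs0).1
  have hq0 := (qq_mem hN hUp M (le_refl (0:ℝ))).1
  have := mul_nonneg (div_nonneg hq0 two_pos.le) (sub_nonneg.2 hs0)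
  simp only [lam] at htel hsum2
  linarith [hs.2]

section Straight

variable {U1 U2 : ℝ → ℝ} {L : ℝ} (hU : Sm U U1 U2 lo hi L) (hUp : Pw U lo hi) (hN : 0 < N)
include hU hUp hN

omit hU in
/-- a good starting point for the straight path -/
lemma lower_pick {M : ℕ} {Δ η K T s₀ : ℝ} (hs₀ : 0 < s₀) (hΔ : 0 ≤ Δ) (hη : 0 < η)
    (hT : 2 * s₀ + M * Δ < T)
    (hK : ∀ m ≤ M, ∀ l < T, 48 * Real.exp (2 * ((m:ℕ) / (N:ℝ)) * lb lo hi ^ 2 + l) ≤ K) :
    ∃ s ∈ Icc s₀ (2 * s₀), s₀ * ∑ j : Fin M,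
      (dfl N (fun _ : Fin (M - ((j:ℕ) + 1)) => U) (s + (j:ℕ) * Δ) + (N:ℝ) ^ 2 *
        (qq N U (M - ((j:ℕ) + 1)) (s + (j:ℕ) * Δ + Δ) - qq N U (M - ((j:ℕ) + 1)) (s + (j:ℕ) * Δ))) ≤
      2 * M * ((N:ℝ) ^ 2 * (Rg η K T N + Δ)) + 1 := by
  have hlamT : ∀ (j : Fin M), ∀ s ∈ Icc s₀ (2 * s₀), 0 < s + (j:ℕ) * Δ ∧ s + (j:ℕ) * Δ < T := fun j s hs => by
    have h1 : 0 ≤ ((j:ℕ):ℝ) * Δ := mul_nonneg (Nat.cast_nonneg _) hΔ
    have h2 : ((j:ℕ):ℝ) * Δ ≤ M * Δ := mul_le_mul_of_nonneg_right (by exact_mod_cast j.2.le) hΔ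
    constructor <;> linarith [hs.1, hs.2]
  obtain ⟨s, hs, hsum⟩ := select (T := T) (R := (N:ℝ) ^ 2 * (Rg η K T N + Δ)) (show s₀ < 2 * s₀ by linarith)
    (fun (j : Fin M) l => pot4 N (m := M - ((j:ℕ) + 1)) U η K l +
      2 * (N:ℝ) ^ 2 * (kk N U (M - ((j:ℕ) + 1)) (l + Δ) - kk N U (M - ((j:ℕ) + 1)) l))
    (fun j l => dfl N (fun _ : Fin (M - ((j:ℕ) + 1)) => U) l +
      (N:ℝ) ^ 2 * (qq N U (M - ((j:ℕ) + 1)) (l + Δ) - qq N U (M - ((j:ℕ) + 1)) l))
    (fun (j : Fin M) s => s + (j:ℕ) * Δ)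
    (fun j => by fun_prop) (fun j s t _ _ _ => by linarith) hlamT
    (fun j l hl hlT => by
      obtain ⟨d, hd, hd0, hd1⟩ := hasDeriv_pot4 (m := M - ((j:ℕ) + 1)) hN hUp hη hl (hK _ (Nat.sub_le _ _) l hlT)
      set m := M - ((j:ℕ) + 1)
      have hmono := qq_mono hN hUp m hl.le (le_add_of_nonneg_right hΔ)
      have h1 : HasDerivAt (fun l => kk N U m (l + Δ)) (qq N U m (l + Δ) / 2) l :=
        (hasDeriv_kk hN hUp m (show 0 < l + Δ by linarith)).comp_add_const l Δ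
      refine ⟨_, hd.add (((h1.sub (hasDeriv_kk hN hUp m hl)).const_mul (2 * (N:ℝ) ^ 2))), ?_, ?_⟩
      · have : 0 ≤ (N:ℝ) ^ 2 * (qq N U m (l + Δ) - qq N U m l) := mul_nonneg (sq_nonneg _) (sub_nonneg.2 hmono)
        linarith
      · linarith)
    (fun j l hl hlT => by
      set m := M - ((j:ℕ) + 1)
      have h1 := pot_bound hN hUp m hη hl.le hlT.le (hK _ (Nat.sub_le _ _) l hlT)
      have hks := kk_slope hN hUp m hl.le (le_add_of_nonneg_right hΔ)
      rw [add_sub_cancel_left] at hks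
      have ha := mul_nonneg (div_nonneg (qq_mem hN hUp m hl.le).1 two_pos.le) hΔ
      have hb := mul_le_mul_of_nonneg_right
        (div_le_div_of_nonneg_right (qq_mem hN hUp m (show 0 ≤ l + Δ by linarith)).2 two_pos.le) hΔ
      refine (abs_add_le _ _).trans ((add_le_add h1 (le_of_eq (abs_of_nonneg (mul_nonneg (by positivity)
        (by linarith))))).trans ?_)
      have := mul_le_mul_of_nonneg_left (show kk N U m (l + Δ) - kk N U m l ≤ Δ / 2 by linarith)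
        (show 0 ≤ 2 * (N:ℝ) ^ 2 by positivity)
      linarith)
  rw [Fintype.card_fin, show 2 * s₀ - s₀ = s₀ by ring] at hsum
  exact ⟨s, hs, hsum⟩

/-- summing the straight path -/
lemma lower_sum {M : ℕ} {Δ r s : ℝ} (hΔ : 0 ≤ Δ) (hr : 0 < r) (hs : 0 ≤ s) :
    (∑ j : Fin M, Psi U (qq N U (M - ((j:ℕ) + 1)) (s + (j:ℕ) * Δ))) / N + I0 (M * Δ) -
        Δ / 2 * (∑ j : Fin M, qq N U (M - ((j:ℕ) + 1)) (s + (j:ℕ) * Δ)) -
        2 * L ^ 2 / lo * (M * r / N +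
          (∑ j : Fin M, dfl N (fun _ : Fin (M - ((j:ℕ) + 1)) => U) (s + (j:ℕ) * Δ)) / ((N:ℝ) ^ 3 * r)) -
        Δ / 2 * (∑ j : Fin M, (qq N U (M - ((j:ℕ) + 1)) (s + (j:ℕ) * Δ + Δ) -
          qq N U (M - ((j:ℕ) + 1)) (s + (j:ℕ) * Δ))) - s / 2 ≤ kk N U M 0 := by
  have hN0 : (0:ℝ) < N := by exact_mod_cast hN
  set l := fun j : Fin M => s + (j:ℕ) * Δ
  have hl : ∀ j, 0 ≤ l j := fun j => add_nonneg hs (mul_nonneg (Nat.cast_nonneg _) hΔ)
  set F := fun j : ℕ => kk N U (M - j) (s + (j:ℝ) * Δ)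
  have hstep : ∀ j : Fin M, Psi U (qq N U (M - ((j:ℕ) + 1)) (l j)) / N -
      Δ / 2 * qq N U (M - ((j:ℕ) + 1)) (l j) -
      2 * L ^ 2 / lo * (r / N + dfl N (fun _ : Fin (M - ((j:ℕ) + 1)) => U) (l j) / ((N:ℝ) ^ 3 * r)) -
      Δ / 2 * (qq N U (M - ((j:ℕ) + 1)) (l j + Δ) - qq N U (M - ((j:ℕ) + 1)) (l j)) ≤
      F j - F ((j:ℕ) + 1) := fun j => by
    have := step_lower hU hUp hN (m := M - ((j:ℕ) + 1)) (hl j) hΔ hr
    rw [show M - ((j:ℕ) + 1) + 1 = M - (j:ℕ) by omega] at this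
    refine le_of_mul_le_mul_left ((le_of_eq ?_).trans (this.trans (le_of_eq ?_))) hN0
    · field_simp
    · simp only [F, l, Nat.cast_add, Nat.cast_one, add_mul, one_mul, add_assoc]
  have hF0 : F 0 = kk N U M s := by simp [F]
  have hFM : F M = I0 (s + M * Δ) := by
    simp only [F, Nat.sub_self]
    exact ke_zero hN _ (add_nonneg hs (mul_nonneg (Nat.cast_nonneg _) hΔ))
  have htel := sum_path F M
  rw [hF0, hFM] at htel
  have hS := Finset.sum_le_sum fun j (_ : j ∈ Finset.univ) => hstep j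
  simp only [Finset.sum_sub_distrib, ← Finset.mul_sum, Finset.sum_add_distrib, Finset.sum_const, Finset.card_univ,
    Fintype.card_fin, nsmul_eq_mul, ← Finset.sum_div] at hS
  simp only [Finset.sum_sub_distrib] at htel ⊢
  rw [← mul_div_assoc] at hS
  have hI := (I0_incr (mul_nonneg (Nat.cast_nonneg M) hΔ) (show (M:ℝ) * Δ ≤ s + M * Δ by linarith)).1
  have hbase := (kk_slope hN hUp M le_rfl hs).2
  have := mul_le_mul_of_nonneg_right (div_le_div_of_nonneg_right (qq_mem hN hUp M hs).2 two_pos.le)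
    (sub_nonneg.2 hs)
  simp only [l] at hS
  linarith

end Straight

/-- the lower bound -/
lemma lower {U1 U2 : ℝ → ℝ} {L : ℝ} (hU : Sm U U1 U2 lo hi L) (hUp : Pw U lo hi) {α : ℝ} (hα : 0 < α)
    {δ : ℝ} (hδ : 0 < δ) {r₀ : ℝ} (hr₀ : 0 ≤ r₀)
    (hH : ∀ q ∈ Icc (0:ℝ) 1, r₀ * q / 2 + δ ≤ α * Psi U q + I0 r₀) :
    ∀ᶠ N : ℕ in atTop, ∀ M : ℕ, α * N - 1 ≤ (M:ℝ) → (M:ℝ) ≤ α * N → δ / 2 ≤ kk N U M 0 := by
  have hlo := hU.pos
  set C := 2 * L ^ 2 / lo
  have hC : 0 ≤ C := by positivity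
  set r := δ / (8 * (C * α + 1))
  have hr : 0 < r := by positivity
  have hCr : C * α * r ≤ δ / 8 := by
    rw [show C * α * r = δ / 8 * ((C * α) / (C * α + 1)) by simp only [r]; field_simp]
    exact mul_le_of_le_one_right (by positivity) ((div_le_one (by positivity)).2 (by linarith))
  set W := C * α / r + r₀ / 2
  have hW : 0 ≤ W := by positivity
  set η := δ ^ 2 / (512 * (W + 1))
  have hη : 0 < η := by positivity
  set T := δ + r₀ + 1
  set K := 48 * Real.exp (2 * α * lb lo hi ^ 2 + T)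
  have h0 : Tendsto (fun N : ℕ => (N:ℝ)⁻¹) atTop (𝓝 0) :=
    tendsto_inv_atTop_zero.comp tendsto_natCast_atTop_atTop
  set G := fun N : ℕ => (2 * (Rg η K T N + 2 * r₀ / α * (N:ℝ)⁻¹) + 2 / α * (N:ℝ)⁻¹ ^ 3) / (δ / 8)
  have hlim : Tendsto (fun N : ℕ => hi * lb lo hi * (N:ℝ)⁻¹ + C * α * r + W * G N) atTop
      (𝓝 (hi * lb lo hi * 0 + C * α * r + W * ((2 * (2 * η + 2 * r₀ / α * 0) + 2 / α * 0 ^ 3) / (δ / 8)))) :=
    ((h0.const_mul (hi * lb lo hi)).add_const (C * α * r)).add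
      ((((((tendsto_Rg η K T).add (h0.const_mul (2 * r₀ / α))).const_mul 2)).add
        ((h0.pow 3).const_mul (2 / α))).div_const _ |>.const_mul W)
  have hsmall : hi * lb lo hi * 0 + C * α * r + W * ((2 * (2 * η + 2 * r₀ / α * 0) + 2 / α * 0 ^ 3) / (δ / 8)) <
      δ / 4 := by
    rw [show hi * lb lo hi * 0 + C * α * r + W * ((2 * (2 * η + 2 * r₀ / α * 0) + 2 / α * 0 ^ 3) / (δ / 8)) =
      C * α * r + δ / 16 * (W / (W + 1)) by simp only [η]; field_simp; ring]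
    have : δ / 16 * (W / (W + 1)) ≤ δ / 16 :=
      mul_le_of_le_one_right (by positivity) ((div_le_one (by positivity)).2 (by linarith))
    linarith
  filter_upwards [hlim.eventually (eventually_lt_nhds hsmall),
    (tendsto_natCast_atTop_atTop (R := ℝ)).eventually_ge_atTop (2 / α), eventually_gt_atTop 0] with N hE hN2 hN M hM1 hM
  have hN0 : (0:ℝ) < N := by exact_mod_cast hN
  have hαN : 2 ≤ α * N := by rw [div_le_iff₀ hα] at hN2; linarith
  have hMh : α * N / 2 ≤ M := by linarith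
  have hM0 : (0:ℝ) < M := by linarith
  set Δ := r₀ / M
  have hΔ : 0 ≤ Δ := by positivity
  have hMΔ : (M:ℝ) * Δ = r₀ := by simp only [Δ]; field_simp
  have hΔN : Δ ≤ 2 * r₀ / α * (N:ℝ)⁻¹ := by
    refine (div_le_div_of_nonneg_left hr₀ (by positivity) hMh).trans (le_of_eq ?_)
    field_simp
  obtain ⟨s, hs, hsum⟩ := lower_pick (M := M) hUp hN (show 0 < δ / 8 by positivity) hΔ hη
    (T := T) (K := K) (by rw [hMΔ]; simp only [T]; linarith) (fun m hm l hl => by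
      have : (m:ℝ) / N ≤ α := by rw [div_le_iff₀ hN0]; exact le_trans (by exact_mod_cast hm) hM
      have := mul_le_mul_of_nonneg_right (show 2 * ((m:ℝ) / N) ≤ 2 * α by linarith) (sq_nonneg (lb lo hi))
      exact mul_le_mul_of_nonneg_left (Real.exp_le_exp.2 (by linarith)) (by norm_num))
  have hs0 : 0 ≤ s := by linarith [hs.1]
  have hmain := lower_sum hU hUp hN (M := M) hΔ hr hs0
  rw [hMΔ] at hmain
  have hlam : ∀ j : Fin M, 0 ≤ s + (j:ℕ) * Δ := fun j => add_nonneg hs0 (mul_nonneg (Nat.cast_nonneg _) hΔ)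
  set Sd := ∑ j : Fin M, dfl N (fun _ : Fin (M - ((j:ℕ) + 1)) => U) (s + (j:ℕ) * Δ)
  set SD := ∑ j : Fin M, (qq N U (M - ((j:ℕ) + 1)) (s + (j:ℕ) * Δ + Δ) -
    qq N U (M - ((j:ℕ) + 1)) (s + (j:ℕ) * Δ))
  have hd0 : 0 ≤ Sd := Finset.sum_nonneg fun j _ => dfl_nonneg hN hUp (hlam j)
  have hD0 : 0 ≤ SD := Finset.sum_nonneg fun j _ => sub_nonneg.2
    (qq_mono hN hUp _ (hlam j) (le_add_of_nonneg_right hΔ))
  have hGd : Sd + (N:ℝ) ^ 2 * SD ≤ (N:ℝ) ^ 2 * M * G N := by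
    rw [Finset.sum_add_distrib, ← Finset.mul_sum, mul_comm, ← le_div_iff₀ (by positivity)] at hsum
    refine hsum.trans ?_
    have h2 := mul_le_mul_of_nonneg_left (add_le_add (le_refl (Rg η K T N)) hΔN)
      (show 0 ≤ 2 * (M:ℝ) * (N:ℝ) ^ 2 by positivity)
    have h3 : (1:ℝ) ≤ (N:ℝ) ^ 2 * M * (2 / α * (N:ℝ)⁻¹ ^ 3) := by
      rw [show (N:ℝ) ^ 2 * M * (2 / α * (N:ℝ)⁻¹ ^ 3) = M / (α * N / 2) by field_simp, le_div_iff₀ (by positivity)]
      linarith
    simp only [G]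
    rw [← mul_div_assoc]
    gcongr
    linarith
  have hG0 : 0 ≤ G N := by
    have h : 0 ≤ (N:ℝ) ^ 2 * M * G N := le_trans (add_nonneg hd0 (by positivity)) hGd
    exact nonneg_of_mul_nonneg_right h (by positivity)
  have hN2' : (0:ℝ) < (N:ℝ) ^ 2 := by positivity
  have b1 : Sd ≤ (N:ℝ) ^ 2 * M * G N := by linarith [mul_nonneg hN2'.le hD0]
  have b2 : SD ≤ M * G N := le_of_mul_le_mul_left (by linarith) hN2'
  have hMα : (M:ℝ) / N ≤ α := (div_le_iff₀ hN0).2 hM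
  have e1 : C * (M * r / N + Sd / ((N:ℝ) ^ 3 * r)) ≤ C * α * r + C * α / r * G N := by
    have h1 : Sd / ((N:ℝ) ^ 3 * r) ≤ α * (G N / r) := by
      calc Sd / ((N:ℝ) ^ 3 * r) ≤ (N:ℝ) ^ 2 * M * G N / ((N:ℝ) ^ 3 * r) :=
            div_le_div_of_nonneg_right b1 (by positivity)
        _ = M / N * (G N / r) := by field_simp
        _ ≤ _ := mul_le_mul_of_nonneg_right hMα (by positivity)
    have h2 : M * r / N ≤ α * r := by rw [mul_div_right_comm]; exact mul_le_mul_of_nonneg_right hMα hr.le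
    refine (mul_le_mul_of_nonneg_left (add_le_add h2 h1) hC).trans (le_of_eq ?_)
    ring
  have e2 : Δ / 2 * SD ≤ r₀ / 2 * G N := by
    refine (mul_le_mul_of_nonneg_left b2 (by positivity)).trans_eq ?_
    rw [← hMΔ]; ring
  set α' := (M:ℝ) / N
  have hα'1 : α - α' ≤ (N:ℝ)⁻¹ := by
    rw [show α - α' = (α * N - M) / N by simp only [α']; field_simp, div_le_iff₀ hN0, inv_mul_cancel₀ hN0.ne']
    linarith
  set q := fun j : Fin M => qq N U (M - ((j:ℕ) + 1)) (s + (j:ℕ) * Δ)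
  have hj : ∀ j, δ - hi * lb lo hi * (N:ℝ)⁻¹ ≤ α' * Psi U (q j) + I0 r₀ - r₀ / 2 * q j := fun j => by
    obtain ⟨p0, p1⟩ := hUp.Psi_mem (qq_mem hN hUp (M - ((j:ℕ) + 1)) (hlam j))
    have := mul_le_mul_of_nonneg_right hα'1 p0
    have := mul_le_mul_of_nonneg_right p1 (inv_nonneg.2 hN0.le)
    linarith [hH _ (qq_mem hN hUp (M - ((j:ℕ) + 1)) (hlam j))]
  have hJ := Finset.sum_le_sum fun j (_ : j ∈ Finset.univ) => hj j
  have eJ : ∑ j : Fin M, (α' * Psi U (q j) + I0 r₀ - r₀ / 2 * q j) =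
      M * ((∑ j : Fin M, Psi U (q j)) / N + I0 r₀ - Δ / 2 * (∑ j : Fin M, q j)) := by
    simp only [Finset.sum_sub_distrib, ← Finset.mul_sum, Finset.sum_add_distrib, Finset.sum_const, Finset.card_univ,
      Fintype.card_fin, nsmul_eq_mul]
    rw [← hMΔ]; simp only [α']; ring
  rw [eJ, Finset.sum_const, Finset.card_univ, Fintype.card_fin, nsmul_eq_mul] at hJ
  have hJ' := le_of_mul_le_mul_left hJ hM0
  have hWG : W * G N = C * α / r * G N + r₀ / 2 * G N := by ring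
  linarith [hs.2]

end Vale.Agent.P157.Teach
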