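import Vale.Agent.P157.Teach.Equiv

/-! The exact annealed threshold on the cube for bounded measurable potentials. -/

open MeasureTheory ProbabilityTheory Set Filter
open scoped Topology ENNReal Uniformity ContDiff

namespace Vale.Agent.P157.Teach

/-- smooth weights approximate the weight of a bounded measurable potential -/
lemma exists_smooth {f : ℝ → ℝ} {B : ℝ} (hf : Measurable f) (hB : ∀ s, |f s| ≤ B) (hB0 : 0 < B)
    {ε : ℝ} (hε : 0 < ε) :
    ∃ V V1 V2 : ℝ → ℝ, ∃ L : ℝ, Sm V V1 V2 (Real.exp (-(2 * B))) (Real.exp (2 * B)) L ∧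
      Pw V (Real.exp (-(2 * B))) (Real.exp (2 * B)) ∧ ∫ x, |wgt f x - V x| ∂gaussianReal 0 1 ≤ ε := by
  set u := fun x => Real.arcsin (f x / B)
  have hu : Measurable u := Real.continuous_arcsin.measurable.comp (hf.div_const B)
  have hub : ∀ x, |u x| ≤ Real.pi / 2 := fun x =>
    abs_le.2 ⟨Real.neg_pi_div_two_le_arcsin _, Real.arcsin_le_pi_div_two _⟩
  have hsin : ∀ x, B * Real.sin (u x) = f x := fun x => by
    have h := abs_le.1 (hB x)
    rw [Real.sin_arcsin (by rw [le_div_iff₀ hB0]; linarith) (by rw [div_le_iff₀ hB0]; linarith)]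
    field_simp
  set ε' := ε / (2 * Real.exp (2 * B) * B)
  have hε' : 0 < ε' := by positivity
  have hmem : MemLp u 1 γ := MemLp.of_bound hu.aestronglyMeasurable (Real.pi / 2)
    (Eventually.of_forall fun x => by rw [Real.norm_eq_abs]; exact hub x)
  obtain ⟨h, hcs, hsm, hLp⟩ := hmem.exist_eLpNorm_sub_le ENNReal.one_ne_top le_rfl hε'
  set h1 := deriv h
  set h2 := deriv h1
  have hsm1 : ContDiff ℝ 1 h1 := (contDiff_succ_iff_deriv.1 (hsm.of_le (by norm_cast))).2.2
  have d0 : ∀ x, HasDerivAt h (h1 x) x := fun x => (hsm.differentiable (by simp) x).hasDerivAt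
  have d1 : ∀ x, HasDerivAt h1 (h2 x) x := fun x => (hsm1.differentiable one_ne_zero x).hasDerivAt
  obtain ⟨C1, hC1⟩ := hcs.deriv.exists_bound_of_continuous hsm1.continuous
  obtain ⟨C2, hC2⟩ := hcs.deriv.deriv.exists_bound_of_continuous (hsm1.continuous_deriv_one)
  have hh1 : ∀ x, |h1 x| ≤ C1 := hC1
  have hh2 : ∀ x, |h2 x| ≤ C2 := hC2
  set f' := fun x => B * Real.sin (h x)
  have hf'b : ∀ x, |f' x| ≤ B := fun x => by
    rw [abs_mul, abs_of_pos hB0]; exact mul_le_of_le_one_right hB0.le (Real.abs_sin_le_one _)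
  have hf'm : Measurable f' := ((Real.continuous_sin.comp hsm.continuous).const_mul B).measurable
  set g1 := fun x => B * (Real.cos (h x) * h1 x)
  set g2 := fun x => B * (-Real.sin (h x) * h1 x * h1 x + Real.cos (h x) * h2 x)
  have dg0 : ∀ x, HasDerivAt f' (g1 x) x := fun x => ((d0 x).sin).const_mul B
  have dg1 : ∀ x, HasDerivAt g1 (g2 x) x := fun x => (((d0 x).cos).mul (d1 x)).const_mul B
  have hV := wgt_pw hf'm hf'b
  have bg1 : ∀ x, |g1 x| ≤ B * C1 := fun x => by
    rw [abs_mul, abs_of_pos hB0, abs_mul]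
    exact mul_le_mul_of_nonneg_left ((mul_le_of_le_one_left (abs_nonneg _) (Real.abs_cos_le_one _)).trans (hh1 x)) hB0.le
  have bg2 : ∀ x, |g2 x| ≤ B * (C1 * C1 + C2) := fun x => by
    rw [abs_mul, abs_of_pos hB0]
    refine mul_le_mul_of_nonneg_left ((abs_add_le _ _).trans (add_le_add ?_ ?_)) hB0.le
    · rw [mul_assoc, abs_mul, abs_neg, abs_mul]
      exact (mul_le_of_le_one_left (by positivity) (Real.abs_sin_le_one _)).trans
        (mul_le_mul (hh1 x) (hh1 x) (abs_nonneg _) ((abs_nonneg _).trans (hh1 x)))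
    · rw [abs_mul]; exact (mul_le_of_le_one_left (abs_nonneg _) (Real.abs_cos_le_one _)).trans (hh2 x)
  set V := wgt f'
  set L := Real.exp (2 * B) * (B * C1 + B * (C1 * C1 + C2) + (B * C1) ^ 2)
  have dV : ∀ x, HasDerivAt V (V x * g1 x) x := fun x => ((dg0 x).sub_const (ann f')).exp
  have dV1 : ∀ x, HasDerivAt (fun x => V x * g1 x) (V x * g1 x * g1 x + V x * g2 x) x := fun x =>
    (dV x).mul (dg1 x)
  have hC0 : 0 ≤ B * C1 := (abs_nonneg _).trans (bg1 0)
  have hC00 : 0 ≤ B * (C1 * C1 + C2) := (abs_nonneg _).trans (bg2 0)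
  have cg1 : Continuous g1 := continuous_iff_continuousAt.2 fun x => (dg1 x).continuousAt
  have cg2 : Continuous g2 := continuous_const.mul (((((Real.continuous_sin.comp hsm.continuous).neg).mul
    hsm1.continuous).mul hsm1.continuous).add ((Real.continuous_cos.comp hsm.continuous).mul hsm1.continuous_deriv_one))
  have cV : Continuous V := continuous_iff_continuousAt.2 fun x => (dV x).continuousAt
  refine ⟨V, fun x => V x * g1 x, fun x => V x * g1 x * g1 x + V x * g2 x, L,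
    ⟨dV, dV1, ((cV.mul cg1).mul cg1).add (cV.mul cg2), Real.exp_pos _, hV.ge, hV.le, fun x => ?_, fun x => ?_⟩, hV, ?_⟩
  · rw [abs_mul]
    refine (mul_le_mul (hV.abs_V x) (bg1 x) (abs_nonneg _) (Real.exp_pos _).le).trans ?_
    exact mul_le_mul_of_nonneg_left (by nlinarith [sq_nonneg (B * C1)]) (Real.exp_pos _).le
  · refine (abs_add_le _ _).trans ?_
    rw [mul_assoc, abs_mul, abs_mul (V x), ← mul_add, abs_mul]
    refine mul_le_mul (hV.abs_V x) ?_ (by positivity) (Real.exp_pos _).le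
    have := mul_le_mul (bg1 x) (bg1 x) (abs_nonneg _) hC0
    linarith [bg2 x]
  -- distance of the weights
  have hmd : Integrable (fun x => |f x - f' x|) γ := integrable_bdd (hf.sub hf'm).abs (C := B + B) fun x => by
    rw [abs_abs]; exact (abs_sub _ _).trans (add_le_add (hB x) (hf'b x))
  have hmu : Integrable (fun x => u x - h x) γ :=
    (hmem.integrable le_rfl).sub ((hsm.continuous.memLp_of_hasCompactSupport hcs).integrable le_rfl)
  have hd : ∫ x, |f x - f' x| ∂γ ≤ B * ε' := by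
    have e : ∫ x, ‖u x - h x‖ ∂γ ≤ ε' := by
      have := ENNReal.toReal_mono ENNReal.ofReal_ne_top hLp
      rw [eLpNorm_one_eq_lintegral_enorm, ENNReal.toReal_ofReal hε'.le] at this
      rw [integral_norm_eq_lintegral_enorm hmu.aestronglyMeasurable]
      exact this
    refine (integral_mono hmd (hmu.norm.const_mul B) fun x => ?_).trans ?_
    · rw [← hsin x]
      show |B * Real.sin (u x) - B * Real.sin (h x)| ≤ _
      rw [← mul_sub, abs_mul, abs_of_pos hB0]
      exact mul_le_mul_of_nonneg_left (Real.abs_sin_sub_sin_le _ _) hB0.le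
    · rw [integral_const_mul]; exact mul_le_mul_of_nonneg_left e hB0.le
  have ie : ∀ {k : ℝ → ℝ}, Measurable k → (∀ s, |k s| ≤ B) → Integrable (fun x => Real.exp (k x)) γ := fun hk hkb =>
    integrable_bdd (Real.measurable_exp.comp hk) (C := Real.exp B) fun x => by
      rw [Real.abs_exp]; exact Real.exp_le_exp.2 (abs_le.1 (hkb x)).2
  have hexp : ∀ x, |Real.exp (f x) - Real.exp (f' x)| ≤ Real.exp B * |f x - f' x| := by
    intro x
    have := (convex_Iic B).norm_image_sub_le_of_norm_hasDerivWithin_le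
      (fun z _ => (Real.hasDerivAt_exp z).hasDerivWithinAt)
      (fun z (hz : z ≤ B) => by rw [Real.norm_eq_abs, Real.abs_exp]; exact Real.exp_le_exp.2 hz)
      (show f' x ∈ Iic B from (abs_le.1 (hf'b x)).2) (show f x ∈ Iic B from (abs_le.1 (hB x)).2)
    simpa [Real.norm_eq_abs] using this
  set a := Real.exp (ann f)
  set a' := Real.exp (ann f')
  have ea : a = ∫ x, Real.exp (f x) ∂γ := exp_ann hf hB
  have ea' : a' = ∫ x, Real.exp (f' x) ∂γ := exp_ann hf'm hf'b
  have iD : Integrable (fun x => |Real.exp (f x) - Real.exp (f' x)|) γ := ((ie hf hB).sub (ie hf'm hf'b)).abs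
  set D := ∫ x, |Real.exp (f x) - Real.exp (f' x)| ∂γ
  have hD : D ≤ Real.exp B * (B * ε') :=
    ((integral_mono iD (hmd.const_mul _) hexp).trans_eq (integral_const_mul _ _)).trans
      (mul_le_mul_of_nonneg_left hd (Real.exp_pos _).le)
  have haa : |a - a'| ≤ D := by
    rw [ea, ea', ← integral_sub (ie hf hB) (ie hf'm hf'b)]
    exact abs_integral_le_integral_abs
  have ha0 : Real.exp (-B) ≤ a := by
    rw [ea]
    simpa using integral_mono (integrable_const (Real.exp (-B))) (ie hf hB)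
      fun x => Real.exp_le_exp.2 (abs_le.1 (hB x)).1
  have hap : 0 < a := Real.exp_pos _
  have ha'p : 0 < a' := Real.exp_pos _
  have hpt : ∀ x, |wgt f x - V x| ≤
      |Real.exp (f x) - Real.exp (f' x)| / a + Real.exp (f' x) * (|a - a'| / (a * a')) := fun x => by
    have e : wgt f x - V x = (Real.exp (f x) - Real.exp (f' x)) / a + Real.exp (f' x) * ((a' - a) / (a * a')) := by
      simp only [wgt, V, Real.exp_sub, a, a']
      field_simp
      ring
    rw [e, abs_sub_comm a a']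
    refine (abs_add_le _ _).trans (le_of_eq ?_)
    simp only [abs_div, abs_mul, Real.abs_exp, a, a']
  have iW : Integrable (fun x => |wgt f x - V x|) γ :=
    integrable_bdd ((wgt_pw hf hB).meas.sub hV.meas).abs (C := Real.exp (2 * B) + Real.exp (2 * B)) fun x => by
      rw [abs_abs]; exact (abs_sub _ _).trans (add_le_add ((wgt_pw hf hB).abs_V x) (hV.abs_V x))
  have iR1 := iD.div_const a
  have iR2 := (ie hf'm hf'b).mul_const (|a - a'| / (a * a'))
  refine (integral_mono iW (iR1.add iR2) hpt).trans ?_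
  rw [integral_add' iR1 iR2, integral_div, integral_mul_const, ← ea',
    show a' * (|a - a'| / (a * a')) = |a - a'| / a by field_simp]
  refine (add_le_add (div_le_div_of_nonneg_right hD hap.le)
    (div_le_div_of_nonneg_right (haa.trans hD) hap.le)).trans ?_
  refine (add_le_add (div_le_div_of_nonneg_left (by positivity) (Real.exp_pos _) ha0)
    (div_le_div_of_nonneg_left (by positivity) (Real.exp_pos _) ha0)).trans (le_of_eq ?_)
  rw [div_eq_mul_inv, ← Real.exp_neg, neg_neg]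
  simp only [ε', two_mul B, Real.exp_add]
  field_simp
  ring

/-- the annealed criterion -/
def Crit (U : ℝ → ℝ) (α : ℝ) : Prop :=
  ∀ r, 0 ≤ r → ∃ q ∈ Icc (0:ℝ) 1, α * Psi U q + I0 r ≤ r * q / 2

section Threshold

variable {f : ℝ → ℝ} {B : ℝ} (hf : Measurable f) (hB : ∀ s, |f s| ≤ B) (hB0 : 0 < B)
include hf hB hB0

lemma continuousOn_Psi_wgt : ContinuousOn (Psi (wgt f)) (Icc 0 1) := by
  refine continuousOn_of_uniform_approx_of_continuousOn fun u hu => ?_
  obtain ⟨e, he, hu'⟩ := Metric.mem_uniformity_dist.1 hu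
  have hlb : 0 < lb (Real.exp (-(2 * B))) (Real.exp (2 * B)) + 1 := by
    linarith [lb_nonneg (lo := Real.exp (-(2 * B))) (hi := Real.exp (2 * B))]
  obtain ⟨V, V1, V2, L, hS, hV, hd⟩ := exists_smooth hf hB hB0
    (show 0 < e / 2 / (lb (Real.exp (-(2 * B))) (Real.exp (2 * B)) + 1) by positivity)
  refine ⟨Psi V, hS.continuousOn_Psi, fun y hy => hu' ?_⟩
  rw [Real.dist_eq]
  refine lt_of_le_of_lt ((Psi_stable (wgt_pw hf hB) hV hy).trans (mul_le_mul_of_nonneg_left hd hlb.le)) ?_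
  rw [mul_div_cancel₀ _ hlb.ne']
  linarith

/-- closeness of a smooth weight -/
lemma exists_close {α ε : ℝ} (hα : 0 ≤ α) (hε : 0 < ε) :
    ∃ V V1 V2 : ℝ → ℝ, ∃ L : ℝ, Sm V V1 V2 (Real.exp (-(2 * B))) (Real.exp (2 * B)) L ∧
      Pw V (Real.exp (-(2 * B))) (Real.exp (2 * B)) ∧
      (∀ q ∈ Icc (0:ℝ) 1, α * |Psi (wgt f) q - Psi V q| ≤ ε) ∧
      ∀ N M : ℕ, 0 < N → (M:ℝ) ≤ α * N → |kk N (wgt f) M 0 - kk N V M 0| ≤ ε := by
  set c := lb (Real.exp (-(2 * B))) (Real.exp (2 * B)) + 1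
  have hc : 0 < c := by
    simp only [c]; linarith [lb_nonneg (lo := Real.exp (-(2 * B))) (hi := Real.exp (2 * B))]
  obtain ⟨V, V1, V2, L, hS, hV, hd⟩ := exists_smooth hf hB hB0 (show 0 < ε / ((α + 1) * c) by positivity)
  have hle : α * (c * ∫ x, |wgt f x - V x| ∂gaussianReal 0 1) ≤ ε := by
    refine (mul_le_mul_of_nonneg_left (mul_le_mul_of_nonneg_left hd hc.le) hα).trans ?_
    rw [show α * (c * (ε / ((α + 1) * c))) = ε * (α / (α + 1)) by field_simp]
    exact mul_le_of_le_one_right hε.le ((div_le_one (by positivity)).2 (by linarith))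
  refine ⟨V, V1, V2, L, hS, hV, fun q hq =>
    (mul_le_mul_of_nonneg_left (Psi_stable (wgt_pw hf hB) hV hq) hα).trans hle, fun N M hN hM => ?_⟩
  have hN0 : (0:ℝ) < N := by exact_mod_cast hN
  refine (ke_stable hN (wgt_pw hf hB) hV (M := M) le_rfl).trans ?_
  have h0 : 0 ≤ c * ∫ x, |wgt f x - V x| ∂gaussianReal 0 1 :=
    mul_nonneg hc.le (integral_nonneg fun x => abs_nonneg _)
  rw [div_le_iff₀ hN0]
  calc (M:ℝ) * (c * ∫ x, |wgt f x - V x| ∂gaussianReal 0 1)
      ≤ α * N * (c * ∫ x, |wgt f x - V x| ∂gaussianReal 0 1) := mul_le_mul_of_nonneg_right hM h0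
    _ ≤ ε * N := by rw [mul_right_comm]; exact mul_le_mul_of_nonneg_right hle hN0.le

lemma gap_small {α : ℝ} (hα : 0 < α) (hc : Crit (wgt f) α) {ε : ℝ} (hε : 0 < ε) :
    ∀ᶠ N : ℕ in atTop, gapN N (wgt f) ⌊α * N⌋₊ ≤ ε := by
  set a := 2 * α * lb (Real.exp (-(2 * B))) (Real.exp (2 * B)) ^ 2
  have ha : 0 ≤ a := by positivity
  set s := min 1 (ε / (2 * (a + 1)))
  have hs : 0 < s := lt_min one_pos (by positivity)
  have has : a * s ≤ ε / 2 := by
    refine (mul_le_mul_of_nonneg_left (min_le_right _ _) ha).trans ?_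
    rw [show a * (ε / (2 * (a + 1))) = ε / 2 * (a / (a + 1)) by field_simp]
    exact mul_le_of_le_one_right (by positivity) ((div_le_one (by positivity)).2 (by linarith))
  set e := s * ε / 6
  have he : 0 < e := by positivity
  obtain ⟨V, V1, V2, L, hS, hV, hΨ, hk⟩ := exists_close hf hB hB0 hα.le he
  have hup := upper hS hV hα.le he.le (fun r hr => by
    obtain ⟨q, hq, h⟩ := hc r hr
    exact ⟨q, hq, by have := (abs_le.1 (le_refl |Psi (wgt f) q - Psi V q|)).1
                     have := mul_le_mul_of_nonneg_left this hα.le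
                     linarith [hΨ q hq]⟩) he
  filter_upwards [hup, eventually_gt_atTop 0] with N hN hN0
  have hM : ((⌊α * (N:ℝ)⌋₊ : ℕ) : ℝ) ≤ α * N := Nat.floor_le (by positivity)
  have hK := hN _ hM
  have hd := (abs_le.1 (hk N _ hN0 hM)).2
  have hb := (gap_bounds hN0 (wgt_pw hf hB) hM (s := s)).1
  have hK0 := (gap_nonneg hN0 (wgt_pw hf hB) (m := ⌊α * (N:ℝ)⌋₊)).2
  refine le_of_mul_le_mul_left ?_ hs
  have h2 : a * s ^ 2 ≤ s * (ε / 2) := by
    rw [sq, ← mul_assoc, mul_comm (a * s) s]; exact mul_le_mul_of_nonneg_left has hs.le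
  have he' : e = s * ε / 6 := rfl
  have ha' : a = 2 * α * lb (Real.exp (-(2 * B))) (Real.exp (2 * B)) ^ 2 := rfl
  rw [← ha'] at hb
  linarith [mul_nonneg hs.le hK0]

lemma gap_large {α : ℝ} (hα : 0 < α) (hc : ¬ Crit (wgt f) α) :
    ∃ δ, 0 < δ ∧ ∀ᶠ N : ℕ in atTop, δ ≤ gapN N (wgt f) ⌊α * N⌋₊ := by
  unfold Crit at hc
  push Not at hc
  obtain ⟨r, hr, hq⟩ := hc
  obtain ⟨q₀, hq₀, hmin⟩ := isCompact_Icc.exists_isMinOn (nonempty_Icc.2 zero_le_one)
    (f := fun q => α * Psi (wgt f) q + I0 r - r * q / 2)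
    (((continuousOn_const.mul (continuousOn_Psi_wgt hf hB hB0)).add continuousOn_const).sub (by fun_prop))
  set δ := α * Psi (wgt f) q₀ + I0 r - r * q₀ / 2
  have hδ : 0 < δ := by simp only [δ]; linarith [hq q₀ hq₀]
  obtain ⟨V, V1, V2, L, hS, hV, hΨ, hk⟩ := exists_close hf hB hB0 hα.le (show 0 < δ / 8 by positivity)
  have hlow := lower hS hV hα (show 0 < δ / 2 by positivity) hr (fun q hq' => by
    have h1 : δ ≤ α * Psi (wgt f) q + I0 r - r * q / 2 := hmin hq'
    have := (abs_le.1 (le_refl |Psi (wgt f) q - Psi V q|)).2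
    have := mul_le_mul_of_nonneg_left this hα.le
    linarith [hΨ q hq'])
  set a := 2 * α * lb (Real.exp (-(2 * B))) (Real.exp (2 * B)) ^ 2
  have ha : 0 ≤ a := by positivity
  set s := min 1 (δ / (16 * (a + 1)))
  have hs : 0 < s := lt_min one_pos (by positivity)
  have has : a * s ≤ δ / 16 := by
    refine (mul_le_mul_of_nonneg_left (min_le_right _ _) ha).trans ?_
    rw [show a * (δ / (16 * (a + 1))) = δ / 16 * (a / (a + 1)) by field_simp]
    exact mul_le_of_le_one_right (by positivity) ((div_le_one (by positivity)).2 (by linarith))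
  refine ⟨s * (δ / 16), by positivity, ?_⟩
  filter_upwards [hlow, eventually_gt_atTop 0] with N hN hN0
  have hM : ((⌊α * (N:ℝ)⌋₊ : ℕ) : ℝ) ≤ α * N := Nat.floor_le (by positivity)
  have hK := hN _ (by linarith [Nat.lt_floor_add_one (α * (N:ℝ))]) hM
  have hd := (abs_le.1 (hk N _ hN0 hM)).1
  have hb := (gap_bounds hN0 (wgt_pw hf hB) hM (s := s)).2
  have hG0 := (gap_nonneg hN0 (wgt_pw hf hB) (m := ⌊α * (N:ℝ)⌋₊)).1
  have h1 := mul_le_mul_of_nonneg_left (show δ / 8 ≤ kk N (wgt f) ⌊α * (N:ℝ)⌋₊ 0 by linarith) hs.le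
  have h2 : a * s ^ 2 ≤ s * (δ / 16) := by
    rw [sq, ← mul_assoc, mul_comm (a * s) s]; exact mul_le_mul_of_nonneg_left has hs.le
  have ha' : a = 2 * α * lb (Real.exp (-(2 * B))) (Real.exp (2 * B)) ^ 2 := rfl
  rw [← ha'] at hb
  linarith [mul_nonneg hs.le hG0]

end Threshold

/-- the exact annealed threshold on the cube -/
theorem annealed_threshold {f : ℝ → ℝ} {B : ℝ} (hf : Measurable f) (hB : ∀ s, |f s| ≤ B) {α : ℝ} (hα : 0 < α) :
    (Tendsto (fun N : ℕ => pressure (isingUniform N) f ⌊α * N⌋₊) atTop (𝓝 (α * ann f)) ↔ Crit (wgt f) α) ∧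
      (¬ Crit (wgt f) α → ∃ δ, 0 < δ ∧
        ∀ᶠ N : ℕ in atTop, pressure (isingUniform N) f ⌊α * N⌋₊ ≤ α * ann f - δ) := by
  obtain ⟨B', hB'0, hB'⟩ : ∃ B', 0 < B' ∧ ∀ s, |f s| ≤ B' :=
    ⟨max B 1, lt_max_of_lt_right one_pos, fun s => (hB s).trans (le_max_left _ _)⟩
  have hr := (floor_ratio hα.le).mul_const (ann f)
  have strict : ¬ Crit (wgt f) α → ∃ δ, 0 < δ ∧
      ∀ᶠ N : ℕ in atTop, pressure (isingUniform N) f ⌊α * N⌋₊ ≤ α * ann f - δ := fun hc => by
    obtain ⟨δ, hδ, hev⟩ := gap_large hf hB' hB'0 hα hc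
    refine ⟨δ / 2, by positivity, ?_⟩
    filter_upwards [hev, eventually_gt_atTop 0,
      hr.eventually (eventually_lt_nhds (show α * ann f < α * ann f + δ / 2 by linarith))] with N h1 hN h2
    rw [pressure_cube hf hB' hN]
    linarith
  refine ⟨⟨fun h => ?_, fun hc => ?_⟩, strict⟩
  · by_contra hc
    obtain ⟨δ, hδ, hev⟩ := strict hc
    linarith [le_of_tendsto h hev]
  · have hg : Tendsto (fun N : ℕ => gapN N (wgt f) ⌊α * N⌋₊) atTop (𝓝 0) := by
      rw [Metric.tendsto_nhds]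
      intro ε hε
      filter_upwards [gap_small hf hB' hB'0 hα hc (half_pos hε), eventually_gt_atTop 0] with N h1 hN
      rw [Real.dist_eq, sub_zero, abs_of_nonneg (gap_nonneg hN (wgt_pw hf hB')).1]
      linarith
    have h := hr.sub hg
    rw [sub_zero] at h
    refine h.congr' ?_
    filter_upwards [eventually_gt_atTop 0] with N hN
    rw [pressure_cube hf hB' hN]

end Vale.Agent.P157.Teach
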