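import Vale.Agent.P157.Teach.Heat

/-! The free entropy of a tilted prior: first two derivatives, and what they say about overlaps. -/

open MeasureTheory ProbabilityTheory Set Filter
open scoped Topology
open Vale.Agent.P150 (gauss dot)
open Vale.Agent.P157.Lim (Der)

namespace Vale.Agent.P157.Teach

variable {S ι : Type} [Fintype S] [Fintype ι] (x : S → ι → ℝ)

/-- total weight -/
noncomputable def tt (z : S → ℝ) : ℝ := ∑ s, Real.exp (z s)
/-- overlap field -/
noncomputable def xw (v : S) (z : S → ℝ) : ℝ := ∑ u, dot (x u) (x v) * Real.exp (z u)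
/-- two-replica overlap weight -/
noncomputable def qf (z : S → ℝ) : ℝ := ∑ v, Real.exp (z v) * xw x v z
/-- two-replica squared overlap weight -/
noncomputable def r2 (z : S → ℝ) : ℝ :=
  ∑ v, Real.exp (z v) * ∑ u, dot (x u) (x v) ^ 2 * Real.exp (z u)
/-- three-replica weight -/
noncomputable def p2 (z : S → ℝ) : ℝ := ∑ v, Real.exp (z v) * xw x v z ^ 2
/-- `L log L` -/
noncomputable def ent (z : S → ℝ) : ℝ := tt z * Real.log (tt z)
/-- `L log² L` -/
noncomputable def ent2 (z : S → ℝ) : ℝ := tt z * Real.log (tt z) ^ 2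
/-- overlap -/
noncomputable def ov1 (z : S → ℝ) : ℝ := qf x z * (tt z)⁻¹
/-- overlap times `log L + 1` -/
noncomputable def ovl (z : S → ℝ) : ℝ := qf x z * ((Real.log (tt z) + 1) * (tt z)⁻¹)
/-- centred second overlap moment -/
noncomputable def xc (z : S → ℝ) : ℝ :=
  r2 x z * (tt z)⁻¹ - 2 * p2 x z * (tt z)⁻¹ ^ 2 + qf x z ^ 2 * (tt z)⁻¹ ^ 3

variable {x}

lemma dot_symm (u v : S) : dot (x u) (x v) = dot (x v) (x u) := by simp [dot, mul_comm]

variable [Nonempty S]

lemma tt_pos (z : S → ℝ) : 0 < tt z := Finset.sum_pos (fun s _ => Real.exp_pos _) Finset.univ_nonempty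

lemma gro_tt : Gro (tt (S := S)) := Gro.sum _ fun s _ => Gro.expEval s

lemma gro_inv_tt : Gro (fun z : S → ℝ => (tt z)⁻¹) := by
  obtain ⟨s₀⟩ := ‹Nonempty S›
  refine ⟨gro_tt.1.inv₀ fun z => (tt_pos z).ne', 1, 1, zero_le_one, zero_le_one, fun z => ?_⟩
  rw [abs_inv, abs_of_pos (tt_pos z), one_mul, one_mul]
  refine (inv_anti₀ (Real.exp_pos _) (Finset.single_le_sum (fun s _ => (Real.exp_pos (z s)).le) (Finset.mem_univ s₀))).trans ?_
  rw [← Real.exp_neg, Real.exp_le_exp]
  exact (neg_le_abs _).trans (norm_le_pi_norm z s₀)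

lemma gro_log_tt : Gro (fun z : S → ℝ => Real.log (tt z)) := by
  refine ⟨gro_tt.1.log fun z => (tt_pos z).ne', Real.log (Fintype.card S) + 1, 1,
    add_nonneg (Real.log_natCast_nonneg _) zero_le_one, zero_le_one, fun z => ?_⟩
  obtain ⟨s₀⟩ := ‹Nonempty S›
  have n0 := norm_nonneg z
  have hc := Real.log_natCast_nonneg (Fintype.card S)
  have h1 : Real.log (tt z) ≤ Real.log (Fintype.card S) + ‖z‖ := by
    have : tt z ≤ Fintype.card S * Real.exp ‖z‖ := by
      calc tt z ≤ ∑ _s : S, Real.exp ‖z‖ :=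
            Finset.sum_le_sum fun s _ => Real.exp_le_exp.2 ((le_abs_self _).trans (norm_le_pi_norm z s))
        _ = _ := by simp
    have := Real.log_le_log (tt_pos z) this
    rwa [Real.log_mul (Nat.cast_ne_zero.2 Fintype.card_ne_zero) (Real.exp_pos _).ne', Real.log_exp] at this
  have h2 : -‖z‖ ≤ Real.log (tt z) := by
    have h : Real.exp (z s₀) ≤ tt z :=
      Finset.single_le_sum (fun s _ => (Real.exp_pos (z s)).le) (Finset.mem_univ s₀)
    have := Real.log_le_log (Real.exp_pos _) h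
    rw [Real.log_exp] at this
    have hz : ‖z s₀‖ ≤ ‖z‖ := norm_le_pi_norm z s₀
    rw [Real.norm_eq_abs] at hz
    linarith [neg_abs_le (z s₀)]
  have he := Real.add_one_le_exp ‖z‖
  rw [one_mul, abs_le]
  have hm : Real.log (Fintype.card S) + ‖z‖ ≤ (Real.log (Fintype.card S) + 1) * Real.exp ‖z‖ := by
    nlinarith [mul_nonneg hc (show 0 ≤ Real.exp ‖z‖ - 1 by linarith)]
  constructor <;> linarith

lemma gro_xw (v : S) : Gro (xw x v) := Gro.sum _ fun u _ => (Gro.const _).mul (Gro.expEval u)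

lemma gro_qf : Gro (qf x) := Gro.sum _ fun v _ => (Gro.expEval v).mul (gro_xw v)

lemma gro_r2 : Gro (r2 x) :=
  Gro.sum _ fun v _ => (Gro.expEval v).mul (Gro.sum _ fun u _ => (Gro.const _).mul (Gro.expEval u))

lemma gro_p2 : Gro (p2 x) := Gro.sum _ fun v _ => (Gro.expEval v).mul ((gro_xw v).pow 2)

lemma gro_ent : Gro (ent (S := S)) := gro_tt.mul gro_log_tt

lemma gro_ent2 : Gro (ent2 (S := S)) := gro_tt.mul (gro_log_tt.pow 2)

lemma gro_ov1 : Gro (ov1 x) := gro_qf.mul gro_inv_tt

lemma gro_ovl : Gro (ovl x) := gro_qf.mul ((gro_log_tt.add (Gro.const 1)).mul gro_inv_tt)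

lemma gro_xc : Gro (xc x) :=
  ((gro_r2.mul gro_inv_tt).sub (((Gro.const 2).mul gro_p2).mul (gro_inv_tt.pow 2))).add
    ((gro_qf.pow 2).mul (gro_inv_tt.pow 3))

variable {Γ : Type*} [MeasurableSpace Γ] {μ : Measure Γ} [IsProbabilityMeasure μ] {c : Γ → S → ℝ} {B : ℝ}

section Deriv

variable {R : ℝ} (hx : ∀ s i, |x s i| ≤ R) (hd : ∀ s, dot (x s) (x s) = Fintype.card ι)
  (hc : Measurable c) (hB : 0 ≤ B) (hcb : ∀ γ' s, |c γ' s| ≤ B)
include hx hd hc hB hcb

/-- template: `h (tt z)` -/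
lemma heat_tt {h h1 h2 : ℝ → ℝ} (d1 : ∀ t, 0 < t → HasDerivAt h (h1 t) t)
    (d2 : ∀ t, 0 < t → HasDerivAt h1 (h2 t) t) (g0 : Gro fun z : S → ℝ => h (tt z))
    (g1 : Gro fun z : S → ℝ => h1 (tt z)) (g2 : Gro fun z : S → ℝ => h2 (tt z)) {l : ℝ} (hl : 0 < l) :
    HasDerivAt (av x μ c fun z => h (tt z)) (av x μ c (fun z => qf x z * h2 (tt z) / 2) l) l := by
  classical
  have dt : Der (tt (S := S)) (fun v z => Real.exp (z v)) :=
    (Der.sum Finset.univ fun s _ => Der.eval Real.hasDerivAt_exp s).congr fun v z => by simp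
  refine heat hx hc hB hcb g0 (H1 := fun v z => Real.exp (z v) * h1 (tt z))
    (H2 := fun v u z => (if u = v then Real.exp (z v) else 0) * h1 (tt z) +
      Real.exp (z v) * (h2 (tt z) * Real.exp (z u)))
    ((dt.comp fun z => d1 _ (tt_pos z)).congr fun v z => mul_comm _ _)
    (fun v => (Gro.expEval v).mul g1)
    (fun v => ((Der.eval Real.hasDerivAt_exp v).mul (dt.comp fun z => d2 _ (tt_pos z))).congr fun u z => rfl)
    (fun v u => ?_) (fun z => ?_) hl
  · refine (Gro.mul ?_ g1).add ((Gro.expEval v).mul (g2.mul (Gro.expEval u)))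
    by_cases e : u = v
    · simp only [e, if_true]; exact Gro.expEval v
    · simp only [e, if_false]; exact Gro.const 0
  · rw [qf, Finset.sum_mul, Finset.sum_div]
    refine Finset.sum_congr rfl fun v _ => ?_
    simp only [mul_add, Finset.sum_add_distrib, ite_mul, zero_mul, mul_ite, mul_zero, Finset.sum_ite_eq',
      Finset.mem_univ, if_true, hd, xw, Finset.mul_sum, Finset.sum_mul, add_div, Finset.sum_div]
    rw [add_sub_right_comm, show (Fintype.card ι : ℝ) * (Real.exp (z v) * h1 (tt z)) / 2 -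
      Fintype.card ι / 2 * (Real.exp (z v) * h1 (tt z)) = 0 by ring, zero_add]
    exact Finset.sum_congr rfl fun u _ => by ring

/-- template: `qf z * h (tt z)` -/
lemma heat_qf {h h1 h2 : ℝ → ℝ} (d1 : ∀ t, 0 < t → HasDerivAt h (h1 t) t)
    (d2 : ∀ t, 0 < t → HasDerivAt h1 (h2 t) t) (g0 : Gro fun z : S → ℝ => h (tt z))
    (g1 : Gro fun z : S → ℝ => h1 (tt z)) (g2 : Gro fun z : S → ℝ => h2 (tt z)) {l : ℝ} (hl : 0 < l) :
    HasDerivAt (av x μ c fun z => qf x z * h (tt z))
      (av x μ c (fun z => r2 x z * h (tt z) + 2 * p2 x z * h1 (tt z) + qf x z ^ 2 * h2 (tt z) / 2) l) l := by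
  classical
  have dt : Der (tt (S := S)) (fun v z => Real.exp (z v)) :=
    (Der.sum Finset.univ fun s _ => Der.eval Real.hasDerivAt_exp s).congr fun v z => by simp
  have dw : ∀ v, Der (xw x v) (fun u z => dot (x u) (x v) * Real.exp (z u)) := fun v =>
    (Der.sum Finset.univ fun s _ => (Der.const (dot (x s) (x v))).mul (Der.eval Real.hasDerivAt_exp s)).congr
      fun u z => by simp
  have dq : Der (qf x) (fun v z => 2 * (Real.exp (z v) * xw x v z)) := by
    refine (Der.sum Finset.univ fun s _ => (Der.eval Real.hasDerivAt_exp s).mul (dw s)).congr fun v z => ?_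
    simp only [Finset.sum_add_distrib, ite_mul, zero_mul, Finset.sum_ite_eq, Finset.mem_univ, if_true]
    rw [two_mul]
    congr 1
    simp only [xw, Finset.mul_sum]
    exact Finset.sum_congr rfl fun s _ => by rw [dot_symm v s]; ring
  have ge : ∀ v u : S, Gro (fun z : S → ℝ => if u = v then Real.exp (z v) else 0) := fun v u => by
    by_cases e : u = v
    · simp only [e, if_true]; exact Gro.expEval v
    · simp only [e, if_false]; exact Gro.const 0
  refine heat hx hc hB hcb (gro_qf.mul g0)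
    (H1 := fun v z => 2 * (Real.exp (z v) * xw x v z) * h (tt z) + qf x z * (h1 (tt z) * Real.exp (z v)))
    (H2 := fun v u z =>
      2 * ((if u = v then Real.exp (z v) else 0) * xw x v z + Real.exp (z v) * (dot (x u) (x v) * Real.exp (z u)))
          * h (tt z) + 2 * (Real.exp (z v) * xw x v z) * (h1 (tt z) * Real.exp (z u)) +
        (2 * (Real.exp (z u) * xw x u z) * (h1 (tt z) * Real.exp (z v)) +
          qf x z * (h2 (tt z) * Real.exp (z u) * Real.exp (z v) + h1 (tt z) * (if u = v then Real.exp (z v) else 0))))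
    (dq.mul (dt.comp fun z => d1 _ (tt_pos z)))
    (fun v => (((Gro.const 2).mul ((Gro.expEval v).mul (gro_xw v))).mul g0).add
      (gro_qf.mul (g1.mul (Gro.expEval v))))
    (fun v => ((((Der.const 2).mul ((Der.eval Real.hasDerivAt_exp v).mul (dw v))).mul
      (dt.comp fun z => d1 _ (tt_pos z))).add (dq.mul ((dt.comp fun z => d2 _ (tt_pos z)).mul
        (Der.eval Real.hasDerivAt_exp v)))).congr fun u z => by ring)
    (fun v u => ((((Gro.const 2).mul (((ge v u).mul (gro_xw v)).add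
        ((Gro.expEval v).mul ((Gro.const _).mul (Gro.expEval u))))).mul g0).add
        (((Gro.const 2).mul ((Gro.expEval v).mul (gro_xw v))).mul (g1.mul (Gro.expEval u)))).add
      ((((Gro.const 2).mul ((Gro.expEval u).mul (gro_xw u))).mul (g1.mul (Gro.expEval v))).add
        (gro_qf.mul (((g2.mul (Gro.expEval u)).mul (Gro.expEval v)).add (g1.mul (ge v u))))))
    (fun z => ?_) hl
  set e := fun s => Real.exp (z s)
  set X := fun u v => dot (x u) (x v)
  set w := fun v => xw x v z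
  have hw : ∀ v, ∑ u, X u v * e u = w v := fun v => rfl
  have hpv : ∀ v, ∑ u, X u v * (e u * w u) * e v = ∑ u, X v u * e v * (e u * w u) := fun v =>
    Finset.sum_congr rfl fun u _ => by simp only [X, dot_symm v u]; ring
  have key : ∀ v, (∑ u, X u v *
      (2 * ((if u = v then e v else 0) * w v + e v * (X u v * e u)) * h (tt z) +
        2 * (e v * w v) * (h1 (tt z) * e u) +
        (2 * (e u * w u) * (h1 (tt z) * e v) +
          qf x z * (h2 (tt z) * e u * e v + h1 (tt z) * if u = v then e v else 0)))) / 2 -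
      Fintype.card ι / 2 * (2 * (e v * w v) * h (tt z) + qf x z * (h1 (tt z) * e v)) =
      (e v * ∑ u, X u v ^ 2 * e u) * h (tt z) + e v * w v ^ 2 * h1 (tt z) +
        (∑ u, X v u * e v * (e u * w u)) * h1 (tt z) + qf x z * (e v * w v) * h2 (tt z) / 2 := by
    intro v
    have hterm : ∀ u, X u v *
        (2 * ((if u = v then e v else 0) * w v + e v * (X u v * e u)) * h (tt z) +
          2 * (e v * w v) * (h1 (tt z) * e u) +
          (2 * (e u * w u) * (h1 (tt z) * e v) +
            qf x z * (h2 (tt z) * e u * e v + h1 (tt z) * if u = v then e v else 0))) =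
        (if u = v then X v v * e v * (2 * w v * h (tt z) + qf x z * h1 (tt z)) else 0) +
          2 * h (tt z) * e v * (X u v ^ 2 * e u) + 2 * (e v * w v * h1 (tt z)) * (X u v * e u) +
          2 * h1 (tt z) * (X u v * (e u * w u) * e v) + qf x z * h2 (tt z) * e v * (X u v * e u) := by
      intro u
      by_cases hu : u = v
      · subst hu; simp; ring
      · simp [hu]; ring
    simp only [hterm, Finset.sum_add_distrib, Finset.sum_ite_eq', Finset.mem_univ, if_true, ← Finset.mul_sum, hw,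
      hpv, X, hd]
    ring
  refine Eq.trans ?_ (Finset.sum_congr rfl fun v _ => (key v).symm)
  have hP : ∑ v, ∑ u, X v u * e v * (e u * w u) = p2 x z := by
    rw [Finset.sum_comm]
    refine Finset.sum_congr rfl fun u _ => ?_
    rw [← Finset.sum_mul, hw]
    show w u * (e u * w u) = e u * w u ^ 2
    ring
  rw [Finset.sum_add_distrib, Finset.sum_add_distrib, Finset.sum_add_distrib, ← Finset.sum_mul, ← Finset.sum_mul,
    ← Finset.sum_mul, ← Finset.sum_div, ← Finset.sum_mul, ← Finset.mul_sum, hP]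
  show _ = r2 x z * h (tt z) + p2 x z * h1 (tt z) + p2 x z * h1 (tt z) + qf x z * qf x z * h2 (tt z) / 2
  ring

lemma d_ent {l : ℝ} (hl : 0 < l) : HasDerivAt (av x μ c ent) (av x μ c (ov1 x) l / 2) l := by
  have := heat_tt hx hd hc hB hcb (μ := μ) (h := fun t => t * Real.log t) (h1 := fun t => Real.log t + 1)
    (h2 := fun t => t⁻¹) (fun t ht => Real.hasDerivAt_mul_log ht.ne')
    (fun t ht => (Real.hasDerivAt_log ht.ne').add_const 1) gro_ent (gro_log_tt.add (Gro.const 1)) gro_inv_tt hl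
  refine this.congr_deriv ?_
  rw [show (fun z => qf x z * (tt z)⁻¹ / 2) = fun z => (1 / 2 : ℝ) * ov1 x z from
    funext fun z => by rw [ov1]; ring, av_smul hx]
  ring

lemma d_ent2 {l : ℝ} (hl : 0 < l) : HasDerivAt (av x μ c ent2) (av x μ c (ovl x) l) l := by
  have := heat_tt hx hd hc hB hcb (μ := μ) (h := fun t => t * Real.log t ^ 2)
    (h1 := fun t => Real.log t ^ 2 + 2 * Real.log t) (h2 := fun t => 2 * ((Real.log t + 1) * t⁻¹))
    (fun t ht => ((hasDerivAt_id t).mul ((Real.hasDerivAt_log ht.ne').pow 2)).congr_deriv (by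
      simp only [Pi.pow_apply, id]; field_simp; ring))
    (fun t ht => (((Real.hasDerivAt_log ht.ne').pow 2).add
      ((Real.hasDerivAt_log ht.ne').const_mul 2)).congr_deriv (by push_cast; ring))
    gro_ent2 ((gro_log_tt.pow 2).add ((Gro.const 2).mul gro_log_tt))
    ((Gro.const 2).mul ((gro_log_tt.add (Gro.const 1)).mul gro_inv_tt)) hl
  refine this.congr_deriv (congrArg (fun H => av x μ c H l) (funext fun z => ?_))
  rw [ovl]; ring

lemma d_ov1 {l : ℝ} (hl : 0 < l) : HasDerivAt (av x μ c (ov1 x)) (av x μ c (xc x) l) l := by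
  have := heat_qf hx hd hc hB hcb (μ := μ) (h := fun t => t⁻¹) (h1 := fun t => -(t⁻¹ ^ 2))
    (h2 := fun t => 2 * t⁻¹ ^ 3)
    (fun t ht => (hasDerivAt_inv ht.ne').congr_deriv (by rw [inv_pow]))
    (fun t ht => (((hasDerivAt_inv ht.ne').pow 2).neg).congr_deriv (by
      rw [← inv_pow]; push_cast; ring))
    gro_inv_tt (by simpa using (Gro.const (-1)).mul (gro_inv_tt.pow 2)) ((Gro.const 2).mul (gro_inv_tt.pow 3)) hl
  refine this.congr_deriv (congrArg (fun H => av x μ c H l) (funext fun z => ?_))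
  rw [xc]; ring

lemma d_ovl {l : ℝ} (hl : 0 < l) :
    HasDerivAt (av x μ c (ovl x))
      (av x μ c (fun z => r2 x z * ((Real.log (tt z) + 1) * (tt z)⁻¹) -
        2 * p2 x z * (Real.log (tt z) * (tt z)⁻¹ ^ 2) +
        qf x z ^ 2 * ((2 * Real.log (tt z) - 1) * (tt z)⁻¹ ^ 3) / 2) l) l := by
  have := heat_qf hx hd hc hB hcb (μ := μ) (h := fun t => (Real.log t + 1) * t⁻¹)
    (h1 := fun t => -(Real.log t * t⁻¹ ^ 2)) (h2 := fun t => (2 * Real.log t - 1) * t⁻¹ ^ 3)
    (fun t ht => (((Real.hasDerivAt_log ht.ne').add_const 1).mul (hasDerivAt_inv ht.ne')).congr_deriv (by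
      rw [← inv_pow]; ring))
    (fun t ht => (((Real.hasDerivAt_log ht.ne').mul ((hasDerivAt_inv ht.ne').pow 2))).neg.congr_deriv (by
      simp only [Pi.pow_apply]; rw [← inv_pow]; push_cast; ring))
    ((gro_log_tt.add (Gro.const 1)).mul gro_inv_tt)
    (by simpa using (Gro.const (-1)).mul (gro_log_tt.mul (gro_inv_tt.pow 2)))
    ((((Gro.const 2).mul gro_log_tt).sub (Gro.const 1)).mul (gro_inv_tt.pow 3)) hl
  refine this.congr_deriv (congrArg (fun H => av x μ c H l) (funext fun z => ?_))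
  ring

end Deriv

/-! Pointwise inequalities. -/

omit [Nonempty S] in
lemma qf_eq (z : S → ℝ) : qf x z = ∑ i, (∑ s, Real.exp (z s) * x s i) ^ 2 := by
  simp only [qf, xw, dot, sq, Finset.sum_mul, Finset.mul_sum]
  rw [Finset.sum_comm (s := (Finset.univ : Finset ι))]
  refine Finset.sum_congr rfl fun v _ => ?_
  rw [Finset.sum_comm]
  exact Finset.sum_congr rfl fun i _ => Finset.sum_congr rfl fun u _ => by ring

omit [Nonempty S] in
lemma qf_nonneg (z : S → ℝ) : 0 ≤ qf x z := by rw [qf_eq]; exact Finset.sum_nonneg fun i _ => sq_nonneg _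

omit [Nonempty S] in
lemma qf_sq_le (z : S → ℝ) : qf x z ^ 2 ≤ p2 x z * tt z := by
  have := Finset.sum_sq_le_sum_mul_sum_of_sq_le_mul Finset.univ
    (r := fun v => Real.exp (z v) * xw x v z) (f := fun v => Real.exp (z v) * xw x v z ^ 2)
    (g := fun v => Real.exp (z v)) (fun v _ => by positivity) (fun v _ => by positivity)
    (fun v _ => le_of_eq (by ring))
  exact this

lemma xc_nonneg (z : S → ℝ) : 0 ≤ xc x z := by
  set L := tt z
  have hL : 0 < L := tt_pos z
  set e := fun s => Real.exp (z s)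
  set M := fun i j => ∑ s, e s * (x s i * x s j)
  set m := fun i => ∑ s, e s * x s i
  have hr : r2 x z = ∑ i, ∑ j, M i j ^ 2 := by
    simp only [r2, M, e, dot, sq, Finset.sum_mul, Finset.mul_sum]
    symm
    rw [Finset.sum_comm]
    simp only [Finset.sum_comm (s := (Finset.univ : Finset ι)) (t := (Finset.univ : Finset S))]
    rw [Finset.sum_comm]
    refine Finset.sum_congr rfl fun v _ => Finset.sum_congr rfl fun u _ => ?_
    rw [Finset.sum_comm]
    exact Finset.sum_congr rfl fun i _ => Finset.sum_congr rfl fun j _ => by ring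
  have hp : p2 x z = ∑ i, ∑ j, M i j * (m i * m j) := by
    have hxw : ∀ v, xw x v z = ∑ i, m i * x v i := fun v => by
      simp only [xw, m, e, dot, Finset.sum_mul]
      rw [Finset.sum_comm]
      exact Finset.sum_congr rfl fun i _ => Finset.sum_congr rfl fun u _ => by ring
    calc p2 x z = ∑ v, ∑ i, ∑ j, e v * (x v i * x v j) * (m i * m j) := Finset.sum_congr rfl fun v _ => by
          rw [hxw, sq, Finset.sum_mul_sum, Finset.mul_sum]
          refine Finset.sum_congr rfl fun i _ => ?_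
          rw [Finset.mul_sum]
          exact Finset.sum_congr rfl fun j _ => by simp only [e]; ring
      _ = ∑ i, ∑ v, ∑ j, e v * (x v i * x v j) * (m i * m j) := Finset.sum_comm
      _ = _ := Finset.sum_congr rfl fun i _ => by
          rw [Finset.sum_comm]
          exact Finset.sum_congr rfl fun j _ => (Finset.sum_mul _ _ _).symm
  have h : 0 ≤ ∑ i, ∑ j, (L * M i j - m i * m j) ^ 2 :=
    Finset.sum_nonneg fun i _ => Finset.sum_nonneg fun j _ => sq_nonneg _
  have e2 : ∑ i, ∑ j, (L * M i j - m i * m j) ^ 2 = L ^ 2 * r2 x z - 2 * L * p2 x z + qf x z ^ 2 := by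
    rw [hr, hp, qf_eq, sq (∑ i, _), Finset.sum_mul_sum]
    simp only [Finset.mul_sum, ← Finset.sum_sub_distrib, ← Finset.sum_add_distrib]
    exact Finset.sum_congr rfl fun i _ => Finset.sum_congr rfl fun j _ => by ring
  have : xc x z = (∑ i, ∑ j, (L * M i j - m i * m j) ^ 2) * L⁻¹ ^ 3 := by
    rw [e2, xc]
    show r2 x z * L⁻¹ - 2 * p2 x z * L⁻¹ ^ 2 + qf x z ^ 2 * L⁻¹ ^ 3 = _
    field_simp
  rw [this]; positivity

lemma xc_le (z : S → ℝ) : xc x z ≤ r2 x z * (tt z)⁻¹ := by
  have h := qf_sq_le (x := x) z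
  have hL := tt_pos z
  have h0 : 0 ≤ p2 x z := Finset.sum_nonneg fun v _ => mul_nonneg (Real.exp_pos _).le (sq_nonneg _)
  have e : xc x z = r2 x z * (tt z)⁻¹ - (2 * p2 x z * tt z - qf x z ^ 2) * (tt z)⁻¹ ^ 3 := by
    rw [xc]; field_simp; ring
  rw [e]
  have : 0 ≤ (2 * p2 x z * tt z - qf x z ^ 2) * (tt z)⁻¹ ^ 3 :=
    mul_nonneg (by linarith [mul_nonneg h0 hL.le]) (by positivity)
  linarith

/-- the pointwise form of the concentration identity -/
lemma conc_point (a : ℝ) (z : S → ℝ) :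
    r2 x z * (tt z)⁻¹ - 2 * (r2 x z * ((Real.log (tt z) + 1) * (tt z)⁻¹) -
        2 * p2 x z * (Real.log (tt z) * (tt z)⁻¹ ^ 2) +
        qf x z ^ 2 * ((2 * Real.log (tt z) - 1) * (tt z)⁻¹ ^ 3) / 2) + 2 * a * xc x z ≤
      2 * (xc x z * |Real.log (tt z) - a|) := by
  have hL := tt_pos z
  have h1 := xc_nonneg (x := x) z
  have h2 := qf_sq_le (x := x) z
  have e : r2 x z * (tt z)⁻¹ - 2 * (r2 x z * ((Real.log (tt z) + 1) * (tt z)⁻¹) -
        2 * p2 x z * (Real.log (tt z) * (tt z)⁻¹ ^ 2) +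
        qf x z ^ 2 * ((2 * Real.log (tt z) - 1) * (tt z)⁻¹ ^ 3) / 2) + 2 * a * xc x z =
      2 * (xc x z * (a - Real.log (tt z))) - xc x z - 2 * (p2 x z * tt z - qf x z ^ 2) * (tt z)⁻¹ ^ 3 := by
    rw [xc]; field_simp; ring
  rw [e]
  have h3 : 0 ≤ 2 * (p2 x z * tt z - qf x z ^ 2) * (tt z)⁻¹ ^ 3 :=
    mul_nonneg (by linarith) (by positivity)
  have := mul_le_mul_of_nonneg_left (show a - Real.log (tt z) ≤ |Real.log (tt z) - a| by
    rw [abs_sub_comm]; exact le_abs_self _) h1
  linarith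

end Vale.Agent.P157.Teach
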