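import Vale.Agent.P157.Lim.Calc

/-! Derivatives in the strength of a Gaussian side channel. -/

open MeasureTheory ProbabilityTheory Set Filter
open scoped Topology
open Vale.Agent.P150 (gauss dot l1 l1_nonneg abs_le_l1 gauss_ibp integrable_of_bound integrable_exp_l1)
open Vale.Agent.P157.Lim (Der)

namespace Vale.Agent.P157.Teach

variable {S ι : Type} [Fintype S] [Fintype ι] {R : ℝ}

/-- continuous with exponential growth -/
def Gro (H : (S → ℝ) → ℝ) : Prop :=
  Continuous H ∧ ∃ C K : ℝ, 0 ≤ C ∧ 0 ≤ K ∧ ∀ z, |H z| ≤ C * Real.exp (K * ‖z‖)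

lemma Gro.const (k : ℝ) : Gro (fun _ : S → ℝ => k) :=
  ⟨continuous_const, |k|, 0, abs_nonneg _, le_rfl, fun z => by simp⟩

lemma Gro.expEval (s : S) : Gro (fun z : S → ℝ => Real.exp (z s)) :=
  ⟨by fun_prop, 1, 1, zero_le_one, zero_le_one, fun z => by
    rw [Real.abs_exp, one_mul, one_mul, Real.exp_le_exp]
    exact (le_abs_self _).trans (norm_le_pi_norm z s)⟩

lemma Gro.mul {F G : (S → ℝ) → ℝ} (hF : Gro F) (hG : Gro G) : Gro (fun z => F z * G z) := by
  obtain ⟨hf, C, K, hC, hK, hb⟩ := hF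
  obtain ⟨hg, C', K', hC', hK', hb'⟩ := hG
  refine ⟨hf.mul hg, C * C', K + K', by positivity, by linarith, fun z => ?_⟩
  rw [abs_mul, add_mul, Real.exp_add]
  exact (mul_le_mul (hb z) (hb' z) (abs_nonneg _) (by positivity)).trans_eq (by ring)

lemma Gro.add {F G : (S → ℝ) → ℝ} (hF : Gro F) (hG : Gro G) : Gro (fun z => F z + G z) := by
  obtain ⟨hf, C, K, hC, hK, hb⟩ := hF
  obtain ⟨hg, C', K', hC', hK', hb'⟩ := hG
  refine ⟨hf.add hg, C + C', K + K', by linarith, by linarith, fun z => ?_⟩
  refine (abs_add_le _ _).trans ((add_le_add (hb z) (hb' z)).trans ?_)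
  rw [add_mul]
  have n := norm_nonneg z
  exact add_le_add
    (mul_le_mul_of_nonneg_left (Real.exp_le_exp.2 (mul_le_mul_of_nonneg_right (by linarith) n)) hC)
    (mul_le_mul_of_nonneg_left (Real.exp_le_exp.2 (mul_le_mul_of_nonneg_right (by linarith) n)) hC')

lemma Gro.sub {F G : (S → ℝ) → ℝ} (hF : Gro F) (hG : Gro G) : Gro (fun z => F z - G z) := by
  simpa [sub_eq_add_neg] using hF.add ((Gro.const (-1)).mul hG)

lemma Gro.sum {α : Type*} (A : Finset α) {F : α → (S → ℝ) → ℝ} (hF : ∀ i ∈ A, Gro (F i)) :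
    Gro (fun z => ∑ i ∈ A, F i z) := by
  classical
  induction A using Finset.induction with
  | empty => simpa using Gro.const (S := S) 0
  | insert a A ha ih =>
    simp only [Finset.sum_insert ha]
    exact (hF a (Finset.mem_insert_self _ _)).add (ih fun i hi => hF i (Finset.mem_insert_of_mem hi))

lemma Gro.pow {F : (S → ℝ) → ℝ} (hF : Gro F) : ∀ n : ℕ, Gro (fun z => F z ^ n)
  | 0 => by simpa using Gro.const (S := S) 1
  | n + 1 => by simpa [pow_succ] using (Gro.pow hF n).mul hF

lemma Gro.abs {F : (S → ℝ) → ℝ} (hF : Gro F) : Gro (fun z => |F z|) := by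
  obtain ⟨hf, C, K, hC, hK, hb⟩ := hF
  exact ⟨hf.abs, C, K, hC, hK, fun z => by rw [abs_abs]; exact hb z⟩

variable (x : S → ι → ℝ)

/-- exponents of the tilted weights: prior plus channel -/
noncomputable def zed (c : S → ℝ) (l : ℝ) (y : ι → ℝ) : S → ℝ :=
  fun s => c s + (√l * dot (x s) y - Fintype.card ι * l / 2)

lemma continuous_zed : Continuous fun p : (S → ℝ) × ℝ × (ι → ℝ) => zed x p.1 p.2.1 p.2.2 := by
  unfold zed dot; fun_prop

variable {x}

lemma norm_zed_le (hx : ∀ s i, |x s i| ≤ R) {c : S → ℝ} {B : ℝ} (hc : ∀ s, |c s| ≤ B) (hB : 0 ≤ B)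
    {l T : ℝ} (hl : |l| ≤ T) (y : ι → ℝ) :
    ‖zed x c l y‖ ≤ B + Fintype.card ι * T + √T * (|R| * l1 y) := by
  have hT : 0 ≤ T := (abs_nonneg _).trans hl
  have := l1_nonneg y
  refine (pi_norm_le_iff_of_nonneg (by positivity)).2 fun s => ?_
  rw [Real.norm_eq_abs, zed]
  refine (abs_add_le _ _).trans ?_
  have h1 : |√l * dot (x s) y| ≤ √T * (|R| * l1 y) := by
    rw [abs_mul, abs_of_nonneg (Real.sqrt_nonneg l)]
    refine mul_le_mul (Real.sqrt_le_sqrt ((le_abs_self l).trans hl)) ?_ (abs_nonneg _) (Real.sqrt_nonneg T)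
    exact Vale.Agent.P150.abs_dot_le (fun i => (hx s i).trans (le_abs_self R)) y
  have h2 : |(Fintype.card ι : ℝ) * l / 2| ≤ Fintype.card ι * T := by
    rw [abs_div, abs_mul, Nat.abs_cast, abs_two]
    have := mul_le_mul_of_nonneg_left hl (Nat.cast_nonneg (α := ℝ) (Fintype.card ι))
    linarith [mul_nonneg (Nat.cast_nonneg (α := ℝ) (Fintype.card ι)) hT]
  linarith [abs_sub (√l * dot (x s) y) ((Fintype.card ι : ℝ) * l / 2), hc s]

lemma gro_bound (hx : ∀ s i, |x s i| ≤ R) {H : (S → ℝ) → ℝ} (hH : Gro H) {B T : ℝ} (hB : 0 ≤ B) :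
    ∃ C M : ℝ, 0 ≤ C ∧ 0 ≤ M ∧ ∀ c : S → ℝ, (∀ s, |c s| ≤ B) → ∀ l, |l| ≤ T → ∀ y,
      |H (zed x c l y)| ≤ C * Real.exp (M * l1 y) := by
  obtain ⟨-, C, K, hC, hK, hb⟩ := hH
  refine ⟨C * Real.exp (K * (B + Fintype.card ι * T)), K * √T * |R|, by positivity, by positivity,
    fun c hc l hl y => ?_⟩
  refine (hb _).trans ?_
  rw [mul_assoc C, ← Real.exp_add]
  refine mul_le_mul_of_nonneg_left (Real.exp_le_exp.2 ?_) hC
  refine (mul_le_mul_of_nonneg_left (norm_zed_le hx hc hB hl y) hK).trans_eq ?_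
  ring

lemma integrable_gro (hx : ∀ s i, |x s i| ≤ R) {H : (S → ℝ) → ℝ} (hH : Gro H) (c : S → ℝ) (l : ℝ) :
    Integrable (fun y => H (zed x c l y)) (gauss ι) := by
  obtain ⟨C, M, -, -, hb⟩ := gro_bound hx hH (B := ‖c‖) (T := |l|) (norm_nonneg c)
  exact integrable_of_bound (hH.1.comp (by unfold zed dot; fun_prop))
    fun y => hb c (fun s => norm_le_pi_norm c s) l le_rfl y

variable {Γ : Type*} [MeasurableSpace Γ] {μ : Measure Γ} [IsProbabilityMeasure μ] {c : Γ → S → ℝ} {B : ℝ}

variable (x) (μ) (c) in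
/-- the average over prior and channel -/
noncomputable def av (H : (S → ℝ) → ℝ) (l : ℝ) : ℝ := ∫ γ', ∫ y, H (zed x (c γ') l y) ∂gauss ι ∂μ

lemma inner_meas (hc : Measurable c) {H : (S → ℝ) → ℝ} (hH : Continuous H) (l : ℝ) :
    AEStronglyMeasurable (fun γ' => ∫ y, H (zed x (c γ') l y) ∂gauss ι) μ :=
  (StronglyMeasurable.integral_prod_right' (ν := gauss ι)
    (f := fun p : Γ × (ι → ℝ) => H (zed x (c p.1) l p.2))
    ((hH.comp (continuous_zed x)).measurable.comp
      ((hc.comp measurable_fst).prodMk (measurable_const.prodMk measurable_snd))).stronglyMeasurable).aestronglyMeasurable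

lemma inner_bound (hx : ∀ s i, |x s i| ≤ R) (hB : 0 ≤ B) {H : (S → ℝ) → ℝ} (hH : Gro H) (T : ℝ) :
    ∃ C, 0 ≤ C ∧ ∀ c : S → ℝ, (∀ s, |c s| ≤ B) → ∀ l, |l| ≤ T →
      |∫ y, H (zed x c l y) ∂gauss ι| ≤ C := by
  obtain ⟨C, M, hC, -, hb⟩ := gro_bound hx hH (T := T) hB
  refine ⟨C * ∫ y, Real.exp (M * l1 y) ∂gauss ι, mul_nonneg hC (integral_nonneg fun y => (Real.exp_pos _).le),
    fun c hc l hl => ?_⟩
  rw [← integral_const_mul]
  exact abs_integral_le_integral_abs.trans (integral_mono (integrable_gro hx hH c l).abs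
    ((integrable_exp_l1 M).const_mul C) fun y => hb c hc l hl y)

lemma integrable_inner (hx : ∀ s i, |x s i| ≤ R) (hc : Measurable c) (hB : 0 ≤ B) (hcb : ∀ γ' s, |c γ' s| ≤ B)
    {H : (S → ℝ) → ℝ} (hH : Gro H) (l : ℝ) : Integrable (fun γ' => ∫ y, H (zed x (c γ') l y) ∂gauss ι) μ := by
  obtain ⟨C, -, hb⟩ := inner_bound hx hB hH |l|
  exact Integrable.of_bound (inner_meas hc hH.1 l) C (Eventually.of_forall fun γ' => hb _ (hcb γ') l le_rfl)

section Linear

variable (hx : ∀ s i, |x s i| ≤ R) (hc : Measurable c) (hB : 0 ≤ B) (hcb : ∀ γ' s, |c γ' s| ≤ B)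
include hx hc hB hcb

lemma av_add {F G : (S → ℝ) → ℝ} (hF : Gro F) (hG : Gro G) (l : ℝ) :
    av x μ c (fun z => F z + G z) l = av x μ c F l + av x μ c G l := by
  unfold av
  rw [← integral_add (integrable_inner hx hc hB hcb hF l) (integrable_inner hx hc hB hcb hG l)]
  exact integral_congr_ae (Eventually.of_forall fun γ' =>
    integral_add (integrable_gro hx hF _ l) (integrable_gro hx hG _ l))

omit hc hB hcb in
lemma av_smul (k : ℝ) (F : (S → ℝ) → ℝ) (l : ℝ) : av x μ c (fun z => k * F z) l = k * av x μ c F l := by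
  simp [av, integral_const_mul]

lemma av_mono {F G : (S → ℝ) → ℝ} (hF : Gro F) (hG : Gro G) (h : ∀ z, F z ≤ G z) (l : ℝ) :
    av x μ c F l ≤ av x μ c G l :=
  integral_mono (integrable_inner hx hc hB hcb hF l) (integrable_inner hx hc hB hcb hG l) fun γ' =>
    integral_mono (integrable_gro hx hF _ l) (integrable_gro hx hG _ l) fun y => h _

lemma continuous_av {H : (S → ℝ) → ℝ} (hH : Gro H) : Continuous (av x μ c H) := by
  refine continuous_iff_continuousAt.2 fun l₀ => ?_
  obtain ⟨C, -, hb⟩ := inner_bound hx hB hH (|l₀| + 1)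
  have hball : ∀ l ∈ Metric.ball l₀ 1, |l| ≤ |l₀| + 1 := fun l hl => by
    rw [Metric.mem_ball, Real.dist_eq] at hl
    linarith [abs_sub_abs_le_abs_sub l l₀]
  refine continuousAt_of_dominated (bound := fun _ => C)
    (Eventually.of_forall fun l => inner_meas hc hH.1 l) ?_ (integrable_const _)
    (Eventually.of_forall fun γ' => ?_)
  · filter_upwards [Metric.ball_mem_nhds l₀ one_pos] with l hl
    exact Eventually.of_forall fun γ' => hb _ (hcb γ') l (hball l hl)
  · obtain ⟨C', M, -, -, hb'⟩ := gro_bound hx hH (T := |l₀| + 1) hB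
    refine continuousAt_of_dominated (bound := fun y => C' * Real.exp (M * l1 y))
      (Eventually.of_forall fun l => (hH.1.comp (by unfold zed dot; fun_prop)).aestronglyMeasurable) ?_
      ((integrable_exp_l1 M).const_mul _)
      (Eventually.of_forall fun y => (hH.1.comp (by unfold zed dot; fun_prop)).continuousAt)
    filter_upwards [Metric.ball_mem_nhds l₀ one_pos] with l hl
    exact Eventually.of_forall fun y => hb' _ (hcb γ') l (hball l hl) y

/-- the heat identity -/
lemma heat {H K : (S → ℝ) → ℝ} {H1 : S → (S → ℝ) → ℝ} {H2 : S → S → (S → ℝ) → ℝ} (hH : Gro H)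
    (hd : Der H H1) (hH1 : ∀ v, Gro (H1 v)) (hd1 : ∀ v, Der (H1 v) (H2 v)) (hH2 : ∀ v u, Gro (H2 v u))
    (hK : ∀ z, K z = ∑ v, ((∑ u, dot (x u) (x v) * H2 v u z) / 2 - Fintype.card ι / 2 * H1 v z))
    {l : ℝ} (hl : 0 < l) : HasDerivAt (av x μ c H) (av x μ c K l) l := by
  classical
  have hKg : Gro K := by
    rw [show K = fun z => ∑ v, (∑ u, (dot (x u) (x v) / 2) * H2 v u z + (-(Fintype.card ι / 2 : ℝ)) * H1 v z) from
      funext fun z => by
        rw [hK]
        refine Finset.sum_congr rfl fun v _ => ?_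
        rw [neg_mul, ← sub_eq_add_neg, Finset.sum_div]
        congr 1
        exact Finset.sum_congr rfl fun u _ => by ring]
    exact Gro.sum _ fun v _ => (Gro.sum _ fun u _ => (Gro.const _).mul (hH2 v u)).add ((Gro.const _).mul (hH1 v))
  have inner : ∀ c : S → ℝ, (∀ s, |c s| ≤ B) → ∀ l : ℝ, 0 < l →
      HasDerivAt (fun l => ∫ y, H (zed x c l y) ∂gauss ι) (∫ y, K (zed x c l y) ∂gauss ι) l := by
    intro c hcc l hl
    set r := l / 2
    have hr : 0 < r := by positivity
    set T := 2 * l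
    have hball : ∀ t ∈ Metric.ball l r, r ≤ t ∧ |t| ≤ T := fun t ht => by
      rw [Metric.mem_ball, Real.dist_eq, abs_lt] at ht
      refine ⟨by simp only [r] at *; linarith, abs_le.2 ⟨?_, ?_⟩⟩ <;> simp only [r, T] at * <;> linarith
    set d := fun (t : ℝ) (v : S) (y : ι → ℝ) => 1 / (2 * √t) * dot (x v) y - Fintype.card ι / 2
    set F' := fun (t : ℝ) (y : ι → ℝ) => ∑ v, H1 v (zed x c t y) * d t v y
    choose C1 M1 hC1 hM1 hb1 using fun v => gro_bound hx (hH1 v) (T := T) hB
    have hcz : ∀ t, Continuous fun y => zed x c t y := fun t => by unfold zed dot; fun_prop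
    have key := (hasDerivAt_integral_of_dominated_loc_of_deriv_le
      (F := fun t y => H (zed x c t y)) (F' := F')
      (bound := fun y => ∑ v, C1 v * ((1 / (2 * √r)) * (|R| + 1) + Fintype.card ι / 2) * Real.exp ((M1 v + 1) * l1 y))
      (Metric.ball_mem_nhds l hr)
      (Eventually.of_forall fun t => (hH.1.comp (hcz t)).aestronglyMeasurable)
      (integrable_gro hx hH c l)
      ((continuous_finsetSum _ fun v _ => ((hH1 v).1.comp (hcz l)).mul (by unfold d dot; fun_prop)).aestronglyMeasurable)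
      (Eventually.of_forall fun y t ht => by
        obtain ⟨ht1, ht2⟩ := hball t ht
        refine (Finset.abs_sum_le_sum_abs _ _).trans (Finset.sum_le_sum fun v _ => ?_)
        have hs : 1 / (2 * √t) ≤ 1 / (2 * √r) := by
          have : 0 < √r := Real.sqrt_pos.2 hr
          gcongr
        have e1 : |d t v y| ≤ (1 / (2 * √r) * (|R| + 1) + Fintype.card ι / 2) * Real.exp (l1 y) := by
          have hl1 := Real.add_one_le_exp (l1 y)
          have h0 : 0 ≤ 1 / (2 * √t) := by positivity
          have hdx : |dot (x v) y| ≤ (|R| + 1) * l1 y :=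
            (Vale.Agent.P150.abs_dot_le (fun i => (hx v i).trans (le_abs_self R)) y).trans
              (mul_le_mul_of_nonneg_right (by linarith) (l1_nonneg y))
          refine (abs_sub _ _).trans ?_
          rw [abs_mul, abs_of_nonneg h0, abs_of_nonneg (show (0:ℝ) ≤ Fintype.card ι / 2 by positivity), add_mul]
          refine add_le_add ((mul_le_mul hs (hdx.trans (mul_le_mul_of_nonneg_left (show l1 y ≤ Real.exp (l1 y) by linarith) (by positivity))) (abs_nonneg _) (by positivity)).trans_eq (mul_assoc _ _ _).symm) ?_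
          exact le_mul_of_one_le_right (by positivity) (by linarith [l1_nonneg y])
        rw [abs_mul]
        refine (mul_le_mul (hb1 v c hcc t ht2 y) e1 (abs_nonneg _) (mul_nonneg (hC1 v) (Real.exp_pos _).le)).trans_eq ?_
        rw [add_mul (M1 v), one_mul, Real.exp_add]; ring)
      (integrable_finsetSum _ fun v _ => (integrable_exp_l1 (M1 v + 1)).const_mul _)
      (Eventually.of_forall fun y t ht => by
        have ht0 : 0 < t := hr.trans_le (hball t ht).1
        refine hd (fun s => zed x c s y) (fun v => d t v y) t fun v => ?_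
        unfold zed
        refine ((((Real.hasDerivAt_sqrt ht0.ne').mul_const _).sub
          (((hasDerivAt_id t).const_mul _).div_const 2)).const_add (c v)).congr_deriv ?_
        simp [d])).2
    refine key.congr_deriv ?_
    have ibp : ∀ v i, ∫ y, y i * H1 v (zed x c l y) ∂gauss ι =
        √l * ∑ u, x u i * ∫ y, H2 v u (zed x c l y) ∂gauss ι := by
      intro v i
      have hT : |l| ≤ T := by rw [abs_of_pos hl]; simp only [T]; linarith
      have hg2 : Gro (fun z => ∑ u, √l * x u i * H2 v u z) := Gro.sum _ fun u _ => (Gro.const _).mul (hH2 v u)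
      obtain ⟨C2, M2, hC2, hM2, hb2⟩ := gro_bound hx hg2 (T := T) hB
      have mono : ∀ {a b : ℝ} (y : ι → ℝ), a ≤ b → Real.exp (a * l1 y) ≤ Real.exp (b * l1 y) := fun y h =>
        Real.exp_le_exp.2 (mul_le_mul_of_nonneg_right h (l1_nonneg y))
      rw [gauss_ibp (C := C1 v + C2) (M := M1 v + M2) i (by have := hM1 v; linarith)
        (φ := fun y => H1 v (zed x c l y)) ((hH1 v).1.comp (hcz l))
        (φ' := fun y => ∑ u, √l * x u i * H2 v u (zed x c l y)) (hg2.1.comp (hcz l))
        (fun y => ?_) (fun y => ?_) (fun y s => ?_),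
        integral_finsetSum _ fun u _ => (integrable_gro hx (hH2 v u) c l).const_mul _, Finset.mul_sum]
      · exact Finset.sum_congr rfl fun u _ => by rw [integral_const_mul, mul_assoc]
      · exact (hb1 v c hcc l hT y).trans (mul_le_mul (le_add_of_nonneg_right hC2) (mono y (le_add_of_nonneg_right hM2))
          (Real.exp_pos _).le (by have := hC1 v; linarith))
      · exact (hb2 c hcc l hT y).trans (mul_le_mul (le_add_of_nonneg_left (hC1 v)) (mono y (le_add_of_nonneg_left (hM1 v)))
          (Real.exp_pos _).le (by have := hC1 v; linarith))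
      · refine (hd1 v (fun s' => zed x c l (Function.update y i s')) (fun u => √l * x u i) s fun u => ?_).congr_deriv
          (Finset.sum_congr rfl fun u _ => mul_comm _ _)
        unfold zed dot
        refine (((((HasDerivAt.fun_sum fun k _ => HasDerivAt.const_mul (x u k)
          ((hasDerivAt_pi.1 (hasDerivAt_update y i s)) k))).const_mul (√l)).sub_const _).const_add (c u)).congr_deriv ?_
        simp [Pi.single_apply]
    have iy : ∀ v i, Integrable (fun y => y i * H1 v (zed x c l y)) (gauss ι) := by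
      intro v i
      refine integrable_of_bound ((continuous_apply i).mul ((hH1 v).1.comp (hcz l)))
        (C := C1 v) (M := M1 v + 1) fun y => ?_
      rw [abs_mul, add_mul, one_mul, Real.exp_add, ← mul_assoc, mul_comm]
      refine mul_le_mul (hb1 v c hcc l (by rw [abs_of_pos hl]; simp only [T]; linarith) y)
        ((abs_le_l1 y i).trans (by linarith [Real.add_one_le_exp (l1 y)])) (abs_nonneg _)
        (mul_nonneg (hC1 v) (Real.exp_pos _).le)
    have e : ∀ y, F' l y = ∑ v, ((∑ i, 1 / (2 * √l) * x v i * (y i * H1 v (zed x c l y))) -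
        Fintype.card ι / 2 * H1 v (zed x c l y)) := fun y => by
      refine Finset.sum_congr rfl fun v _ => ?_
      rw [mul_sub, dot, Finset.mul_sum, Finset.mul_sum, mul_comm (H1 v _) ((Fintype.card ι : ℝ) / 2)]
      congr 1
      exact Finset.sum_congr rfl fun i _ => by ring
    simp only [e, hK]
    have i1 : ∀ v, Integrable (fun y => ∑ i, 1 / (2 * √l) * x v i * (y i * H1 v (zed x c l y))) (gauss ι) :=
      fun v => integrable_finsetSum _ fun i _ => (iy v i).const_mul _
    have i2 : ∀ v, Integrable (fun y => Fintype.card ι / 2 * H1 v (zed x c l y)) (gauss ι) :=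
      fun v => (integrable_gro hx (hH1 v) c l).const_mul _
    have i3 : ∀ v, Integrable (fun y => (∑ u, dot (x u) (x v) * H2 v u (zed x c l y)) / 2) (gauss ι) :=
      fun v => (integrable_finsetSum _ fun u _ => (integrable_gro hx (hH2 v u) c l).const_mul _).div_const 2
    rw [integral_finsetSum _ fun v _ => (i1 v).sub' (i2 v), integral_finsetSum _ fun v _ => (i3 v).sub' (i2 v)]
    refine Finset.sum_congr rfl fun v _ => ?_
    rw [integral_sub (i1 v) (i2 v), integral_sub (i3 v) (i2 v), integral_finsetSum _ fun i _ => (iy v i).const_mul _,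
      integral_div, integral_finsetSum _ fun u _ => (integrable_gro hx (hH2 v u) c l).const_mul _]
    simp only [integral_const_mul, ibp]
    congr 1
    rw [Finset.sum_div]
    simp only [Finset.mul_sum]
    rw [Finset.sum_comm]
    refine Finset.sum_congr rfl fun u _ => ?_
    rw [dot, Finset.sum_mul, Finset.sum_div]
    refine Finset.sum_congr rfl fun i _ => ?_
    have : √l ≠ 0 := (Real.sqrt_pos.2 hl).ne'
    field_simp
  obtain ⟨C, -, hb⟩ := inner_bound hx hB hKg (2 * l)
  have hball : ∀ t ∈ Metric.ball l (l / 2), 0 < t ∧ |t| ≤ 2 * l := fun t ht => by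
    rw [Metric.mem_ball, Real.dist_eq, abs_lt] at ht
    exact ⟨by linarith, abs_le.2 ⟨by linarith, by linarith⟩⟩
  exact (hasDerivAt_integral_of_dominated_loc_of_deriv_le
    (F := fun t γ' => ∫ y, H (zed x (c γ') t y) ∂gauss ι) (F' := fun t γ' => ∫ y, K (zed x (c γ') t y) ∂gauss ι)
    (bound := fun _ => C) (Metric.ball_mem_nhds l (by linarith))
    (Eventually.of_forall fun t => inner_meas hc hH.1 t) (integrable_inner hx hc hB hcb hH l)
    (inner_meas hc hKg.1 l) (Eventually.of_forall fun γ' t ht => hb _ (hcb γ') t (hball t ht).2)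
    (integrable_const _) (Eventually.of_forall fun γ' t ht => inner _ (hcb γ') t (hball t ht).1)).2

end Linear

end Vale.Agent.P157.Teach
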