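import Vale.Agent.P157.Teach.Psi

/-! One observation against a mixture of configurations, and the tangent bounds for `Ψ`. -/

open MeasureTheory ProbabilityTheory Set Filter
open scoped Topology
open Vale.Agent.P150 (gauss dot)
open Vale.Agent.P157.Lim

namespace Vale.Agent.P157.Teach

variable {U U1 U2 : ℝ → ℝ} {lo hi L : ℝ} {S : Type} [Fintype S]

/-- predictive weight -/
noncomputable def pred (U : ℝ → ℝ) (p : S → ℝ) (z : S → ℝ) : ℝ := ∑ s, p s * U (z s)

lemma phi_second {a b : ℝ} (ha : 0 < a) (hb : 0 < b) :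
    0 ≤ phi a - phi b - (Real.log b + 1) * (a - b) ∧
      phi a - phi b - (Real.log b + 1) * (a - b) ≤ (a - b) ^ 2 / b := by
  have e : phi a - phi b - (Real.log b + 1) * (a - b) = a * (Real.log a - Real.log b) - (a - b) := by
    unfold phi; ring
  rw [e, ← Real.log_div ha.ne' hb.ne']
  have h1 := mul_le_mul_of_nonneg_left (Real.one_sub_inv_le_log_of_pos (div_pos ha hb)) ha.le
  have h2 := mul_le_mul_of_nonneg_left (Real.log_le_sub_one_of_pos (div_pos ha hb)) ha.le
  have e1 : a * (1 - (a / b)⁻¹) = a - b := by field_simp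
  have e2 : a * (a / b - 1) - (a - b) = (a - b) ^ 2 / b := by field_simp
  constructor <;> linarith

/-- split the common coordinate from the individual ones -/
lemma gauss_split {F : (Unit ⊕ S → ℝ) → ℝ} (hF : Continuous F) {B : ℝ} (hB : ∀ g, |F g| ≤ B) :
    ∫ g, F g ∂gauss (Unit ⊕ S) =
      ∫ z, ∫ ξ, F (Sum.elim (fun _ => z) ξ) ∂gauss S ∂gaussianReal 0 1 := by
  have h0 : MeasurePreserving (fun g : Unit ⊕ S → ℝ => ((fun i => g (.inl i)), fun j => g (.inr j)))
      (gauss (Unit ⊕ S)) ((gauss Unit).prod (gauss S)) :=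
    measurePreserving_sumPiEquivProdPi (X := fun _ : Unit ⊕ S => ℝ) fun _ => gaussianReal 0 1
  have h1 : MeasurePreserving (fun z : Unit → ℝ => z ()) (gauss Unit) (gaussianReal 0 1) :=
    measurePreserving_eval (fun _ : Unit => gaussianReal 0 1) ()
  have h : MeasurePreserving (fun g : Unit ⊕ S → ℝ => (g (.inl ()), fun j => g (.inr j)))
      (gauss (Unit ⊕ S)) ((gaussianReal 0 1).prod (gauss S)) :=
    (h1.prod (MeasurePreserving.id (gauss S))).comp h0
  have e : ∀ g : Unit ⊕ S → ℝ, Sum.elim (fun _ => g (.inl ())) (fun j => g (.inr j)) = g := fun g => by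
    funext k; rcases k with k | k <;> rfl
  have hc : Continuous fun p : ℝ × (S → ℝ) => F (Sum.elim (fun _ => p.1) p.2) :=
    hF.comp (continuous_pi fun k => by rcases k with k | k <;> simp only [Sum.elim_inl, Sum.elim_inr] <;> fun_prop)
  rw [← integral_prod (fun p : ℝ × (S → ℝ) => F (Sum.elim (fun _ => p.1) p.2))
    (Integrable.of_bound hc.aestronglyMeasurable B (Eventually.of_forall fun p => by simpa using hB _)),
    ← h.map_eq, integral_map h.measurable.aemeasurable hc.aestronglyMeasurable]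
  simp only [e]

open Classical in
/-- the ideal configuration: common part `√q`, individual part `√(1-q)` -/
noncomputable def ideal (q : ℝ) (s : S) : Unit ⊕ S → ℝ :=
  Sum.elim (fun _ => √q) (fun t => if t = s then √(1 - q) else 0)

open Classical in
lemma dot_ideal {q : ℝ} (h0 : 0 ≤ q) (h1 : q ≤ 1) (s t : S) :
    dot (ideal q s) (ideal q t) = if s = t then 1 else q := by
  simp only [dot, ideal, Fintype.sum_sum_type, Sum.elim_inl, Sum.elim_inr, mul_ite, mul_zero, ite_mul, zero_mul]
  rw [Finset.sum_ite_eq']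
  have a := Real.mul_self_sqrt h0
  have b := Real.mul_self_sqrt (show 0 ≤ 1 - q by linarith)
  by_cases h : s = t
  · subst h; simp; linarith
  · simp [h, Ne.symm h, a]

open Classical in
lemma dot_ideal_elim (q : ℝ) (z : ℝ) (ξ : S → ℝ) (s : S) :
    dot (ideal q s) (Sum.elim (fun _ => z) ξ) = √q * z + √(1 - q) * ξ s := by
  simp [dot, ideal, Fintype.sum_sum_type]

variable {p : S → ℝ}

/-- weighted average of independent bounded variables -/
lemma avg_var (hp : ∀ s, 0 ≤ p s) (hs : ∑ s, p s = 1) {V : ℝ → ℝ} (hV : Continuous V) {B L' : ℝ}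
    (hB : ∀ x, |V x| ≤ B) (hL : ∀ x y, |V x - V y| ≤ L' * |x - y|) (x v : ℝ) (hv : 0 ≤ v) :
    Integrable (fun ξ : S → ℝ => (pred V p (fun s => x + √v * ξ s) - Uraw V x v) ^ 2) (gauss S) ∧
      ∫ ξ, (pred V p (fun s => x + √v * ξ s) - Uraw V x v) ^ 2 ∂gauss S ≤ L' ^ 2 * v * ∑ s, p s ^ 2 := by
  set X := fun (s : S) (t : ℝ) => p s * V (x + √v * t)
  have hm : ∀ s, MemLp (X s) 2 (gaussianReal 0 1) := fun s =>
    MemLp.of_bound (by unfold X; fun_prop) (p s * B) (Eventually.of_forall fun t => by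
      rw [Real.norm_eq_abs, abs_mul, abs_of_nonneg (hp s)]; exact mul_le_mul_of_nonneg_left (hB _) (hp s))
  have hc : Continuous fun ξ : S → ℝ => pred V p (fun s => x + √v * ξ s) :=
    continuous_finsetSum _ fun s _ => continuous_const.mul (hV.comp (by fun_prop))
  have hpb : ∀ ξ : S → ℝ, |pred V p (fun s => x + √v * ξ s)| ≤ B := fun ξ => by
    refine (Finset.abs_sum_le_sum_abs _ _).trans ((Finset.sum_le_sum fun s _ => ?_).trans_eq
      (show ∑ s, p s * B = B by rw [← Finset.sum_mul, hs, one_mul]))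
    rw [abs_mul, abs_of_nonneg (hp s)]; exact mul_le_mul_of_nonneg_left (hB _) (hp s)
  have hint : Integrable (fun ξ : S → ℝ => (pred V p (fun s => x + √v * ξ s) - Uraw V x v) ^ 2) (gauss S) :=
    Integrable.of_bound ((hc.sub continuous_const).pow 2).aestronglyMeasurable ((B + B) ^ 2)
      (Eventually.of_forall fun ξ => by
        rw [Real.norm_eq_abs, abs_pow]
        exact pow_le_pow_left₀ (abs_nonneg _) ((abs_sub _ _).trans (add_le_add (hpb ξ) (abs_Uraw hB _ _))) 2)
  refine ⟨hint, ?_⟩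
  have hev : ∀ s, ∫ ξ : S → ℝ, V (x + √v * ξ s) ∂gauss S = Uraw V x v := fun s =>
    integral_comp_eval (μ := fun _ : S => gaussianReal 0 1) (i := s) (f := fun t => V (x + √v * t))
      (hV.comp (by fun_prop)).aestronglyMeasurable
  have hmean : (gauss S)[fun ξ : S → ℝ => pred V p (fun s => x + √v * ξ s)] = Uraw V x v := by
    have hi : ∀ s, Integrable (fun ξ : S → ℝ => p s * V (x + √v * ξ s)) (gauss S) := fun s =>
      (Integrable.of_bound (hV.comp (by fun_prop)).aestronglyMeasurable B (Eventually.of_forall fun ξ => hB _)).const_mul _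
    show ∫ ξ : S → ℝ, ∑ s, p s * V (x + √v * ξ s) ∂gauss S = _
    rw [integral_finsetSum _ fun s _ => hi s]
    simp only [integral_const_mul, hev, ← Finset.sum_mul, hs, one_mul]
  have hvar := variance_sum_pi (μ := fun _ : S => gaussianReal 0 1) hm
  rw [variance_eq_integral (by fun_prop)] at hvar
  have ef : (∑ i, fun ω : S → ℝ => X i (ω i)) = fun ξ : S → ℝ => pred V p (fun s => x + √v * ξ s) := by
    funext ξ; simp [Finset.sum_apply, pred, X]
  simp only [ef] at hvar
  rw [show Measure.pi (fun _ : S => gaussianReal 0 1) = gauss S from rfl, hmean] at hvar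
  rw [hvar, Finset.mul_sum]
  refine Finset.sum_le_sum fun s _ => ?_
  rw [show X s = fun t => p s * V (x + √v * t) from rfl, variance_const_mul, mul_comm (L' ^ 2 * v)]
  refine mul_le_mul_of_nonneg_left ?_ (sq_nonneg _)
  rw [← variance_sub_const (by fun_prop) (V x)]
  refine (variance_le_expectation_sq (by fun_prop)).trans ?_
  have hsq := integral_mono_of_nonneg (μ := gaussianReal 0 1)
    (f := fun t => ((fun t => V (x + √v * t) - V x) ^ 2) t) (g := fun t => L' ^ 2 * v * t ^ 2)
    (Eventually.of_forall fun t => sq_nonneg _)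
    (((memLp_id_gaussianReal 2).integrable_sq).const_mul _) (Eventually.of_forall fun t => by
      simp only [Pi.pow_apply]
      rw [← sq_abs]
      refine (pow_le_pow_left₀ (abs_nonneg _) (hL _ _) 2).trans_eq ?_
      rw [add_sub_cancel_left, abs_mul, abs_of_nonneg (Real.sqrt_nonneg v), mul_pow, mul_pow, Real.sq_sqrt hv,
        sq_abs]
      ring)
  refine hsq.trans_eq ?_
  rw [integral_const_mul]
  have : ∫ t : ℝ, t ^ 2 ∂gaussianReal 0 1 = 1 := by
    have h := variance_id_gaussianReal (μ := 0) (v := 1)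
    rw [variance_of_integral_eq_zero (by fun_prop) (by simp)] at h
    simpa using h
  rw [this, mul_one]

/-- smoothed squared score against an average of independent smoothings -/
noncomputable def rint (U U1 : ℝ → ℝ) (p : S → ℝ) (x v : ℝ) : ℝ :=
  ∫ ξ, pred U1 p (fun s => x + √v * ξ s) ^ 2 / pred U p (fun s => x + √v * ξ s) ∂gauss S

/-- equal weights -/
noncomputable def eqw (n : ℕ) : Fin (n + 1) → ℝ := fun _ => 1 / ((n:ℝ) + 1)

/-- common direction -/
def com (n : ℕ) : Fin (n + 1) → Unit → ℝ := fun _ _ => 1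

open Classical in
/-- individual directions -/
noncomputable def ind (n : ℕ) : Fin (n + 1) → Fin (n + 1) → ℝ := fun s r => if r = s then 1 else 0

namespace Sm

variable (h : Sm U U1 U2 lo hi L)
include h

lemma pred_mem (hp : ∀ s, 0 ≤ p s) (hs : ∑ s, p s = 1) (z : S → ℝ) :
    lo ≤ pred U p z ∧ pred U p z ≤ hi := by
  constructor
  · calc lo = ∑ s, p s * lo := by rw [← Finset.sum_mul, hs, one_mul]
      _ ≤ _ := Finset.sum_le_sum fun s _ => mul_le_mul_of_nonneg_left (h.ge _) (hp s)
  · calc pred U p z ≤ ∑ s, p s * hi := Finset.sum_le_sum fun s _ => mul_le_mul_of_nonneg_left (h.le _) (hp s)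
      _ = hi := by rw [← Finset.sum_mul, hs, one_mul]

lemma abs_phi_le {a : ℝ} (h1 : lo ≤ a) (h2 : a ≤ hi) :
    |phi a| ≤ hi * (|Real.log lo| + |Real.log hi|) := by
  have a0 := h.pos.trans_le h1
  rw [phi, abs_mul, abs_of_pos a0]
  refine mul_le_mul h2 (abs_le.2 ⟨?_, ?_⟩) (abs_nonneg _) h.hi_pos.le
  · linarith [Real.log_le_log h.pos h1, neg_abs_le (Real.log lo), abs_nonneg (Real.log hi)]
  · linarith [Real.log_le_log a0 h2, le_abs_self (Real.log hi), abs_nonneg (Real.log lo)]

/-- derivative data for `phi ∘ pred` -/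
lemma calculus (hp : ∀ s, 0 ≤ p s) (hs : ∑ s, p s = 1) :
    ∃ (H1 : S → (S → ℝ) → ℝ) (H2 : S → S → (S → ℝ) → ℝ),
      Bd (fun z => phi (pred U p z)) ∧ Der (fun z => phi (pred U p z)) H1 ∧ (∀ v, Bd (H1 v)) ∧
      (∀ v, Der (H1 v) (H2 v)) ∧ (∀ v u, Bd (H2 v u)) ∧
      ∀ v u z, v ≠ u → H2 v u z = p v * U1 (z v) * (p u * U1 (z u)) / pred U p z := by
  classical
  have hc : Continuous (pred U p) :=
    continuous_finsetSum _ fun s _ => continuous_const.mul (h.contU.comp (continuous_apply s))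
  have hne : ∀ z, pred U p z ≠ 0 := fun z => (h.pos.trans_le (h.pred_mem hp hs z).1).ne'
  have hd : Der (pred U p) (fun v z => p v * U1 (z v)) := by
    refine (Der.sum Finset.univ fun s _ => (Der.const (p s)).mul (Der.eval h.d0 s)).congr fun v z => ?_
    simp
  have blog : Bd (fun z => Real.log (pred U p z) + 1) :=
    ⟨(hc.log hne).add continuous_const, |Real.log lo| + |Real.log hi| + 1, fun z => by
      obtain ⟨a, b⟩ := h.pred_mem hp hs z
      refine (abs_add_le _ _).trans (add_le_add (abs_le.2 ⟨?_, ?_⟩) (by norm_num))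
      · linarith [Real.log_le_log h.pos a, neg_abs_le (Real.log lo), abs_nonneg (Real.log hi)]
      · linarith [Real.log_le_log (h.pos.trans_le a) b, le_abs_self (Real.log hi), abs_nonneg (Real.log lo)]⟩
  have binv : Bd (fun z => (pred U p z)⁻¹) :=
    ⟨hc.inv₀ hne, 1 / lo, fun z => by
      rw [abs_inv, abs_of_pos (h.pos.trans_le (h.pred_mem hp hs z).1), ← one_div]
      exact one_div_le_one_div_of_le h.pos (h.pred_mem hp hs z).1⟩
  have bU1 : ∀ v : S, Bd (fun z : S → ℝ => p v * U1 (z v)) := fun v =>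
    (Bd.const _).mul (Bd.eval h.cont1 h.b1 v)
  refine ⟨fun v z => (Real.log (pred U p z) + 1) * (p v * U1 (z v)),
    fun v u z => ((pred U p z)⁻¹ * (p u * U1 (z u))) * (p v * U1 (z v)) +
      (Real.log (pred U p z) + 1) * (if u = v then p v * U2 (z v) else 0),
    ⟨Real.continuous_mul_log.comp hc, _, fun z => h.abs_phi_le (h.pred_mem hp hs z).1 (h.pred_mem hp hs z).2⟩,
    hd.comp (φ := phi) (φ' := fun y => Real.log y + 1) fun z => Real.hasDerivAt_mul_log (hne z), fun v => blog.mul (bU1 v), fun v => ?_,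
    fun v u => ((binv.mul (bU1 u)).mul (bU1 v)).add (blog.mul ?_), fun v u z hvu => ?_⟩
  · refine (((hd.comp (φ := Real.log) fun z => Real.hasDerivAt_log (hne z)).add (Der.const 1)).mul
      ((Der.const (p v)).mul (Der.eval h.d1 v))).congr fun u z => ?_
    simp
  · by_cases e : u = v
    · simp only [e, if_true]; exact (Bd.const _).mul (Bd.eval h.cont h.b2 v)
    · simp only [e, if_false]; exact Bd.const 0
  · simp only [if_neg (Ne.symm hvu), mul_zero, add_zero]
    rw [div_eq_inv_mul]; ring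

/-- one observation: only the overlaps matter, and only to first order -/
lemma observe {ι : Type} [Fintype ι] (hp : ∀ s, 0 ≤ p s) (hs : ∑ s, p s = 1) (a : S → ι → ℝ)
    (ha : ∀ s, dot (a s) (a s) = 1) {q : ℝ} (h0 : 0 ≤ q) (h1 : q ≤ 1) :
    |∫ g, phi (pred U p fun s => dot (a s) g) ∂gauss ι - Psi U q| ≤
      2 * L ^ 2 / lo * ∑ s, ∑ t, p s * p t * |dot (a s) (a t) - q| := by
  classical
  set b : S → Unit ⊕ S → ℝ := ideal q
  set D := ∑ s, ∑ t, p s * p t * |dot (a s) (a t) - q|
  have hD : 0 ≤ D := Finset.sum_nonneg fun s _ => Finset.sum_nonneg fun t _ =>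
    mul_nonneg (mul_nonneg (hp s) (hp t)) (abs_nonneg _)
  obtain ⟨H1, H2, bH, dH, bH1, dH1, bH2, hoff⟩ := h.calculus hp hs
  set G := fun t => ∫ g, phi (pred U p (field a b t g)) ∂gauss (ι ⊕ (Unit ⊕ S))
  set G' := fun t => 1 / 2 * ∑ v, ∑ u, dcov a b u v * ∫ g, H2 v u (field a b t g) ∂gauss (ι ⊕ (Unit ⊕ S))
  have hG : ∀ t ∈ Ioo (0:ℝ) 1, HasDerivAt G (G' t) t := fun t ht => interp a b bH dH bH1 dH1 bH2 ht.1 ht.2
  have hGc : ContinuousOn G (Icc 0 1) := by
    obtain ⟨hc, C, hC⟩ := bH
    exact (continuous_of_dominated (bound := fun _ => C)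
      (fun t => (hc.comp (continuous_field a b t)).aestronglyMeasurable)
      (fun t => Eventually.of_forall fun g => hC _) (integrable_const _)
      (Eventually.of_forall fun g => hc.comp (continuous_field' a b g))).continuousOn
  have hG' : ∀ t, |G' t| ≤ L ^ 2 / lo * D := by
    intro t
    rw [abs_mul, abs_of_pos (by norm_num : (0:ℝ) < 1 / 2)]
    refine (mul_le_mul_of_nonneg_left ((Finset.abs_sum_le_sum_abs _ _).trans (Finset.sum_le_sum fun v _ =>
      (Finset.abs_sum_le_sum_abs _ _).trans (Finset.sum_le_sum (g := fun u =>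
        p u * p v * |dot (a u) (a v) - q| * (L ^ 2 / lo)) fun u _ => ?_))) (by norm_num)).trans ?_
    · by_cases e : u = v
      · subst e
        have : dcov a b u u = 0 := by simp [dcov, b, dot_ideal h0 h1, ha]
        rw [this, zero_mul, abs_zero]
        exact mul_nonneg (mul_nonneg (mul_nonneg (hp u) (hp u)) (abs_nonneg _))
          (div_nonneg (sq_nonneg _) h.pos.le)
      · have hb : dcov a b u v = dot (a u) (a v) - q := by simp [dcov, b, dot_ideal h0 h1, e]
        rw [hb, abs_mul, mul_comm (p u * p v), mul_assoc]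
        refine mul_le_mul_of_nonneg_left ?_ (abs_nonneg _)
        rw [← Real.norm_eq_abs]
        refine le_of_le_of_eq (norm_integral_le_of_norm_le_const (C := p u * p v * (L ^ 2 / lo))
          (Eventually.of_forall fun g => ?_)) (by rw [probReal_univ, mul_one])
        set z := field a b t g
        rw [hoff v u _ (Ne.symm e), Real.norm_eq_abs, abs_div,
          abs_of_pos (h.pos.trans_le (h.pred_mem hp hs z).1), ← mul_div_assoc]
        refine div_le_div₀ (mul_nonneg (mul_nonneg (hp u) (hp v)) (sq_nonneg _)) ?_ h.pos (h.pred_mem hp hs z).1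
        rw [abs_mul, abs_mul, abs_mul, abs_of_nonneg (hp u), abs_of_nonneg (hp v)]
        calc p v * |U1 (z v)| * (p u * |U1 (z u)|) ≤ p v * L * (p u * L) :=
              mul_le_mul (mul_le_mul_of_nonneg_left (h.b1 _) (hp v)) (mul_le_mul_of_nonneg_left (h.b1 _) (hp u))
                (mul_nonneg (hp u) (abs_nonneg _)) (mul_nonneg (hp v) h.L_nonneg)
          _ = _ := by ring
    · have : ∑ v, ∑ u, p u * p v * |dot (a u) (a v) - q| * (L ^ 2 / lo) = L ^ 2 / lo * D := by
        rw [Finset.sum_comm]; simp only [D, Finset.mul_sum]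
        exact Finset.sum_congr rfl fun s _ => Finset.sum_congr rfl fun t _ => by ring
      rw [this]
      have := mul_nonneg (div_nonneg (sq_nonneg L) h.pos.le) hD
      linarith
  have hstep : |G 1 - G 0| ≤ L ^ 2 / lo * D := by
    obtain ⟨c, hc, he⟩ := exists_hasDerivAt_eq_slope G G' zero_lt_one hGc hG
    rw [sub_zero, div_one] at he
    rw [← he]; exact hG' c
  -- endpoints
  have hcp : Continuous fun z : S → ℝ => phi (pred U p z) := bH.1
  obtain ⟨C, hC⟩ := bH.2
  have e1 : G 1 = ∫ g, phi (pred U p fun s => dot (a s) g) ∂gauss ι := by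
    have hci : Continuous fun g : ι → ℝ => phi (pred U p fun s => dot (a s) g) :=
      hcp.comp (by unfold dot; fun_prop)
    rw [← map_left (κ := Unit ⊕ S), integral_map (Measurable.aemeasurable (by fun_prop)) hci.aestronglyMeasurable]
    refine integral_congr_ae (Eventually.of_forall fun g => ?_)
    refine congrArg (fun z => phi (pred U p z)) (funext fun s => ?_)
    simp [field, cvec, dot, Fintype.sum_sum_type]
  have e0 : G 0 = ∫ z, ∫ ξ, phi (pred U p fun s => √q * z + √(1 - q) * ξ s) ∂gauss S ∂gaussianReal 0 1 := by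
    have hci : Continuous fun g : Unit ⊕ S → ℝ => phi (pred U p fun s => dot (b s) g) :=
      hcp.comp (by unfold dot; fun_prop)
    have := gauss_split hci (fun g => hC _)
    simp only [b, dot_ideal_elim] at this
    rw [← this, ← map_right (ι := ι), integral_map (Measurable.aemeasurable (by fun_prop)) hci.aestronglyMeasurable]
    refine integral_congr_ae (Eventually.of_forall fun g => ?_)
    refine congrArg (fun z => phi (pred U p z)) (funext fun s => ?_)
    simp [field, cvec, dot, Fintype.sum_sum_type, b]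
  have hp2 : (∑ s, p s ^ 2) * (1 - q) ≤ D := by
    rw [Finset.sum_mul]
    refine Finset.sum_le_sum fun s _ => le_trans (le_of_eq ?_) (Finset.single_le_sum
      (fun t _ => mul_nonneg (mul_nonneg (hp s) (hp t)) (abs_nonneg _)) (Finset.mem_univ s))
    rw [ha, abs_of_nonneg (by linarith), sq]
  have cz : Continuous fun z => phi (Uraw U (√q * z) (1 - q)) :=
    Real.continuous_mul_log.comp ((continuous_Uraw h.contU h.abs_U).comp (f := fun z : ℝ => (√q * z, 1 - q))
      (by fun_prop))
  have hend : |G 0 - Psi U q| ≤ L ^ 2 / lo * D := by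
    have iz : Integrable (fun z => ∫ ξ, phi (pred U p fun s => √q * z + √(1 - q) * ξ s) ∂gauss S) (gaussianReal 0 1) := by
      refine Integrable.of_bound (Continuous.aestronglyMeasurable ?_) C (Eventually.of_forall fun z => ?_)
      · exact continuous_of_dominated (bound := fun _ => C)
          (fun z => (hcp.comp (by fun_prop)).aestronglyMeasurable)
          (fun z => Eventually.of_forall fun ξ => hC _) (integrable_const _)
          (Eventually.of_forall fun ξ => hcp.comp (by fun_prop))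
      · exact (norm_integral_le_of_norm_le_const (Eventually.of_forall fun ξ => hC _)).trans_eq (by simp)
    rw [e0, Psi, ← integral_sub iz (Integrable.of_bound cz.aestronglyMeasurable _ (Eventually.of_forall fun z =>
      h.abs_phi_le (h.smoothed_mem _ _).1 (h.smoothed_mem _ _).2))]
    rw [← Real.norm_eq_abs]
    refine le_of_le_of_eq (norm_integral_le_of_norm_le_const (C := L ^ 2 / lo * D) (Eventually.of_forall fun z => ?_))
      (by rw [probReal_univ, mul_one])
    set x := √q * z
    set B := Uraw U x (1 - q)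
    set P := fun ξ : S → ℝ => pred U p fun s => x + √(1 - q) * ξ s
    have hB : 0 < B := h.smoothed_pos _ _
    have hv := avg_var hp hs h.contU h.abs_U h.lipU x (1 - q) (by linarith)
    have hPm := fun ξ : S → ℝ => h.pred_mem hp hs (fun s => x + √(1 - q) * ξ s)
    have hPc : Continuous P := continuous_finsetSum _ fun s _ => continuous_const.mul (h.contU.comp (by fun_prop))
    have iP : Integrable P (gauss S) := Integrable.of_bound hPc.aestronglyMeasurable hi
      (Eventually.of_forall fun ξ => by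
        rw [Real.norm_eq_abs, abs_of_pos (h.pos.trans_le (hPm ξ).1)]; exact (hPm ξ).2)
    have iphi : Integrable (fun ξ => phi (P ξ)) (gauss S) := Integrable.of_bound
      (hcp.comp (by fun_prop : Continuous fun ξ : S → ℝ => fun s => x + √(1 - q) * ξ s)).aestronglyMeasurable C
      (Eventually.of_forall fun ξ => hC _)
    have hmean : ∫ ξ, (P ξ - B) ∂gauss S = 0 := by
      have hi' : ∀ s, Integrable (fun ξ : S → ℝ => p s * U (x + √(1 - q) * ξ s)) (gauss S) := fun s =>
        (Integrable.of_bound (h.contU.comp (by fun_prop)).aestronglyMeasurable hi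
          (Eventually.of_forall fun ξ => h.abs_U _)).const_mul _
      rw [integral_sub iP (integrable_const _), integral_const, probReal_univ, one_smul]
      show ∫ ξ : S → ℝ, ∑ s, p s * U (x + √(1 - q) * ξ s) ∂gauss S - B = 0
      rw [integral_finsetSum _ fun s _ => hi' s]
      simp only [integral_const_mul, fun s => integral_comp_eval (μ := fun _ : S => gaussianReal 0 1) (i := s)
        (f := fun t => U (x + √(1 - q) * t)) (h.contU.comp (by fun_prop)).aestronglyMeasurable, gauss,
        ← Finset.sum_mul, hs, one_mul]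
      exact sub_self _
    have ilin : Integrable (fun ξ => (Real.log B + 1) * (P ξ - B)) (gauss S) :=
      (iP.sub (integrable_const _)).const_mul _
    have irem : Integrable (fun ξ => phi (P ξ) - phi B - (Real.log B + 1) * (P ξ - B)) (gauss S) :=
      (iphi.sub (integrable_const _)).sub ilin
    have e : ∫ ξ, phi (P ξ) ∂gauss S - phi B =
        ∫ ξ, (phi (P ξ) - phi B - (Real.log B + 1) * (P ξ - B)) ∂gauss S := by
      have j := integral_sub (iphi.sub (integrable_const (phi B))) ilin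
      simp only [Pi.sub_apply] at j
      rw [j, integral_sub iphi (integrable_const _), integral_const_mul, hmean]
      simp
    rw [Real.norm_eq_abs, e, abs_of_nonneg (integral_nonneg fun ξ => (phi_second (h.pos.trans_le (hPm ξ).1) hB).1)]
    refine (integral_mono irem (hv.1.div_const B) fun ξ => (phi_second (h.pos.trans_le (hPm ξ).1) hB).2).trans ?_
    rw [integral_div]
    refine (div_le_div₀ (mul_nonneg (sq_nonneg L) hD) (hv.2.trans ?_) h.pos (h.smoothed_mem _ _).1).trans_eq
      (div_mul_eq_mul_div _ _ _).symm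
    rw [mul_assoc, mul_comm (1 - q)]
    exact mul_le_mul_of_nonneg_left hp2 (sq_nonneg _)
  rw [← e1]
  refine (abs_sub_le _ (G 0) _).trans ((add_le_add hstep hend).trans_eq ?_)
  ring

lemma rint_approx (hp : ∀ s, 0 ≤ p s) (hs : ∑ s, p s = 1) (x : ℝ) {v : ℝ} (hv : 0 ≤ v) (hv1 : v ≤ 1)
    {r : ℝ} (hr : 0 < r) (hr2 : ∑ s, p s ^ 2 ≤ r ^ 2) :
    |rint U U1 p x v - Uraw U1 x v ^ 2 / Uraw U x v| ≤ (2 * L / lo + L ^ 2 / lo ^ 2) * (1 + L ^ 2) * r := by
  have L0 := h.L_nonneg
  have lp := h.pos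
  set P := fun ξ : S → ℝ => pred U p fun s => x + √v * ξ s
  set Q := fun ξ : S → ℝ => pred U1 p fun s => x + √v * ξ s
  set A := Uraw U1 x v
  set B := Uraw U x v
  have hA : |A| ≤ L := abs_Uraw h.b1 _ _
  have hB : lo ≤ B := (h.smoothed_mem _ _).1
  have hB0 : 0 < B := lp.trans_le hB
  have hP : ∀ ξ, lo ≤ P ξ := fun ξ => (h.pred_mem hp hs _).1
  have hQ : ∀ ξ, |Q ξ| ≤ L := fun ξ => by
    refine (Finset.abs_sum_le_sum_abs _ _).trans ((Finset.sum_le_sum fun s _ => ?_).trans_eq
      (show ∑ s, p s * L = L by rw [← Finset.sum_mul, hs, one_mul]))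
    rw [abs_mul, abs_of_nonneg (hp s)]; exact mul_le_mul_of_nonneg_left (h.b1 _) (hp s)
  have cP : Continuous P := continuous_finsetSum _ fun s _ => continuous_const.mul (h.contU.comp (by fun_prop))
  have cQ : Continuous Q := continuous_finsetSum _ fun s _ => continuous_const.mul (h.cont1.comp (by fun_prop))
  have iJ : Integrable (fun ξ => Q ξ ^ 2 / P ξ) (gauss S) :=
    Integrable.of_bound ((cQ.pow 2).div cP fun ξ => (lp.trans_le (hP ξ)).ne').aestronglyMeasurable (L ^ 2 / lo)
      (Eventually.of_forall fun ξ => by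
        rw [Real.norm_eq_abs, abs_of_nonneg (div_nonneg (sq_nonneg _) (lp.trans_le (hP ξ)).le)]
        refine div_le_div₀ (sq_nonneg _) ?_ lp (hP ξ)
        rw [← sq_abs]; exact pow_le_pow_left₀ (abs_nonneg _) (hQ ξ) 2)
  have vA := avg_var hp hs h.cont1 h.b1 h.lip1 x v hv
  have vF := avg_var hp hs h.contU h.abs_U h.lipU x v hv
  have ab : ∀ d : ℝ, |d| ≤ r + d ^ 2 / r := fun d => by
    rcases le_or_gt |d| r with hd | hd
    · linarith [show 0 ≤ d ^ 2 / r by positivity]
    · have : |d| ≤ d ^ 2 / r := by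
        rw [le_div_iff₀ hr, ← sq_abs d, sq]
        exact mul_le_mul_of_nonneg_left hd.le (abs_nonneg d)
      linarith
  have c1 : 0 ≤ 2 * L / lo := by positivity
  have c2 : 0 ≤ L ^ 2 / lo ^ 2 := by positivity
  have hpt : ∀ ξ, |Q ξ ^ 2 / P ξ - A ^ 2 / B| ≤
      2 * L / lo * (r + (Q ξ - A) ^ 2 / r) + L ^ 2 / lo ^ 2 * (r + (P ξ - B) ^ 2 / r) := by
    intro ξ
    have hP0 : 0 < P ξ := lp.trans_le (hP ξ)
    have e : Q ξ ^ 2 / P ξ - A ^ 2 / B = (Q ξ + A) * (Q ξ - A) / P ξ + A ^ 2 * (B - P ξ) / (P ξ * B) := by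
      field_simp; ring
    rw [e]
    refine (abs_add_le _ _).trans (add_le_add ?_ ?_)
    · rw [abs_div, abs_mul, abs_of_pos hP0]
      calc |Q ξ + A| * |Q ξ - A| / P ξ ≤ (2 * L) * |Q ξ - A| / lo :=
            div_le_div₀ (by positivity) (mul_le_mul_of_nonneg_right
              ((abs_add_le _ _).trans (by linarith [hQ ξ])) (abs_nonneg _)) lp (hP ξ)
        _ = 2 * L / lo * |Q ξ - A| := by ring
        _ ≤ _ := mul_le_mul_of_nonneg_left (ab _) c1
    · rw [abs_div, abs_mul, abs_of_pos (mul_pos hP0 hB0), abs_pow]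
      calc |A| ^ 2 * |B - P ξ| / (P ξ * B) ≤ L ^ 2 * |B - P ξ| / (lo * lo) :=
            div_le_div₀ (by positivity) (mul_le_mul_of_nonneg_right
              (pow_le_pow_left₀ (abs_nonneg _) hA 2) (abs_nonneg _)) (mul_pos lp lp)
              (mul_le_mul (hP ξ) hB lp.le hP0.le)
        _ = L ^ 2 / lo ^ 2 * |P ξ - B| := by rw [abs_sub_comm]; ring
        _ ≤ _ := mul_le_mul_of_nonneg_left (ab _) c2
  have iR1 := ((integrable_const r).add (vA.1.div_const r)).const_mul (2 * L / lo)
  have iR2 := ((integrable_const r).add (vF.1.div_const r)).const_mul (L ^ 2 / lo ^ 2)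
  have est : |rint U U1 p x v - A ^ 2 / B| ≤ ∫ ξ, |Q ξ ^ 2 / P ξ - A ^ 2 / B| ∂gauss S := by
    refine le_trans (le_of_eq ?_) abs_integral_le_integral_abs
    rw [integral_sub iJ (integrable_const _), integral_const, probReal_univ, one_smul]
    rfl
  refine est.trans ((integral_mono (iJ.sub (integrable_const _)).abs (iR1.add iR2) hpt).trans ?_)
  rw [integral_add' iR1 iR2, integral_const_mul, integral_const_mul,
    integral_add' (integrable_const _) (vA.1.div_const _), integral_add' (integrable_const _) (vF.1.div_const _),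
    integral_div, integral_div, integral_const, probReal_univ, one_smul]
  have bnd : ∀ I : ℝ, I ≤ L ^ 2 * v * ∑ s, p s ^ 2 → r + I / r ≤ (1 + L ^ 2) * r := by
    intro I hI
    have : I / r ≤ L ^ 2 * r := by
      rw [div_le_iff₀ hr]
      refine hI.trans ((mul_le_mul (mul_le_of_le_one_right (sq_nonneg L) hv1) hr2
        (Finset.sum_nonneg fun s _ => sq_nonneg _) (sq_nonneg L)).trans_eq (by ring))
    linarith
  refine (add_le_add (mul_le_mul_of_nonneg_left (bnd _ vA.2) c1)
    (mul_le_mul_of_nonneg_left (bnd _ vF.2) c2)).trans_eq ?_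
  ring

lemma rho_approx (hp : ∀ s, 0 ≤ p s) (hs : ∑ s, p s = 1) {x : ℝ} (hx : 0 ≤ x) (hx1 : x ≤ 1)
    {r : ℝ} (hr : 0 < r) (hr2 : ∑ s, p s ^ 2 ≤ r ^ 2) :
    |∫ z, rint U U1 p (√x * z) (1 - x) ∂gaussianReal 0 1 - rho U U1 x| ≤
      (2 * L / lo + L ^ 2 / lo ^ 2) * (1 + L ^ 2) * r := by
  have hb : ∀ ξ : S → ℝ, ∀ y v : ℝ, |pred U1 p (fun s => y + √v * ξ s) ^ 2 /
      pred U p (fun s => y + √v * ξ s)| ≤ L ^ 2 / lo := fun ξ y v => by
    have hm := (h.pred_mem hp hs (fun s => y + √v * ξ s)).1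
    rw [abs_of_nonneg (div_nonneg (sq_nonneg _) (h.pos.trans_le hm).le)]
    refine div_le_div₀ (sq_nonneg _) ?_ h.pos hm
    rw [← sq_abs]
    refine pow_le_pow_left₀ (abs_nonneg _) ((Finset.abs_sum_le_sum_abs _ _).trans
      ((Finset.sum_le_sum fun s _ => ?_).trans_eq
        (show ∑ s, p s * L = L by rw [← Finset.sum_mul, hs, one_mul]))) 2
    rw [abs_mul, abs_of_nonneg (hp s)]; exact mul_le_mul_of_nonneg_left (h.b1 _) (hp s)
  have hc : Continuous fun q : ℝ × (S → ℝ) =>
      pred U1 p (fun s => √x * q.1 + √(1 - x) * q.2 s) ^ 2 / pred U p (fun s => √x * q.1 + √(1 - x) * q.2 s) :=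
    ((continuous_finsetSum _ fun s _ => continuous_const.mul (h.cont1.comp (by fun_prop))).pow 2).div
      (continuous_finsetSum _ fun s _ => continuous_const.mul (h.contU.comp (by fun_prop)))
      fun q => (h.pos.trans_le (h.pred_mem hp hs _).1).ne'
  have iJ : Integrable (fun z => rint U U1 p (√x * z) (1 - x)) (gaussianReal 0 1) := by
    refine Integrable.of_bound (Continuous.aestronglyMeasurable ?_) (L ^ 2 / lo) (Eventually.of_forall fun z => ?_)
    · exact continuous_of_dominated (bound := fun _ => L ^ 2 / lo)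
        (fun z => (hc.comp (Continuous.prodMk_right z)).aestronglyMeasurable)
        (fun z => Eventually.of_forall fun ξ => hb ξ _ _) (integrable_const _)
        (Eventually.of_forall fun ξ => hc.comp (Continuous.prodMk_left ξ))
    · exact (norm_integral_le_of_norm_le_const (Eventually.of_forall fun ξ => hb ξ _ _)).trans_eq (by simp)
  have ir : Integrable (fun z => Uraw U1 (√x * z) (1 - x) ^ 2 / Uraw U (√x * z) (1 - x)) (gaussianReal 0 1) :=
    Integrable.of_bound (h.cont_rho_integrand.comp (Continuous.prodMk_right x)).aestronglyMeasurable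
      (L ^ 2 / lo) (Eventually.of_forall fun z => by
        rw [Real.norm_eq_abs, abs_of_nonneg (h.rho_integrand x z).1]; exact (h.rho_integrand x z).2)
  rw [rho, ← integral_sub iJ ir, ← Real.norm_eq_abs]
  exact le_of_le_of_eq (norm_integral_le_of_norm_le_const (C := (2 * L / lo + L ^ 2 / lo ^ 2) * (1 + L ^ 2) * r)
    (Eventually.of_forall fun z => h.rint_approx hp hs _ (by linarith) (by linarith) hr hr2))
    (by rw [probReal_univ, mul_one])

lemma two_point_approx (n : ℕ) {x : ℝ} (hx : x ∈ Icc (0:ℝ) 1) :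
    |∫ g, phi (pred U (eqw n) (field (com n) (ind n) x g)) ∂gauss (Unit ⊕ Fin (n + 1)) - Psi U x| ≤
      2 * L ^ 2 / lo / ((n:ℝ) + 1) := by
  classical
  set w : (Fin (n + 1)) → ℝ := eqw n
  have hn : (0:ℝ) < (n:ℝ) + 1 := by positivity
  have w0 : ∀ s, 0 ≤ w s := fun s => by simp only [w, eqw]; positivity
  have ws : ∑ s, w s = 1 := by simp [w, eqw]; field_simp
  have ws2 : ∑ s, w s ^ 2 = 1 / ((n:ℝ) + 1) := by simp [w, eqw]; field_simp
  set a : (Fin (n + 1)) → Unit → ℝ := com n
  set b : (Fin (n + 1)) → (Fin (n + 1)) → ℝ := ind n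
  have haa : ∀ s r, dot (a s) (a r) = 1 := fun s r => by simp [dot, a, com]
  have hbb : ∀ s r, dot (b s) (b r) = if s = r then 1 else 0 := fun s r => by
    simp [dot, b, ind, eq_comm]
  have heq : ∫ g, phi (pred U (eqw n) (field a b x g)) ∂gauss (Unit ⊕ (Fin (n + 1))) =
      ∫ g, phi (pred U w fun s => dot (cvec a b x s) g) ∂gauss (Unit ⊕ (Fin (n + 1))) := rfl
  rw [heq]
  have hcv : ∀ s r, dot (cvec a b x s) (cvec a b x r) = x + (1 - x) * if s = r then 1 else 0 := fun s r => by
    rw [← hbb s r]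
    have hx1 := Real.mul_self_sqrt hx.1
    have hx2 := Real.mul_self_sqrt (show 0 ≤ 1 - x by linarith [hx.2])
    simp only [dot, cvec, Fintype.sum_sum_type, Sum.elim_inl, Sum.elim_inr, a, Finset.mul_sum]
    refine congrArg₂ _ ?_ (Finset.sum_congr rfl fun r' _ => by linear_combination (b s r' * b r r') * hx2)
    simp [com]; linarith
  refine (h.observe w0 ws (cvec a b x) (fun s => by rw [hcv]; simp) hx.1 hx.2).trans ?_
  rw [div_eq_mul_inv (2 * L ^ 2 / lo)]
  refine mul_le_mul_of_nonneg_left ?_ (by have := h.pos; positivity)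
  calc ∑ s, ∑ r, w s * w r * |dot (cvec a b x s) (cvec a b x r) - x|
      = ∑ s, w s ^ 2 * (1 - x) := Finset.sum_congr rfl fun s _ => by
        simp only [hcv, add_sub_cancel_left, mul_ite, mul_one, mul_zero]
        simp [apply_ite abs, abs_of_nonneg (show 0 ≤ 1 - x by linarith [hx.2]), sq]
    _ ≤ _ := by
        rw [← Finset.sum_mul, ws2, one_div]
        exact mul_le_of_le_one_right (by positivity) (by linarith [hx.1])

lemma two_point_deriv (n : ℕ) {x : ℝ} (hx : x ∈ Ioo (0:ℝ) 1)
    {H2 : Fin (n + 1) → Fin (n + 1) → (Fin (n + 1) → ℝ) → ℝ} (bH2 : ∀ v u, Bd (H2 v u))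
    (hoff : ∀ v u z, v ≠ u →
      H2 v u z = eqw n v * U1 (z v) * (eqw n u * U1 (z u)) / pred U (eqw n) z) :
    |1 / 2 * ∑ v, ∑ r, dcov (com n) (ind n) r v *
        ∫ g, H2 v r (field (com n) (ind n) x g) ∂gauss (Unit ⊕ Fin (n + 1)) - rho U U1 x / 2| ≤
      ((2 * L / lo + L ^ 2 / lo ^ 2) * (1 + L ^ 2) + L ^ 2 / lo) / √((n:ℝ) + 1) := by
  classical
  have L0 := h.L_nonneg
  set w : (Fin (n + 1)) → ℝ := eqw n
  have hn : (0:ℝ) < (n:ℝ) + 1 := by positivity
  have w0 : ∀ s, 0 ≤ w s := fun s => by simp only [w, eqw]; positivity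
  have ws : ∑ s, w s = 1 := by simp [w, eqw]; field_simp
  have ws2 : ∑ s, w s ^ 2 = 1 / ((n:ℝ) + 1) := by simp [w, eqw]; field_simp
  set a : (Fin (n + 1)) → Unit → ℝ := com n
  set b : (Fin (n + 1)) → (Fin (n + 1)) → ℝ := ind n
  have haa : ∀ s r, dot (a s) (a r) = 1 := fun s r => by simp [dot, a, com]
  have hbb : ∀ s r, dot (b s) (b r) = if s = r then 1 else 0 := fun s r => by
    simp [dot, b, ind, eq_comm]
  set G' := fun x => 1 / 2 * ∑ v, ∑ r, dcov a b r v * ∫ g, H2 v r (field a b x g) ∂gauss (Unit ⊕ (Fin (n + 1)))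
  show |G' x - rho U U1 x / 2| ≤ _
  set A := fun g => ∑ s, w s * U1 (field a b x g s)
  set Dg := fun g => ∑ s, (w s * U1 (field a b x g s)) ^ 2
  set F := fun g => pred U w (field a b x g)
  have hF : ∀ g, lo ≤ F g := fun g => (h.pred_mem w0 ws _).1
  have hF0 : ∀ g, 0 < F g := fun g => h.pos.trans_le (hF g)
  have cf : Continuous fun g => field a b x g := continuous_field a b x
  have cF : Continuous F := continuous_finsetSum _ fun s _ =>
    continuous_const.mul (h.contU.comp ((continuous_apply s).comp cf))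
  have cA : Continuous A := continuous_finsetSum _ fun s _ =>
    continuous_const.mul (h.cont1.comp ((continuous_apply s).comp cf))
  have cD : Continuous Dg := continuous_finsetSum _ fun s _ =>
    (continuous_const.mul (h.cont1.comp ((continuous_apply s).comp cf))).pow 2
  have bA : ∀ g, |A g| ≤ L := fun g => by
    refine (Finset.abs_sum_le_sum_abs _ _).trans ((Finset.sum_le_sum fun s _ => ?_).trans_eq
      (show ∑ s, w s * L = L by rw [← Finset.sum_mul, ws, one_mul]))
    rw [abs_mul, abs_of_nonneg (w0 s)]; exact mul_le_mul_of_nonneg_left (h.b1 _) (w0 s)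
  have bD : ∀ g, |Dg g| ≤ L ^ 2 / ((n:ℝ) + 1) := fun g => by
    rw [abs_of_nonneg (Finset.sum_nonneg fun s _ => sq_nonneg _)]
    calc Dg g ≤ ∑ s, w s ^ 2 * L ^ 2 := Finset.sum_le_sum fun s _ => by
          rw [mul_pow, ← sq_abs (U1 _)]
          exact mul_le_mul_of_nonneg_left (pow_le_pow_left₀ (abs_nonneg _) (h.b1 _) 2) (sq_nonneg _)
      _ = _ := by rw [← Finset.sum_mul, ws2]; ring
  have iAF : Integrable (fun g => A g ^ 2 / F g) (gauss (Unit ⊕ (Fin (n + 1)))) :=
    Integrable.of_bound ((cA.pow 2).div cF fun g => (hF0 g).ne').aestronglyMeasurable (L ^ 2 / lo)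
      (Eventually.of_forall fun g => by
        rw [Real.norm_eq_abs, abs_of_nonneg (div_nonneg (sq_nonneg _) (hF0 g).le)]
        refine div_le_div₀ (sq_nonneg _) ?_ h.pos (hF g)
        rw [← sq_abs]; exact pow_le_pow_left₀ (abs_nonneg _) (bA g) 2)
  have iDF : Integrable (fun g => Dg g / F g) (gauss (Unit ⊕ (Fin (n + 1)))) :=
    Integrable.of_bound (cD.div cF fun g => (hF0 g).ne').aestronglyMeasurable (L ^ 2 / ((n:ℝ) + 1) / lo)
      (Eventually.of_forall fun g => by
        rw [Real.norm_eq_abs, abs_div, abs_of_pos (hF0 g)]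
        exact div_le_div₀ (by positivity) (bD g) h.pos (hF g))
  have eG : G' x = 1 / 2 * (∫ g, A g ^ 2 / F g ∂gauss (Unit ⊕ (Fin (n + 1))) - ∫ g, Dg g / F g ∂gauss (Unit ⊕ (Fin (n + 1)))) := by
    rw [← integral_sub iAF iDF]
    simp only [G']
    congr 1
    simp only [← integral_const_mul]
    rw [← Finset.sum_congr rfl fun v _ => integral_finsetSum _ fun r _ =>
        (integrable_Bd a b (bH2 v r) x).const_mul _,
      ← integral_finsetSum _ fun v _ => integrable_finsetSum _ fun r _ =>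
        (integrable_Bd a b (bH2 v r) x).const_mul _]
    refine integral_congr_ae (Eventually.of_forall fun g => ?_)
    show _ = A g ^ 2 / F g - Dg g / F g
    set c := fun s => w s * U1 (field a b x g s)
    rw [← sub_div, show A g ^ 2 = ∑ v, ∑ r, c v * c r by
      rw [sq]; exact Finset.sum_mul_sum _ _ _ _, show Dg g = ∑ v, c v * c v from
      Finset.sum_congr rfl fun v _ => sq _]
    rw [← Finset.sum_sub_distrib, Finset.sum_div]
    refine Finset.sum_congr rfl fun v _ => ?_
    rw [← Finset.add_sum_erase _ _ (Finset.mem_univ v),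
      ← Finset.add_sum_erase _ (fun r => c v * c r) (Finset.mem_univ v)]
    have hz : dcov a b v v = 0 := by simp [dcov, haa, hbb]
    rw [hz, zero_mul, zero_add, add_sub_cancel_left, Finset.sum_div]
    refine Finset.sum_congr rfl fun r hr => ?_
    have hrv : r ≠ v := Finset.ne_of_mem_erase hr
    have hd : dcov a b r v = 1 := by simp [dcov, haa, hbb, hrv]
    rw [hd, one_mul, hoff v r _ (Ne.symm hrv)]
  have hD' : |∫ g, Dg g / F g ∂gauss (Unit ⊕ (Fin (n + 1)))| ≤ L ^ 2 / lo / √((n:ℝ) + 1) := by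
    refine (norm_integral_le_of_norm_le_const (μ := gauss (Unit ⊕ (Fin (n + 1)))) (f := fun g => Dg g / F g)
      (C := L ^ 2 / ((n:ℝ) + 1) / lo) (Eventually.of_forall fun g => by
        rw [Real.norm_eq_abs, abs_div, abs_of_pos (hF0 g)]
        exact div_le_div₀ (by positivity) (bD g) h.pos (hF g))).trans ?_
    rw [probReal_univ, mul_one, div_right_comm]
    refine div_le_div_of_nonneg_left (by have := h.pos; positivity) (Real.sqrt_pos.2 hn) ?_
    rw [Real.sqrt_le_iff]; exact ⟨hn.le, by nlinarith⟩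
  have hA' : |∫ g, A g ^ 2 / F g ∂gauss (Unit ⊕ (Fin (n + 1))) - rho U U1 x| ≤
      (2 * L / lo + L ^ 2 / lo ^ 2) * (1 + L ^ 2) / √((n:ℝ) + 1) := by
    have cAF : Continuous fun g => A g ^ 2 / F g := (cA.pow 2).div cF fun g => (hF0 g).ne'
    have eI := gauss_split cAF (B := L ^ 2 / lo) (fun g => by
      rw [abs_of_nonneg (div_nonneg (sq_nonneg _) (hF0 g).le)]
      refine div_le_div₀ (sq_nonneg _) ?_ h.pos (hF g)
      rw [← sq_abs]; exact pow_le_pow_left₀ (abs_nonneg _) (bA g) 2)
    have hz : ∀ (z : ℝ) (ξ : (Fin (n + 1)) → ℝ), field a b x (Sum.elim (fun _ => z) ξ) =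
        fun s => √x * z + √(1 - x) * ξ s := fun z ξ => by
      funext s
      simp [field, cvec, dot, Fintype.sum_sum_type, a, b, com, ind]
    have eI2 : ∫ g, A g ^ 2 / F g ∂gauss (Unit ⊕ (Fin (n + 1))) =
        ∫ z, rint U U1 w (√x * z) (1 - x) ∂gaussianReal 0 1 := by
      rw [eI]; simp only [A, F, hz, rint, pred]
    rw [eI2]
    exact h.rho_approx w0 ws hx.1.le hx.2.le (r := 1 / √((n:ℝ) + 1)) (by positivity)
      (by rw [ws2, div_pow, one_pow, Real.sq_sqrt hn.le]) |>.trans_eq (by ring)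
  rw [eG, abs_le, add_div]
  constructor
  · linarith [(abs_le.1 hA').1, (abs_le.1 hD').2, (abs_le.1 hA').2, (abs_le.1 hD').1]
  · linarith [(abs_le.1 hA').1, (abs_le.1 hD').2, (abs_le.1 hA').2, (abs_le.1 hD').1]

/-- slopes of `Psi` lie between the values of `rho / 2` -/
lemma slope {t u : ℝ} (h0 : 0 ≤ t) (htu : t < u) (h1 : u ≤ 1) :
    rho U U1 t / 2 * (u - t) ≤ Psi U u - Psi U t ∧ Psi U u - Psi U t ≤ rho U U1 u / 2 * (u - t) := by
  have L0 := h.L_nonneg
  set K := (2 * L / lo + L ^ 2 / lo ^ 2) * (1 + L ^ 2) + L ^ 2 / lo + 8 * L ^ 2 / lo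
  suffices key : ∀ n : ℕ, rho U U1 t / 2 * (u - t) - K / √(n + 1) ≤ Psi U u - Psi U t ∧
      Psi U u - Psi U t ≤ rho U U1 u / 2 * (u - t) + K / √(n + 1) by
    have lim : Tendsto (fun n : ℕ => K / √((n:ℝ) + 1)) atTop (𝓝 0) :=
      tendsto_const_nhds.div_atTop (Real.tendsto_sqrt_atTop.comp
        (tendsto_atTop_add_const_right _ _ tendsto_natCast_atTop_atTop))
    constructor
    · refine le_of_tendsto (x := atTop) (f := fun n : ℕ => rho U U1 t / 2 * (u - t) - K / √((n:ℝ) + 1)) ?_
        (Eventually.of_forall fun n => (key n).1)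
      simpa using tendsto_const_nhds.sub lim
    · refine ge_of_tendsto (x := atTop) (f := fun n : ℕ => rho U U1 u / 2 * (u - t) + K / √((n:ℝ) + 1)) ?_
        (Eventually.of_forall fun n => (key n).2)
      simpa using tendsto_const_nhds.add lim
  intro n
  classical
  set T := Fin (n + 1)
  set w : T → ℝ := eqw n
  have hn : (0:ℝ) < (n:ℝ) + 1 := by positivity
  have w0 : ∀ s, 0 ≤ w s := fun s => by simp only [w, eqw]; positivity
  have ws : ∑ s, w s = 1 := by simp [w, T, eqw]; field_simp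
  have ws2 : ∑ s, w s ^ 2 = 1 / ((n:ℝ) + 1) := by simp [w, T, eqw]; field_simp
  set a : T → Unit → ℝ := com n
  set b : T → T → ℝ := ind n
  obtain ⟨H1, H2, bH, dH, bH1, dH1, bH2, hoff⟩ := h.calculus w0 ws
  set G := fun x => ∫ g, phi (pred U w (field a b x g)) ∂gauss (Unit ⊕ T)
  set G' := fun x => 1 / 2 * ∑ v, ∑ r, dcov a b r v * ∫ g, H2 v r (field a b x g) ∂gauss (Unit ⊕ T)
  -- the finite system approximates Ψ
  have happ := fun x hx => h.two_point_approx n (x := x) hx
  have hder := fun x hx => h.two_point_deriv n (x := x) hx bH2 hoff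
  have hGd : ∀ x ∈ Ioo t u, HasDerivAt G (G' x) x := fun x hx =>
    interp a b bH dH bH1 dH1 bH2 (lt_of_le_of_lt h0 hx.1) (lt_of_lt_of_le hx.2 h1)
  have hGc : ContinuousOn G (Icc t u) := by
    obtain ⟨hc, C, hC⟩ := bH
    exact (continuous_of_dominated (bound := fun _ => C)
      (fun x => (hc.comp (continuous_field a b x)).aestronglyMeasurable)
      (fun x => Eventually.of_forall fun g => hC _) (integrable_const _)
      (Eventually.of_forall fun g => hc.comp (continuous_field' a b g))).continuousOn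
  obtain ⟨c, hc, he⟩ := exists_hasDerivAt_eq_slope G G' htu hGc hGd
  have hc01 : c ∈ Ioo (0:ℝ) 1 := ⟨lt_of_le_of_lt h0 hc.1, lt_of_lt_of_le hc.2 h1⟩
  rw [eq_div_iff (by linarith)] at he
  have a1 := abs_le.1 (show |G t - Psi U t| ≤ 2 * L ^ 2 / lo / ((n:ℝ) + 1) from happ t ⟨h0, by linarith⟩)
  have a2 := abs_le.1 (show |G u - Psi U u| ≤ 2 * L ^ 2 / lo / ((n:ℝ) + 1) from happ u ⟨by linarith, h1⟩)
  have a3 := abs_le.1 (show |G' c - rho U U1 c / 2| ≤ _ from hder c hc01)
  have m1 := h.rho_mono h0 hc.1.le hc01.2.le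
  have m2 := h.rho_mono hc01.1.le hc.2.le h1
  have hs : √((n:ℝ) + 1) ≤ (n:ℝ) + 1 := by
    rw [Real.sqrt_le_iff]; exact ⟨hn.le, by nlinarith⟩
  have hsp : 0 < √((n:ℝ) + 1) := Real.sqrt_pos.2 hn
  have lp := h.pos
  have e1 : 2 * L ^ 2 / lo / ((n:ℝ) + 1) ≤ 2 * L ^ 2 / lo / √((n:ℝ) + 1) :=
    div_le_div_of_nonneg_left (by positivity) hsp hs
  set E := ((2 * L / lo + L ^ 2 / lo ^ 2) * (1 + L ^ 2) + L ^ 2 / lo) / √((n:ℝ) + 1)
  have eK : K / √((n:ℝ) + 1) = E + 4 * (2 * L ^ 2 / lo / √((n:ℝ) + 1)) := by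
    simp only [K, E]; ring
  have E0 : 0 ≤ E := by positivity
  have F0 : 0 ≤ 2 * L ^ 2 / lo / √((n:ℝ) + 1) := by positivity
  have d0 : 0 ≤ u - t := by linarith
  have d1 : u - t ≤ 1 := by linarith
  have t1 := mul_le_mul_of_nonneg_right (show rho U U1 t / 2 - E ≤ G' c by linarith) d0
  have t2 := mul_le_mul_of_nonneg_right (show G' c ≤ rho U U1 u / 2 + E by linarith) d0
  have t3 : E * (u - t) ≤ E := mul_le_of_le_one_right E0 d1
  rw [eK]
  constructor <;> linarith

/-- `Psi` lies above its tangents -/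
lemma tangent {q r : ℝ} (hq : q ∈ Icc (0:ℝ) 1) (hr : r ∈ Icc (0:ℝ) 1) :
    Psi U q + rho U U1 q / 2 * (r - q) ≤ Psi U r := by
  rcases lt_trichotomy q r with hl | rfl | hl
  · linarith [(h.slope hq.1 hl hr.2).1]
  · simp
  · linarith [(h.slope hr.1 hl hq.2).2]

end Sm

end Vale.Agent.P157.Teach
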