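import Vale.Agent.P157.Teach.Chan
import Vale.Agent.P157.Teach.Inc
import Vale.Agent.P157.Lim.Main
import Vale.Agent.P157.Lim.Radial

/-! The tilted Ising model with a side channel, and the effect of one more pattern. -/

open MeasureTheory ProbabilityTheory Set Filter
open scoped Topology RealInnerProductSpace
open Vale.Agent.P150 (gauss dot l1 integrable_of_bound integrable_exp_l1 gauss_ibp)
open Vale.Agent.P157.Lim (sgn xv dot_xv gauss_toLp)

namespace Vale.Agent.P157.Teach

/-- the configurations -/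
def sx (N : ℕ) (s : Fin N → Bool) : Fin N → ℝ := fun i => sgn (s i)

lemma abs_sx {N : ℕ} (s : Fin N → Bool) (i : Fin N) : |sx N s i| = 1 := by
  simp only [sx, sgn]; split_ifs <;> norm_num

lemma xv_eq {N : ℕ} (s : Fin N → Bool) : xv N s = fun i => sx N s i / √(N:ℝ) := rfl

lemma dot_xv_sx {N : ℕ} (hN : 0 < N) (s t : Fin N → Bool) :
    dot (xv N s) (xv N t) = dot (sx N s) (sx N t) / N := by
  have h : √(N:ℝ) * √(N:ℝ) = N := Real.mul_self_sqrt (Nat.cast_nonneg N)
  simp only [dot, xv_eq, Finset.sum_div]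
  exact Finset.sum_congr rfl fun i _ => by rw [div_mul_div_comm, h]

lemma sx_self {N : ℕ} (s : Fin N → Bool) : dot (sx N s) (sx N s) = Fintype.card (Fin N) := by
  have : ∀ i, sx N s i * sx N s i = 1 := fun i => by rw [← abs_mul_abs_self, abs_sx, one_mul]
  simp [dot, this]

/-- the law of the patterns -/
noncomputable def pg (N m : ℕ) : Measure (Fin m → Fin N → ℝ) := Measure.pi fun _ => gauss (Fin N)

instance (N m : ℕ) : IsProbabilityMeasure (pg N m) := by unfold pg; infer_instance

/-- log-prior after seeing the patterns -/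
noncomputable def lp (N : ℕ) {m : ℕ} (V : Fin m → ℝ → ℝ) (g : Fin m → Fin N → ℝ) (s : Fin N → Bool) : ℝ :=
  -(N * Real.log 2) + ∑ a, Real.log (V a (dot (xv N s) (g a)))

/-- the average in the tilted model -/
noncomputable def avm (N : ℕ) {m : ℕ} (V : Fin m → ℝ → ℝ) (H : ((Fin N → Bool) → ℝ) → ℝ) (l : ℝ) : ℝ :=
  av (sx N) (pg N m) (lp N V) H l

/-- normalised weights -/
structure Pw (V : ℝ → ℝ) (lo hi : ℝ) : Prop where
  meas : Measurable V
  pos : 0 < lo
  ge : ∀ x, lo ≤ V x
  le : ∀ x, V x ≤ hi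
  mean : ∫ x, V x ∂gaussianReal 0 1 = 1

variable {N : ℕ} {lo hi : ℝ}

/-- bound on one log-weight -/
noncomputable def lb (lo hi : ℝ) : ℝ := |Real.log lo| + |Real.log hi|

lemma lb_nonneg : 0 ≤ lb lo hi := add_nonneg (abs_nonneg _) (abs_nonneg _)

lemma Pw.abs_log {V : ℝ → ℝ} (h : Pw V lo hi) (x : ℝ) : |Real.log (V x)| ≤ lb lo hi := by
  have a := Real.log_le_log h.pos (h.ge x)
  have b := Real.log_le_log (h.pos.trans_le (h.ge x)) (h.le x)
  rw [lb, abs_le]
  constructor
  · linarith [neg_abs_le (Real.log lo), abs_nonneg (Real.log hi)]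
  · linarith [le_abs_self (Real.log hi), abs_nonneg (Real.log lo)]

lemma Pw.abs_V {V : ℝ → ℝ} (h : Pw V lo hi) (x : ℝ) : |V x| ≤ hi := by
  rw [abs_of_pos (h.pos.trans_le (h.ge x))]; exact h.le x

lemma Pw.pred_mem {V : ℝ → ℝ} (h : Pw V lo hi) {S : Type} [Fintype S] {p : S → ℝ} (hp : ∀ s, 0 ≤ p s)
    (hs : ∑ s, p s = 1) (z : S → ℝ) : lo ≤ pred V p z ∧ pred V p z ≤ hi := by
  constructor
  · calc lo = ∑ s, p s * lo := by rw [← Finset.sum_mul, hs, one_mul]
      _ ≤ _ := Finset.sum_le_sum fun s _ => mul_le_mul_of_nonneg_left (h.ge _) (hp s)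
  · calc pred V p z ≤ ∑ s, p s * hi := Finset.sum_le_sum fun s _ => mul_le_mul_of_nonneg_left (h.le _) (hp s)
      _ = hi := by rw [← Finset.sum_mul, hs, one_mul]

lemma measurable_lp {m : ℕ} {V : Fin m → ℝ → ℝ} (hV : ∀ a, Pw (V a) lo hi) : Measurable (lp N V) := by
  refine measurable_pi_lambda _ fun s => measurable_const.add (Finset.measurable_sum _ fun a _ => ?_)
  exact Real.measurable_log.comp ((hV a).meas.comp (by unfold dot; fun_prop))

/-- bound on the log-prior -/
noncomputable def lpB (N m : ℕ) (lo hi : ℝ) : ℝ := N * Real.log 2 + m * lb lo hi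

lemma lpB_nonneg (N m : ℕ) : 0 ≤ lpB N m lo hi :=
  add_nonneg (mul_nonneg (Nat.cast_nonneg _) (Real.log_nonneg one_le_two))
    (mul_nonneg (Nat.cast_nonneg _) lb_nonneg)

lemma abs_lp {m : ℕ} {V : Fin m → ℝ → ℝ} (hV : ∀ a, Pw (V a) lo hi) (g : Fin m → Fin N → ℝ) (s) :
    |lp N V g s| ≤ lpB N m lo hi := by
  refine (abs_add_le _ _).trans (add_le_add ?_ ?_)
  · rw [abs_neg, abs_of_nonneg (mul_nonneg (Nat.cast_nonneg _) (Real.log_nonneg one_le_two))]
  · exact (Finset.abs_sum_le_sum_abs _ _).trans ((Finset.sum_le_sum fun a _ => (hV a).abs_log _).trans (by simp))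

lemma integral_arg {G : ℝ → ℝ} (hG : Measurable G) {v : Fin N → ℝ} (hv : dot v v = 1) :
    ∫ g, G (dot v g) ∂gauss (Fin N) = ∫ x, G x ∂gaussianReal 0 1 := by
  set w : Vec N := WithLp.toLp 2 v
  have hd : ∀ g : Fin N → ℝ, ⟪(WithLp.toLp 2 g : Vec N), w⟫ = dot v g := fun g => by
    simp [w, PiLp.inner_apply, dot]
  have hw : ‖w‖ = 1 := by rw [norm_eq_sqrt_real_inner, hd, hv, Real.sqrt_one]
  rw [← integral_stdGaussian_arg hG.aestronglyMeasurable w hw, ← gauss_toLp,
    integral_map (f := fun h : Vec N => G ⟪h, w⟫) (Measurable.aemeasurable (by fun_prop))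
      (hG.comp (by fun_prop)).aestronglyMeasurable]
  simp only [hd]

/-- adding one pattern to a functional -/
noncomputable def jump (N : ℕ) (V : ℝ → ℝ) (H : ((Fin N → Bool) → ℝ) → ℝ) (z : (Fin N → Bool) → ℝ) : ℝ :=
  ∫ g, H (fun s => z s + Real.log (V (dot (xv N s) g))) ∂gauss (Fin N)

lemma norm_jump_arg {V : ℝ → ℝ} (hV : Pw V lo hi) (z : (Fin N → Bool) → ℝ) (g : Fin N → ℝ) :
    ‖fun s => z s + Real.log (V (dot (xv N s) g))‖ ≤ ‖z‖ + lb lo hi :=
  (pi_norm_le_iff_of_nonneg (add_nonneg (norm_nonneg z) lb_nonneg)).2 fun s => (norm_add_le _ _).trans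
    (add_le_add (norm_le_pi_norm z s) (by rw [Real.norm_eq_abs]; exact hV.abs_log _))

lemma meas_jump_arg {V : ℝ → ℝ} (hV : Pw V lo hi) {H : ((Fin N → Bool) → ℝ) → ℝ} (hH : Continuous H)
    (z : (Fin N → Bool) → ℝ) : Measurable fun g => H (fun s => z s + Real.log (V (dot (xv N s) g))) :=
  hH.measurable.comp (measurable_pi_lambda _ fun s =>
    measurable_const.add (Real.measurable_log.comp (hV.meas.comp (by unfold dot; fun_prop))))

lemma gro_jump {V : ℝ → ℝ} (hV : Pw V lo hi) {H : ((Fin N → Bool) → ℝ) → ℝ} (hH : Gro H) :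
    Gro (jump N V H) := by
  obtain ⟨hc, C, K, hC, hK, hb⟩ := hH
  have hb' : ∀ (z : (Fin N → Bool) → ℝ) (g : Fin N → ℝ), |H (fun s => z s + Real.log (V (dot (xv N s) g)))| ≤
      C * Real.exp (K * lb lo hi) * Real.exp (K * ‖z‖) := fun z g => by
    refine (hb _).trans ?_
    rw [mul_assoc, ← Real.exp_add]
    refine mul_le_mul_of_nonneg_left (Real.exp_le_exp.2 ?_) hC
    linarith [mul_le_mul_of_nonneg_left (norm_jump_arg hV z g) hK]
  refine ⟨continuous_iff_continuousAt.2 fun z₀ => ?_, C * Real.exp (K * lb lo hi), K, by positivity, hK,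
    fun z => (abs_integral_le_integral_abs).trans ?_⟩
  · refine continuousAt_of_dominated (bound := fun _ => C * Real.exp (K * lb lo hi) * Real.exp (K * (‖z₀‖ + 1)))
      (Eventually.of_forall fun z => (meas_jump_arg hV hc z).aestronglyMeasurable) ?_ (integrable_const _)
      (Eventually.of_forall fun g => (hc.comp (by fun_prop)).continuousAt)
    filter_upwards [Metric.ball_mem_nhds z₀ one_pos] with z hz
    refine Eventually.of_forall fun g => (hb' z g).trans (mul_le_mul_of_nonneg_left (Real.exp_le_exp.2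
      (mul_le_mul_of_nonneg_left ?_ hK)) (by positivity))
    rw [Metric.mem_ball, dist_eq_norm] at hz
    linarith [norm_sub_norm_le z z₀]
  · refine (integral_mono ?_ (integrable_const _) fun g => hb' z g).trans (by simp)
    exact (Integrable.of_bound (meas_jump_arg hV hc z).aestronglyMeasurable
      (C * Real.exp (K * lb lo hi) * Real.exp (K * ‖z‖)) (Eventually.of_forall fun g => hb' z g)).abs

variable {m : ℕ}

/-- integrate out one pattern -/
lemma avm_remove {V : Fin (m + 1) → ℝ → ℝ} (hV : ∀ a, Pw (V a) lo hi) (j : Fin (m + 1))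
    {H : ((Fin N → Bool) → ℝ) → ℝ} (hH : Gro H) (l : ℝ) :
    avm N V H l = avm N (V ∘ j.succAbove) (jump N (V j) H) l := by
  have hmp := (measurePreserving_piFinSuccAbove (fun _ : Fin (m + 1) => gauss (Fin N)) j).symm
  have hinner := integrable_inner (x := sx N) (μ := pg N (m + 1)) (fun s i => (abs_sx s i).le) (measurable_lp hV)
    (lpB_nonneg N (m + 1)) (fun g s => abs_lp hV g s) hH l
  unfold avm av
  rw [pg, ← hmp.map_eq] at hinner ⊢
  have hi2 := hinner.comp_measurable hmp.measurable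
  rw [integral_map hmp.measurable.aemeasurable hinner.aestronglyMeasurable]
  refine (integral_prod_symm _ hi2).trans ?_
  refine integral_congr_ae (Eventually.of_forall fun g => ?_)
  set u := fun (g₀ : Fin N → ℝ) (y : Fin N → ℝ) (s : Fin N → Bool) =>
    zed (sx N) (lp N (V ∘ j.succAbove) g) l y s + Real.log (V j (dot (xv N s) g₀))
  have e : ∀ g₀ y, zed (sx N) (lp N V ((MeasurableEquiv.piFinSuccAbove (fun _ : Fin (m + 1) => Fin N → ℝ) j).symm
      (g₀, g))) l y = u g₀ y := fun g₀ y => by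
    funext s
    simp only [u, zed, lp, MeasurableEquiv.piFinSuccAbove, MeasurableEquiv.symm_mk, MeasurableEquiv.coe_mk,
      Fin.insertNthEquiv, Equiv.symm_symm, Equiv.coe_fn_mk, Fin.sum_univ_succAbove _ j,
      Fin.insertNth_apply_same, Fin.insertNth_apply_succAbove, Function.comp]
    ring
  simp only [Function.comp, e, jump]
  rw [integral_integral_swap]
  obtain ⟨C, K, hC, hK, hb⟩ := hH.2
  obtain ⟨Cy, My, hCy, hMy, hzy⟩ : ∃ C' M', 0 ≤ C' ∧ 0 ≤ M' ∧
      ∀ g₀ y, |H (u g₀ y)| ≤ C' * Real.exp (M' * l1 y) := by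
    refine ⟨C * Real.exp (K * (lpB N m lo hi + Fintype.card (Fin N) * |l| + lb lo hi)), K * √|l|,
      by positivity, by positivity, fun g₀ y => (hb _).trans ?_⟩
    rw [mul_assoc, ← Real.exp_add]
    refine mul_le_mul_of_nonneg_left (Real.exp_le_exp.2 ?_) hC
    have h1 := norm_jump_arg (N := N) (hV j) (zed (sx N) (lp N (V ∘ j.succAbove) g) l y) g₀
    have h2 := norm_zed_le (x := sx N) (fun s i => (abs_sx s i).le) (fun s => abs_lp (fun a => hV _) g s)
      (lpB_nonneg N m) (T := |l|) le_rfl y (c := lp N (V ∘ j.succAbove) g)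
    rw [abs_one, one_mul] at h2
    have h3 : ‖u g₀ y‖ ≤ lpB N m lo hi + Fintype.card (Fin N) * |l| + lb lo hi + √|l| * l1 y := by linarith
    linarith [mul_le_mul_of_nonneg_left h3 hK]
  refine Integrable.mono' (((integrable_exp_l1 My).const_mul Cy).comp_snd (gauss (Fin N))) ?_
    (Eventually.of_forall fun p => hzy p.1 p.2)
  refine Measurable.aestronglyMeasurable (hH.1.measurable.comp (measurable_pi_lambda _ fun s => ?_))
  exact Measurable.add (by unfold zed dot; fun_prop)
    (Real.measurable_log.comp ((hV j).meas.comp (by unfold dot; fun_prop)))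

/-- posterior weights -/
noncomputable def pw (z : (Fin N → Bool) → ℝ) (s : Fin N → Bool) : ℝ := Real.exp (z s) / tt z

lemma pw_nonneg (z : (Fin N → Bool) → ℝ) (s : Fin N → Bool) : 0 ≤ pw z s := div_nonneg (Real.exp_pos _).le (tt_pos z).le

lemma sum_pw (z : (Fin N → Bool) → ℝ) : ∑ s, pw z s = 1 := by
  simp only [pw, ← Finset.sum_div]; exact div_self (tt_pos z).ne'

lemma tt_step {V : ℝ → ℝ} (hV : Pw V lo hi) (z : (Fin N → Bool) → ℝ) (g : Fin N → ℝ) :
    tt (fun s => z s + Real.log (V (dot (xv N s) g))) =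
      tt z * pred V (pw z) (fun s => dot (xv N s) g) := by
  simp only [tt, pred, pw, Real.exp_add, Real.exp_log (hV.pos.trans_le (hV.ge _)), Finset.mul_sum]
  refine Finset.sum_congr rfl fun s _ => ?_
  have := (tt_pos z).ne'
  rw [show (∑ t, Real.exp (z t)) = tt z from rfl]
  field_simp

lemma pred_meas {V : ℝ → ℝ} (hV : Pw V lo hi) (p : (Fin N → Bool) → ℝ) :
    Measurable fun g => pred V p (fun s => dot (xv N s) g) :=
  Finset.measurable_sum _ fun s _ => measurable_const.mul (hV.meas.comp (by unfold dot; fun_prop))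

lemma pred_mean (hN : 0 < N) {V : ℝ → ℝ} (hV : Pw V lo hi) (z : (Fin N → Bool) → ℝ) :
    ∫ g, pred V (pw z) (fun s => dot (xv N s) g) ∂gauss (Fin N) = 1 := by
  show ∫ g, ∑ s, pw z s * V (dot (xv N s) g) ∂gauss (Fin N) = 1
  rw [integral_finsetSum _ (f := fun s g => pw z s * V (dot (xv N s) g)) fun s _ =>
    (Integrable.of_bound (hV.meas.comp (by unfold dot; fun_prop)).aestronglyMeasurable
      hi (Eventually.of_forall fun g => hV.abs_V _)).const_mul _]
  simp only [integral_const_mul, integral_arg hV.meas (dot_xv hN _), hV.mean, mul_one, sum_pw]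

lemma jump_tt (hN : 0 < N) {V : ℝ → ℝ} (hV : Pw V lo hi) (z : (Fin N → Bool) → ℝ) :
    jump N V tt z = tt z := by
  simp only [jump, tt_step hV, integral_const_mul, pred_mean hN hV, mul_one]

/-- the information of one pattern -/
noncomputable def gain (N : ℕ) (V : ℝ → ℝ) (z : (Fin N → Bool) → ℝ) : ℝ :=
  ∫ g, phi (pred V (pw z) fun s => dot (xv N s) g) ∂gauss (Fin N)

lemma abs_phi_pw {V : ℝ → ℝ} (hV : Pw V lo hi) (z : (Fin N → Bool) → ℝ) (y : (Fin N → Bool) → ℝ) :
    |phi (pred V (pw z) y)| ≤ hi * lb lo hi := by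
  obtain ⟨a, b⟩ := hV.pred_mem (pw_nonneg z) (sum_pw z) y
  have a0 := hV.pos.trans_le a
  rw [phi, abs_mul, abs_of_pos a0, lb]
  refine mul_le_mul b (abs_le.2 ⟨?_, ?_⟩) (abs_nonneg _) (hV.pos.le.trans ((hV.ge 0).trans (hV.le 0)))
  · linarith [Real.log_le_log hV.pos a, neg_abs_le (Real.log lo), abs_nonneg (Real.log hi)]
  · linarith [Real.log_le_log a0 b, le_abs_self (Real.log hi), abs_nonneg (Real.log lo)]

lemma integrable_phi_pw {V : ℝ → ℝ} (hV : Pw V lo hi) (z : (Fin N → Bool) → ℝ) :
    Integrable (fun g => phi (pred V (pw z) fun s => dot (xv N s) g)) (gauss (Fin N)) :=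
  Integrable.of_bound ((Real.continuous_mul_log.measurable.comp (pred_meas hV (pw z))).aestronglyMeasurable)
    (hi * lb lo hi) (Eventually.of_forall fun g => abs_phi_pw hV z _)

lemma jump_ent (hN : 0 < N) {V : ℝ → ℝ} (hV : Pw V lo hi) (z : (Fin N → Bool) → ℝ) :
    jump N V ent z = ent z + tt z * gain N V z := by
  have hL := (tt_pos z).ne'
  have e : ∀ g, ent (fun s => z s + Real.log (V (dot (xv N s) g))) =
      ent z * pred V (pw z) (fun s => dot (xv N s) g) + tt z * phi (pred V (pw z) fun s => dot (xv N s) g) := fun g => by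
    have hp := hV.pos.trans_le (hV.pred_mem (pw_nonneg z) (sum_pw z) (fun s => dot (xv N s) g)).1
    rw [ent, tt_step hV, Real.log_mul hL hp.ne', ent, phi]; ring
  simp only [jump, e]
  rw [integral_add ((Integrable.of_bound (pred_meas hV _).aestronglyMeasurable hi (Eventually.of_forall fun g => by
      obtain ⟨a, b⟩ := hV.pred_mem (pw_nonneg z) (sum_pw z) (fun s => dot (xv N s) g)
      rw [Real.norm_eq_abs, abs_of_pos (hV.pos.trans_le a)]; exact b)).const_mul _)
    ((integrable_phi_pw hV z).const_mul _), integral_const_mul, integral_const_mul, pred_mean hN hV, mul_one]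
  rfl

/-- the free entropy per site -/
noncomputable def ke (N : ℕ) {m : ℕ} (V : Fin m → ℝ → ℝ) (l : ℝ) : ℝ := avm N V ent l / N
/-- the mean overlap -/
noncomputable def ovm (N : ℕ) {m : ℕ} (V : Fin m → ℝ → ℝ) (l : ℝ) : ℝ := avm N V (ov1 (sx N)) l
/-- the overlap fluctuation -/
noncomputable def dfl (N : ℕ) {m : ℕ} (V : Fin m → ℝ → ℝ) (l : ℝ) : ℝ :=
  avm N V (fun z => r2 (sx N) z * (tt z)⁻¹) l - ovm N V l ^ 2

section Av

variable {V : Fin m → ℝ → ℝ} (hV : ∀ a, Pw (V a) lo hi)
include hV

lemma avm_add {F G : ((Fin N → Bool) → ℝ) → ℝ} (hF : Gro F) (hG : Gro G) (l : ℝ) :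
    avm N V (fun z => F z + G z) l = avm N V F l + avm N V G l :=
  av_add (fun s i => (abs_sx s i).le) (measurable_lp hV) (lpB_nonneg N m) (fun g s => abs_lp hV g s) hF hG l

omit hV in
lemma avm_smul (k : ℝ) (F : ((Fin N → Bool) → ℝ) → ℝ) (l : ℝ) :
    avm N V (fun z => k * F z) l = k * avm N V F l :=
  av_smul (fun s i => (abs_sx s i).le) k F l

lemma avm_mono {F G : ((Fin N → Bool) → ℝ) → ℝ} (hF : Gro F) (hG : Gro G) (h : ∀ z, F z ≤ G z) (l : ℝ) :
    avm N V F l ≤ avm N V G l :=
  av_mono (fun s i => (abs_sx s i).le) (measurable_lp hV) (lpB_nonneg N m) (fun g s => abs_lp hV g s) hF hG h l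

lemma continuous_avm {H : ((Fin N → Bool) → ℝ) → ℝ} (hH : Gro H) : Continuous (avm N V H) :=
  continuous_av (fun s i => (abs_sx s i).le) (measurable_lp hV) (lpB_nonneg N m) (fun g s => abs_lp hV g s) hH

end Av

lemma avm_congr {V : Fin m → ℝ → ℝ} {F G : ((Fin N → Bool) → ℝ) → ℝ} (h : ∀ z, F z = G z) (l : ℝ) :
    avm N V F l = avm N V G l := by rw [show F = G from funext h]

lemma avm_one (hN : 0 < N) : ∀ {m : ℕ} {V : Fin m → ℝ → ℝ}, (∀ a, Pw (V a) lo hi) → ∀ l, 0 ≤ l →
    avm N V tt l = 1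
  | 0, V, _, l, hl => by
    have hy : ∀ s : Fin N → Bool,
        ∫ y, Real.exp (√l * dot (sx N s) y) ∂gauss (Fin N) = Real.exp (N * l / 2) := by
      intro s
      have e : ∀ y : Fin N → ℝ, √l * dot (sx N s) y = dot (fun i => √l * sx N s i) y := fun y => by
        simp only [dot, Finset.mul_sum, mul_assoc]
      simp only [e, Vale.Agent.P150.mgf_dot]
      congr 2
      have e2 : ∀ i, (√l * sx N s i) ^ 2 = l := fun i => by
        rw [mul_pow, Real.sq_sqrt hl, ← sq_abs (sx N s i), abs_sx, one_pow, mul_one]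
      simp [e2]
    have e0 : ∀ g : Fin 0 → Fin N → ℝ, ∫ y, tt (zed (sx N) (lp N V g) l y) ∂gauss (Fin N) = 1 := fun g => by
      simp only [tt, zed, lp, Finset.univ_eq_empty, Finset.sum_empty, add_zero, Fintype.card_fin, Real.exp_add,
        Real.exp_sub]
      rw [integral_finsetSum _ fun s _ => ?_]
      · simp only [integral_const_mul, integral_div, hy, div_self (Real.exp_pos _).ne', mul_one, Finset.sum_const,
          Finset.card_univ, Fintype.card_fun, Fintype.card_bool, Fintype.card_fin, nsmul_eq_mul]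
        rw [Real.exp_neg, Real.exp_nat_mul, Real.exp_log two_pos]
        push_cast
        exact mul_inv_cancel₀ (by positivity)
      · refine Integrable.const_mul (Integrable.div_const ?_ _) _
        exact integrable_of_bound (C := 1) (M := |√l|) (by unfold dot; fun_prop) fun y => by
          rw [Real.abs_exp, one_mul, Real.exp_le_exp]
          refine (le_abs_self _).trans ?_
          rw [abs_mul]
          refine mul_le_mul_of_nonneg_left ?_ (abs_nonneg _)
          simpa using Vale.Agent.P150.abs_dot_le (fun i => (abs_sx s i).le) y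
    simp [avm, av, e0]
  | m + 1, V, hV, l, hl => by
    rw [avm_remove hV 0 gro_tt l, avm_congr (jump_tt hN (hV 0))]
    exact avm_one hN (fun a => hV _) l hl

section Basic

variable (hN : 0 < N) {V : Fin m → ℝ → ℝ} (hV : ∀ a, Pw (V a) lo hi)
include hN hV

omit hV in
lemma overlap_le (u v : Fin N → Bool) : |dot (sx N u) (sx N v)| ≤ N := by
  refine (Finset.abs_sum_le_sum_abs _ _).trans (le_of_eq ?_)
  simp [abs_mul, abs_sx]

omit hV in
lemma qf_le (z : (Fin N → Bool) → ℝ) : qf (sx N) z ≤ N * tt z ^ 2 := by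
  simp only [qf, xw, sq, tt, Finset.sum_mul, Finset.mul_sum]
  refine Finset.sum_le_sum fun v _ => Finset.sum_le_sum fun u _ => ?_
  have := mul_le_mul_of_nonneg_right ((abs_le.1 (overlap_le hN u v)).2) (mul_pos (Real.exp_pos (z u)) (Real.exp_pos (z v))).le
  linarith

omit hV in
lemma r2_le (z : (Fin N → Bool) → ℝ) : r2 (sx N) z * (tt z)⁻¹ ≤ (N:ℝ) ^ 2 * tt z := by
  have hL := tt_pos z
  rw [← div_eq_mul_inv, div_le_iff₀ hL]
  simp only [r2, tt, Finset.sum_mul, Finset.mul_sum]
  refine Finset.sum_le_sum fun v _ => Finset.sum_le_sum fun u _ => ?_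
  have := mul_le_mul_of_nonneg_right (pow_le_pow_left₀ (abs_nonneg _) (overlap_le hN u v) 2)
    (mul_pos (Real.exp_pos (z u)) (Real.exp_pos (z v))).le
  rw [sq_abs] at this
  linarith

omit hV in
lemma ov1_nonneg (z : (Fin N → Bool) → ℝ) : 0 ≤ ov1 (sx N) z :=
  mul_nonneg (qf_nonneg z) (inv_nonneg.2 (tt_pos z).le)

omit hV in
lemma ov1_le (z : (Fin N → Bool) → ℝ) : ov1 (sx N) z ≤ N * tt z := by
  have hL := tt_pos z
  rw [ov1, ← div_eq_mul_inv, div_le_iff₀ hL]
  linarith [qf_le hN z, sq (tt z)]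

lemma ovm_mem {l : ℝ} (hl : 0 ≤ l) : ovm N V l ∈ Icc (0:ℝ) N := by
  constructor
  · exact integral_nonneg fun g => integral_nonneg fun y => ov1_nonneg hN _
  · refine (avm_mono hV gro_ov1 ((Gro.const (N:ℝ)).mul gro_tt) (ov1_le hN) l).trans_eq ?_
    rw [avm_smul, avm_one hN hV l hl, mul_one]

lemma ovm_mono {s t : ℝ} (hs : 0 ≤ s) (hst : s ≤ t) : ovm N V s ≤ ovm N V t := by
  rcases hst.eq_or_lt with rfl | hlt
  · exact le_rfl
  have hd : ∀ u ∈ Ioo s t, HasDerivAt (ovm N V) (avm N V (xc (sx N)) u) u := fun u hu =>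
    d_ov1 (fun s i => (abs_sx s i).le) sx_self (measurable_lp hV) (lpB_nonneg N m) (fun g s => abs_lp hV g s) (lt_of_le_of_lt hs hu.1)
  obtain ⟨c, hc, he⟩ := exists_hasDerivAt_eq_slope (ovm N V) _ hlt (continuous_avm hV gro_ov1).continuousOn hd
  have : 0 ≤ avm N V (xc (sx N)) c := integral_nonneg fun g => integral_nonneg fun y => xc_nonneg _
  rw [he, le_div_iff₀ (by linarith), zero_mul] at this
  linarith

lemma ke_slope {s t : ℝ} (hs : 0 ≤ s) (hst : s ≤ t) :
    ovm N V s / (2 * N) * (t - s) ≤ ke N V t - ke N V s ∧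
      ke N V t - ke N V s ≤ ovm N V t / (2 * N) * (t - s) := by
  rcases hst.eq_or_lt with rfl | hlt
  · simp
  have hd : ∀ u ∈ Ioo s t, HasDerivAt (avm N V ent) (ovm N V u / 2) u := fun u hu =>
    d_ent (fun s i => (abs_sx s i).le) sx_self (measurable_lp hV) (lpB_nonneg N m) (fun g s => abs_lp hV g s) (lt_of_le_of_lt hs hu.1)
  obtain ⟨c, hc, he⟩ := exists_hasDerivAt_eq_slope (avm N V ent) _ hlt (continuous_avm hV gro_ent).continuousOn hd
  have a1 := ovm_mono hN hV hs hc.1.le
  have a2 := ovm_mono hN hV (hs.trans hc.1.le) hc.2.le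
  rw [eq_div_iff (by linarith)] at he
  have hN0 : (0:ℝ) < N := by exact_mod_cast hN
  have e : ke N V t - ke N V s = ovm N V c / (2 * N) * (t - s) := by
    rw [ke, ke, ← sub_div, ← he]; ring
  rw [e]
  constructor <;> refine mul_le_mul_of_nonneg_right ?_ (by linarith) <;>
    exact div_le_div_of_nonneg_right (by linarith) (by positivity)

end Basic

/-- one more pattern gives `Ψ(q)`, up to the overlap fluctuation -/
lemma increment (hN : 0 < N) {U U1 U2 : ℝ → ℝ} {L : ℝ} (hU : Sm U U1 U2 lo hi L) (hUp : Pw U lo hi)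
    {m : ℕ} {l : ℝ} (hl : 0 ≤ l) {r : ℝ} (hr : 0 < r) :
    |N * (ke N (fun _ : Fin (m + 1) => U) l - ke N (fun _ : Fin m => U) l) -
        Psi U (ovm N (fun _ : Fin m => U) l / N)| ≤
      2 * L ^ 2 / lo * (r + dfl N (fun _ : Fin m => U) l / ((N:ℝ) ^ 2 * r)) := by
  set V : Fin m → ℝ → ℝ := fun _ => U
  have hV : ∀ a, Pw (V a) lo hi := fun _ => hUp
  have hN0 : (0:ℝ) < N := by exact_mod_cast hN
  set q := ovm N V l / N
  have hq := ovm_mem hN hV hl
  have q0 : 0 ≤ q := div_nonneg hq.1 hN0.le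
  have q1 : q ≤ 1 := by rw [div_le_one hN0]; exact hq.2
  have hC : 0 ≤ 2 * L ^ 2 / lo := by have := hU.pos; positivity
  set C := 2 * L ^ 2 / lo
  have gJ : Gro (jump N U ent) := gro_jump hUp gro_ent
  have e1 : avm N (fun _ : Fin (m + 1) => U) ent l = avm N V (jump N U ent) l := avm_remove (fun _ => hUp) 0 gro_ent l
  set R : ((Fin N → Bool) → ℝ) → ℝ := fun z =>
    (C * r + C * q ^ 2 / r) * tt z + C / ((N:ℝ) ^ 2 * r) * (r2 (sx N) z * (tt z)⁻¹) +
      (-(C * (2 * q) / (N * r))) * ov1 (sx N) z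
  have gR : Gro R :=
    (((Gro.const _).mul gro_tt).add ((Gro.const _).mul (gro_r2.mul gro_inv_tt))).add ((Gro.const _).mul gro_ov1)
  have hpt : ∀ z, |jump N U ent z - ent z - Psi U q * tt z| ≤ R z := by
    intro z
    rw [jump_ent hN hUp, add_sub_cancel_left, mul_comm (Psi U q), ← mul_sub, abs_mul, abs_of_pos (tt_pos z)]
    have ho := hU.observe (pw_nonneg z) (sum_pw z) (xv N) (dot_xv hN) q0 q1
    set p := pw z
    set d := fun s t => dot (xv N s) (xv N t) - q
    have hsum : ∑ s, ∑ t, p s * p t * |d s t| ≤ r + (∑ s, ∑ t, p s * p t * d s t ^ 2) / r := by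
      calc ∑ s, ∑ t, p s * p t * |d s t| ≤ ∑ s, ∑ t, (p s * p t * r + p s * p t * d s t ^ 2 / r) := by
            refine Finset.sum_le_sum fun s _ => Finset.sum_le_sum fun t _ => ?_
            rw [mul_div_assoc, ← mul_add]
            refine mul_le_mul_of_nonneg_left ?_ (mul_nonneg (pw_nonneg z s) (pw_nonneg z t))
            rcases le_or_gt |d s t| r with hd | hd
            · linarith [show 0 ≤ d s t ^ 2 / r by positivity]
            · have : |d s t| ≤ d s t ^ 2 / r := by
                rw [le_div_iff₀ hr, ← sq_abs, sq]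
                exact mul_le_mul_of_nonneg_left hd.le (abs_nonneg _)
              linarith
        _ = _ := by
            simp only [Finset.sum_add_distrib, ← Finset.sum_mul, ← Finset.mul_sum, ← Finset.sum_div]
            rw [sum_pw z]; simp
    have hd2 : tt z * ∑ s, ∑ t, p s * p t * d s t ^ 2 =
        r2 (sx N) z * (tt z)⁻¹ / (N:ℝ) ^ 2 - 2 * q / N * ov1 (sx N) z + q ^ 2 * tt z := by
      have hL := (tt_pos z).ne'
      have h1 : r2 (sx N) z = ∑ s, ∑ t, Real.exp (z s) * Real.exp (z t) * dot (sx N s) (sx N t) ^ 2 := by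
        simp only [r2, Finset.mul_sum]
        exact Finset.sum_congr rfl fun s _ => Finset.sum_congr rfl fun t _ => by rw [dot_symm (x := sx N) t s]; ring
      have h2 : qf (sx N) z = ∑ s, ∑ t, Real.exp (z s) * Real.exp (z t) * dot (sx N s) (sx N t) := by
        simp only [qf, xw, Finset.mul_sum]
        exact Finset.sum_congr rfl fun s _ => Finset.sum_congr rfl fun t _ => by rw [dot_symm (x := sx N) t s]; ring
      have h3 : tt z ^ 2 = ∑ s, ∑ t, Real.exp (z s) * Real.exp (z t) := by rw [sq, tt, Finset.sum_mul_sum]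
      have h4 : ∀ s t, p s * p t * d s t ^ 2 =
          (Real.exp (z s) * Real.exp (z t) * dot (sx N s) (sx N t) ^ 2 / (N:ℝ) ^ 2 -
            2 * q / N * (Real.exp (z s) * Real.exp (z t) * dot (sx N s) (sx N t)) +
            q ^ 2 * (Real.exp (z s) * Real.exp (z t))) / tt z ^ 2 := fun s t => by
        simp only [p, d, pw, dot_xv_sx hN]; field_simp; ring
      simp only [h4, ← Finset.sum_div, Finset.sum_add_distrib, Finset.sum_sub_distrib, ← Finset.mul_sum,
        ← h1, ← h2, ← h3, ov1]
      field_simp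
      simp only [← Finset.sum_mul, show (∑ t, Real.exp (z t)) = tt z from rfl]
      ring
    refine (mul_le_mul_of_nonneg_left (ho.trans (mul_le_mul_of_nonneg_left hsum hC)) (tt_pos z).le).trans (le_of_eq ?_)
    rw [show tt z * (C * (r + (∑ s, ∑ t, p s * p t * d s t ^ 2) / r)) =
      C * r * tt z + C / r * (tt z * ∑ s, ∑ t, p s * p t * d s t ^ 2) by ring, hd2]
    simp only [R]
    have hL := (tt_pos z).ne'
    field_simp
    ring
  have gnR : Gro (fun z => -R z) := by simpa using (Gro.const (-1)).mul gR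
  have gT := (gJ.sub gro_ent).sub ((Gro.const (Psi U q)).mul gro_tt)
  have hb : |avm N V (fun z => jump N U ent z - ent z - Psi U q * tt z) l| ≤ avm N V R l := by
    rw [abs_le]
    constructor
    · have := avm_mono hV gnR gT (fun z => neg_le.1 ((neg_le_abs _).trans (hpt z))) l
      rw [show (fun z => -R z) = fun z => (-1:ℝ) * R z from funext fun z => by ring, avm_smul] at this
      linarith
    · exact avm_mono hV gT gR (fun z => (le_abs_self _).trans (hpt z)) l
  have e2 : avm N V (fun z => jump N U ent z - ent z - Psi U q * tt z) l =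
      avm N V (jump N U ent) l - avm N V ent l - Psi U q := by
    rw [show (fun z => jump N U ent z - ent z - Psi U q * tt z) =
      fun z => (jump N U ent z + (-1) * ent z) + (-Psi U q) * tt z from funext fun z => by ring,
      avm_add hV (gJ.add ((Gro.const _).mul gro_ent)) ((Gro.const _).mul gro_tt),
      avm_add hV gJ ((Gro.const _).mul gro_ent), avm_smul, avm_smul, avm_one hN hV l hl]
    ring
  have e3 : avm N V R l = C * (r + dfl N V l / ((N:ℝ) ^ 2 * r)) := by
    simp only [R]
    rw [avm_add hV (((Gro.const _).mul gro_tt).add ((Gro.const _).mul (gro_r2.mul gro_inv_tt)))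
        ((Gro.const _).mul gro_ov1),
      avm_add hV ((Gro.const _).mul gro_tt) ((Gro.const _).mul (gro_r2.mul gro_inv_tt)), avm_smul, avm_smul,
      avm_smul, avm_one hN hV l hl]
    simp only [dfl, q, ovm]
    field_simp
    ring
  rw [e2, e3, ← e1] at hb
  rw [show (N:ℝ) * (ke N (fun _ : Fin (m + 1) => U) l - ke N V l) =
    avm N (fun _ : Fin (m + 1) => U) ent l - avm N V ent l by rw [ke, ke]; field_simp]
  exact hb

/-- replacing one weight -/
lemma swap_one (hN : 0 < N) {m : ℕ} {V V' : Fin (m + 1) → ℝ → ℝ} (hV : ∀ a, Pw (V a) lo hi)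
    (hV' : ∀ a, Pw (V' a) lo hi) (j : Fin (m + 1)) (heq : ∀ a, a ≠ j → V a = V' a) {l : ℝ} (hl : 0 ≤ l) :
    |avm N V ent l - avm N V' ent l| ≤ (lb lo hi + 1) * ∫ x, |V j x - V' j x| ∂gaussianReal 0 1 := by
  set K := (lb lo hi + 1) * ∫ x, |V j x - V' j x| ∂gaussianReal 0 1
  set W := V ∘ j.succAbove
  have hW : ∀ a, Pw (W a) lo hi := fun a => hV _
  have eW : V' ∘ j.succAbove = W := funext fun a => (heq _ (Fin.succAbove_ne j a)).symm
  rw [avm_remove hV j gro_ent, avm_remove hV' j gro_ent, eW]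
  have hpt : ∀ z, |jump N (V j) ent z - jump N (V' j) ent z| ≤ K * tt z := by
    intro z
    rw [jump_ent hN (hV j), jump_ent hN (hV' j), add_sub_add_left_eq_sub, ← mul_sub, abs_mul,
      abs_of_pos (tt_pos z), mul_comm]
    refine mul_le_mul_of_nonneg_right ?_ (tt_pos z).le
    have mY : ∀ s : Fin N → Bool, Measurable fun g => |V j (dot (xv N s) g) - V' j (dot (xv N s) g)| := fun s =>
      (((hV j).meas.comp (by unfold dot; fun_prop)).sub ((hV' j).meas.comp (by unfold dot; fun_prop))).abs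
    have iY : ∀ s : Fin N → Bool, Integrable (fun g => |V j (dot (xv N s) g) - V' j (dot (xv N s) g)|)
        (gauss (Fin N)) := fun s =>
      Integrable.of_bound (mY s).aestronglyMeasurable (hi + hi) (Eventually.of_forall fun g => by
        rw [Real.norm_eq_abs, abs_abs]; exact (abs_sub _ _).trans (add_le_add ((hV j).abs_V _) ((hV' j).abs_V _)))
    have hd : ∀ g : Fin N → ℝ, |phi (pred (V j) (pw z) fun s => dot (xv N s) g) -
        phi (pred (V' j) (pw z) fun s => dot (xv N s) g)| ≤
        ∑ s, (lb lo hi + 1) * (pw z s * |V j (dot (xv N s) g) - V' j (dot (xv N s) g)|) := by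
      intro g
      set A := pred (V j) (pw z) fun s => dot (xv N s) g
      set A' := pred (V' j) (pw z) fun s => dot (xv N s) g
      have hA := (hV j).pred_mem (pw_nonneg z) (sum_pw z) fun s => dot (xv N s) g
      have hA' := (hV' j).pred_mem (pw_nonneg z) (sum_pw z) fun s => dot (xv N s) g
      have hlog : ∀ b, lo ≤ b → b ≤ hi → |Real.log b + 1| ≤ lb lo hi + 1 := fun b h1 h2 => by
        refine (abs_add_le _ _).trans (add_le_add ?_ (by norm_num))
        rw [lb, abs_le]
        constructor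
        · linarith [Real.log_le_log (hV j).pos h1, neg_abs_le (Real.log lo), abs_nonneg (Real.log hi)]
        · linarith [Real.log_le_log ((hV j).pos.trans_le h1) h2, le_abs_self (Real.log hi), abs_nonneg (Real.log lo)]
      have p1 := (phi_second ((hV j).pos.trans_le hA.1) ((hV j).pos.trans_le hA'.1)).1
      have p2 := (phi_second ((hV j).pos.trans_le hA'.1) ((hV j).pos.trans_le hA.1)).1
      have b1 := (abs_le.1 (show |(Real.log A' + 1) * (A - A')| ≤ (lb lo hi + 1) * |A - A'| by
        rw [abs_mul]; exact mul_le_mul_of_nonneg_right (hlog _ hA'.1 hA'.2) (abs_nonneg _))).1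
      have b2 := (abs_le.1 (show |(Real.log A + 1) * (A' - A)| ≤ (lb lo hi + 1) * |A - A'| by
        rw [abs_mul, abs_sub_comm A' A]; exact mul_le_mul_of_nonneg_right (hlog _ hA.1 hA.2) (abs_nonneg _))).1
      refine (show |phi A - phi A'| ≤ (lb lo hi + 1) * |A - A'| from abs_le.2 ⟨by linarith, by linarith⟩).trans ?_
      rw [← Finset.mul_sum]
      refine mul_le_mul_of_nonneg_left ?_ (by linarith [lb_nonneg (lo := lo) (hi := hi)])
      simp only [A, A', pred, ← Finset.sum_sub_distrib, ← mul_sub]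
      refine (Finset.abs_sum_le_sum_abs _ _).trans (Finset.sum_le_sum fun s _ => ?_)
      rw [abs_mul, abs_of_nonneg (pw_nonneg z s)]
    unfold gain
    rw [← integral_sub (integrable_phi_pw (hV j) z) (integrable_phi_pw (hV' j) z)]
    refine abs_integral_le_integral_abs.trans ((integral_mono
      ((integrable_phi_pw (hV j) z).sub (integrable_phi_pw (hV' j) z)).abs
      (integrable_finsetSum _ fun s _ => ((iY s).const_mul _).const_mul _) hd).trans (le_of_eq ?_))
    rw [integral_finsetSum _ fun s _ => ((iY s).const_mul _).const_mul _]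
    have eI : ∀ s : Fin N → Bool, ∫ g, |V j (dot (xv N s) g) - V' j (dot (xv N s) g)| ∂gauss (Fin N) =
        ∫ x, |V j x - V' j x| ∂gaussianReal 0 1 := fun s =>
      integral_arg (G := fun x => |V j x - V' j x|) ((hV j).meas.sub (hV' j).meas).abs (dot_xv hN s)
    simp only [integral_const_mul, eI]
    rw [← Finset.mul_sum, ← Finset.sum_mul, sum_pw, one_mul]
  have g1 := gro_jump (N := N) (hV j) gro_ent
  have g2 := gro_jump (N := N) (hV' j) gro_ent
  have m1 := avm_mono hW g1 (g2.add ((Gro.const K).mul gro_tt))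
    (fun z => by linarith [(abs_le.1 (hpt z)).2]) l
  have m2 := avm_mono hW g2 (g1.add ((Gro.const K).mul gro_tt))
    (fun z => by linarith [(abs_le.1 (hpt z)).1]) l
  rw [avm_add hW g2 ((Gro.const K).mul gro_tt), avm_smul, avm_one hN hW l hl, mul_one] at m1
  rw [avm_add hW g1 ((Gro.const K).mul gro_tt), avm_smul, avm_one hN hW l hl, mul_one] at m2
  rw [abs_le]; constructor <;> linarith

/-- stability in `L¹` -/
lemma ke_stable (hN : 0 < N) {U U' : ℝ → ℝ} (hU : Pw U lo hi) (hU' : Pw U' lo hi) {M : ℕ} {l : ℝ} (hl : 0 ≤ l) :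
    |ke N (fun _ : Fin M => U) l - ke N (fun _ : Fin M => U') l| ≤
      M * ((lb lo hi + 1) * ∫ x, |U x - U' x| ∂gaussianReal 0 1) / N := by
  set K := (lb lo hi + 1) * ∫ x, |U x - U' x| ∂gaussianReal 0 1
  rw [ke, ke, ← sub_div, abs_div, Nat.abs_cast]
  refine div_le_div_of_nonneg_right ?_ (Nat.cast_nonneg N)
  set W := fun (i : ℕ) (a : Fin M) => if (a:ℕ) < i then U' else U
  have hW : ∀ i a, Pw (W i a) lo hi := fun i a => by
    simp only [W]; split_ifs <;> assumption
  have key : ∀ i : ℕ, i ≤ M → |avm N (W 0) ent l - avm N (W i) ent l| ≤ i * K := by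
    intro i
    induction i with
    | zero => intro _; simp
    | succ i ih =>
      intro hi'
      obtain ⟨m, rfl⟩ : ∃ m, M = m + 1 := ⟨M - 1, by omega⟩
      have := swap_one hN (hW i) (hW (i + 1)) ⟨i, by omega⟩ (fun a ha => by
        have : (a:ℕ) ≠ i := fun h => ha (Fin.ext h)
        have e : ((a:ℕ) < i + 1) = ((a:ℕ) < i) := propext ⟨fun h => by omega, fun h => by omega⟩
        simp only [W, e]) hl
      simp only [W, lt_irrefl, if_false, Nat.lt_succ_self, if_true] at this
      refine (abs_sub_le _ (avm N (W i) ent l) _).trans ((add_le_add (ih (by omega)) this).trans_eq ?_)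
      push_cast; ring
  have := key M le_rfl
  rwa [show W 0 = fun _ => U from funext fun a => by simp [W],
    show W M = fun _ => U' from funext fun a => by simp [W, a.2]] at this

/-- the scalar channel free entropy -/
noncomputable def I0 (r : ℝ) : ℝ :=
  ∫ z, phi (Real.exp (-(r / 2)) * Real.cosh (√r * z)) ∂gaussianReal 0 1

lemma ke_zero (hN : 0 < N) (V : Fin 0 → ℝ → ℝ) {l : ℝ} (hl : 0 ≤ l) : ke N V l = I0 l := by
  set C := fun t : ℝ => Real.exp (-(l / 2)) * Real.cosh (√l * t)
  have hC : ∀ t, 0 < C t := fun t => mul_pos (Real.exp_pos _) (Real.cosh_pos _)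
  have hz : ∀ g : Fin 0 → Fin N → ℝ, ∀ y, tt (zed (sx N) (lp N V g) l y) = ∏ i, C (y i) := by
    intro g y
    have eC : ∀ t, C t = ∑ b : Bool, Real.exp (√l * (sgn b * t) - (Real.log 2 + l / 2)) := fun t => by
      simp only [Fintype.sum_bool, sgn, if_true, C, Real.cosh_eq, Real.exp_sub, Real.exp_add, Real.exp_log two_pos,
        Real.exp_neg, if_neg Bool.false_ne_true]
      rw [show √l * (1 * t) = √l * t by ring, show √l * (-1 * t) = -(√l * t) by ring, Real.exp_neg]
      field_simp
    simp only [eC, Fintype.prod_sum, ← Real.exp_sum]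
    refine Finset.sum_congr rfl fun s _ => congrArg Real.exp ?_
    simp only [zed, lp, sx, dot, Finset.univ_eq_empty, Finset.sum_empty, add_zero, Finset.sum_sub_distrib,
      Finset.sum_const, Finset.card_univ, Fintype.card_fin, nsmul_eq_mul, Finset.mul_sum]
    ring
  have iC : Integrable C (gaussianReal 0 1) := by
    simp only [C, Real.cosh_eq]
    refine (((integrable_exp_mul_gaussianReal (√l)).add ?_).div_const 2).const_mul _
    simpa [neg_mul] using integrable_exp_mul_gaussianReal (μ := 0) (v := 1) (-√l)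
  have mC : ∫ t, C t ∂gaussianReal 0 1 = 1 := by
    have i1 := integrable_exp_mul_gaussianReal (μ := 0) (v := 1) (√l)
    have i2 := integrable_exp_mul_gaussianReal (μ := 0) (v := 1) (-√l)
    have hm : ∀ c : ℝ, ∫ t, Real.exp (c * t) ∂gaussianReal 0 1 = Real.exp (c ^ 2 / 2) := fun c => by
      have := congrFun (mgf_id_gaussianReal (μ := 0) (v := 1)) c
      simpa [mgf, id] using this
    simp only [C, Real.cosh_eq, ← neg_mul, integral_const_mul, integral_div, integral_add i1 i2, hm, neg_sq,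
      Real.sq_sqrt hl]
    rw [← two_mul, mul_div_cancel_left₀ _ two_ne_zero, ← Real.exp_add]
    simp
  have iP : Integrable (fun t => phi (C t)) (gaussianReal 0 1) := by
    have i1 : Integrable (fun t => Real.exp ((2 * √l) * t) + Real.exp (-(2 * √l) * t)) (gaussianReal 0 1) :=
      (integrable_exp_mul_gaussianReal _).add (integrable_exp_mul_gaussianReal _)
    refine ((i1.add (integrable_const 2)).const_mul (1 + l)).mono'
      (Real.continuous_mul_log.comp (by fun_prop)).aestronglyMeasurable (Eventually.of_forall fun t => ?_)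
    have hcl : Real.cosh (√l * t) ≤ Real.exp |√l * t| := by
      rw [← Real.cosh_abs, Real.cosh_eq]
      linarith [Real.exp_le_exp.2 (show -|√l * t| ≤ |√l * t| by linarith [abs_nonneg (√l * t)])]
    set a := |√l * t|
    have ha : 0 ≤ a := abs_nonneg _
    have c1 : C t ≤ Real.exp a :=
      (mul_le_of_le_one_left (Real.cosh_pos _).le (Real.exp_le_one_iff.2 (by linarith))).trans hcl
    have c2 : |Real.log (C t)| ≤ l / 2 + a := by
      simp only [C]
      rw [Real.log_mul (Real.exp_pos _).ne' (Real.cosh_pos _).ne', Real.log_exp]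
      have : Real.log (Real.cosh (√l * t)) ≤ a := (Real.log_le_log (Real.cosh_pos _) hcl).trans_eq (Real.log_exp _)
      have := Real.log_nonneg (Real.one_le_cosh (√l * t))
      rw [abs_le]; constructor <;> linarith
    have e2 : Real.exp (2 * a) ≤ Real.exp ((2 * √l) * t) + Real.exp (-(2 * √l) * t) := by
      rcases abs_choice (√l * t) with h | h <;> simp only [a, h]
      · rw [show 2 * (√l * t) = 2 * √l * t by ring]; linarith [Real.exp_pos (-(2 * √l) * t)]
      · rw [show 2 * -(√l * t) = -(2 * √l) * t by ring]; linarith [Real.exp_pos (2 * √l * t)]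
    rw [Real.norm_eq_abs, phi, abs_mul, abs_of_pos (hC t)]
    simp only [Pi.add_apply]
    calc C t * |Real.log (C t)| ≤ Real.exp a * (l / 2 + a) := mul_le_mul c1 c2 (abs_nonneg _) (Real.exp_pos _).le
      _ ≤ Real.exp a * ((1 + l) * Real.exp a) := by
          refine mul_le_mul_of_nonneg_left ?_ (Real.exp_pos _).le
          nlinarith [Real.add_one_le_exp a, mul_nonneg hl (show 0 ≤ Real.exp a - 1 by linarith [Real.add_one_le_exp a])]
      _ = (1 + l) * Real.exp (2 * a) := by rw [two_mul, Real.exp_add]; ring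
      _ ≤ _ := mul_le_mul_of_nonneg_left (by linarith) (by linarith)
  have he : ∀ y : Fin N → ℝ, (∏ i, C (y i)) * Real.log (∏ i, C (y i)) =
      ∑ j, ∏ i, (if i = j then phi (C (y i)) else C (y i)) := fun y => by
    rw [Real.log_prod (fun i _ => (hC (y i)).ne'), Finset.mul_sum]
    refine Finset.sum_congr rfl fun j _ => ?_
    rw [← Finset.mul_prod_erase _ _ (Finset.mem_univ j),
      ← Finset.mul_prod_erase _ (fun i => if i = j then phi (C (y i)) else C (y i)) (Finset.mem_univ j), if_pos rfl,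
      Finset.prod_congr (s₂ := Finset.univ.erase j) rfl (f := fun i => if i = j then phi (C (y i)) else C (y i))
        (g := fun i => C (y i)) fun i hi => if_neg (Finset.ne_of_mem_erase hi), phi]
    ring
  set F := fun (j i : Fin N) (t : ℝ) => if i = j then phi (C t) else C t
  have iF : ∀ j i, Integrable (F j i) (gaussianReal 0 1) := fun j i => by
    by_cases h : i = j
    · simpa [F, h] using iP
    · simpa [F, h] using iC
  have hj : ∀ j, ∫ y, ∏ i, F j i (y i) ∂gauss (Fin N) = I0 l := fun j => by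
    rw [gauss, integral_fintype_prod_eq_prod, ← Finset.mul_prod_erase _ _ (Finset.mem_univ j),
      Finset.prod_eq_one fun i hi => ?_, mul_one]
    · simp [F, I0, C]
    · simp only [F, if_neg (Finset.ne_of_mem_erase hi), mC]
  have e0 : ∀ g : Fin 0 → Fin N → ℝ, ∫ y, ent (zed (sx N) (lp N V g) l y) ∂gauss (Fin N) = N * I0 l := fun g => by
    simp only [ent, hz, he]
    rw [integral_finsetSum _ fun j _ => ?_]
    · rw [Finset.sum_congr rfl fun j _ => hj j]; simp
    · exact Integrable.fintype_prod (f := fun i t => F j i t) (iF j)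
  rw [ke, avm, av]
  simp only [e0, integral_const, probReal_univ, one_smul]
  field_simp

end Vale.Agent.P157.Teach
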