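import Vale.Agent.P157.Lim.Split

/-! The one-observation information `Ψ` and its derivative `ρ / 2`. -/

open MeasureTheory ProbabilityTheory Set Filter
open scoped Topology NNReal
open Vale.Agent.P150 (gauss dot)
open Vale.Agent.P157.Lim

namespace Vale.Agent.P157.Teach

/-- `x log x` -/
noncomputable def phi (x : ℝ) : ℝ := x * Real.log x

/-- a smooth weight between two positive constants -/
structure Sm (U U1 U2 : ℝ → ℝ) (lo hi L : ℝ) : Prop where
  d0 : ∀ x, HasDerivAt U (U1 x) x
  d1 : ∀ x, HasDerivAt U1 (U2 x) x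
  cont : Continuous U2
  pos : 0 < lo
  ge : ∀ x, lo ≤ U x
  le : ∀ x, U x ≤ hi
  b1 : ∀ x, |U1 x| ≤ L
  b2 : ∀ x, |U2 x| ≤ L

/-- Gaussian smoothing -/
noncomputable def Uraw (U : ℝ → ℝ) (x v : ℝ) : ℝ := ∫ ξ, U (x + √v * ξ) ∂gaussianReal 0 1

/-- the observation information at overlap `q` -/
noncomputable def Psi (U : ℝ → ℝ) (q : ℝ) : ℝ := ∫ z, phi (Uraw U (√q * z) (1 - q)) ∂gaussianReal 0 1

/-- twice the derivative of `Psi` -/
noncomputable def rho (U U1 : ℝ → ℝ) (q : ℝ) : ℝ :=
  ∫ z, Uraw U1 (√q * z) (1 - q) ^ 2 / Uraw U (√q * z) (1 - q) ∂gaussianReal 0 1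

lemma gauss_pair {G : ℝ → ℝ} (hG : Measurable G) {B : ℝ} (hB : ∀ x, |G x| ≤ B) (a b : ℝ) :
    ∫ η, ∫ ξ, G (a * η + b * ξ) ∂gaussianReal 0 1 ∂gaussianReal 0 1 =
      ∫ z, G (√(a ^ 2 + b ^ 2) * z) ∂gaussianReal 0 1 := by
  rw [← integral_prod (f := fun p : ℝ × ℝ => G (a * p.1 + b * p.2))
    (Integrable.of_bound (hG.comp (by fun_prop)).aestronglyMeasurable B
      (Eventually.of_forall fun p => by simpa using hB _))]
  set v : ℝ≥0 := ⟨a ^ 2 + b ^ 2, by positivity⟩
  have h : ((gaussianReal 0 1).prod (gaussianReal 0 1)).map (fun p : ℝ × ℝ => a * p.1 + b * p.2) =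
      (gaussianReal 0 1).map (fun z => √(a ^ 2 + b ^ 2) * z) := by
    have e : (fun p : ℝ × ℝ => a * p.1 + b * p.2) =
        (fun p : ℝ × ℝ => p.1 + p.2) ∘ Prod.map (a * ·) (b * ·) := rfl
    rw [e, ← Measure.map_map (by fun_prop) (by fun_prop), ← Measure.map_prod_map _ _ (by fun_prop) (by fun_prop),
      gaussianReal_map_const_mul, gaussianReal_map_const_mul, gaussianReal_map_const_mul]
    rw [← Measure.conv, gaussianReal_conv_gaussianReal]
    congr 1
    · simp
    · ext; push_cast; rw [Real.sq_sqrt (by positivity)]; simp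
  rw [← integral_map (f := G) (φ := fun p : ℝ × ℝ => a * p.1 + b * p.2) (by fun_prop) hG.aestronglyMeasurable,
    h, integral_map (by fun_prop) hG.aestronglyMeasurable]

variable {U U1 U2 : ℝ → ℝ} {lo hi L : ℝ}

lemma abs_Uraw {B : ℝ} (hB : ∀ x, |U x| ≤ B) (x v : ℝ) : |Uraw U x v| ≤ B := by
  have := norm_integral_le_of_norm_le_const (μ := gaussianReal 0 1) (f := fun ξ => U (x + √v * ξ))
    (C := B) (Eventually.of_forall fun ξ => hB _)
  simpa [Uraw] using this

lemma continuous_Uraw (hU : Continuous U) {B : ℝ} (hB : ∀ x, |U x| ≤ B) :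
    Continuous fun p : ℝ × ℝ => Uraw U p.1 p.2 :=
  continuous_of_dominated (bound := fun _ => B) (fun p => (hU.comp (by fun_prop)).aestronglyMeasurable)
    (fun p => Eventually.of_forall fun ξ => hB _) (integrable_const _)
    (Eventually.of_forall fun ξ => hU.comp (by fun_prop))

lemma Uraw_mem (hU : Continuous U) (hl : ∀ x, lo ≤ U x) (hh : ∀ x, U x ≤ hi) (x v : ℝ) :
    lo ≤ Uraw U x v ∧ Uraw U x v ≤ hi := by
  have hi' : Integrable (fun ξ => U (x + √v * ξ)) (gaussianReal 0 1) :=
    Integrable.of_bound (hU.comp (by fun_prop)).aestronglyMeasurable (max |lo| |hi|)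
      (Eventually.of_forall fun ξ => by
        rw [Real.norm_eq_abs, abs_le]
        exact ⟨by linarith [hl (x + √v * ξ), le_max_left |lo| |hi|, neg_abs_le lo],
          by linarith [hh (x + √v * ξ), le_max_right |lo| |hi|, le_abs_self hi]⟩)
  constructor
  · simpa [Uraw] using integral_mono (integrable_const lo) hi' fun ξ => hl _
  · simpa [Uraw] using integral_mono hi' (integrable_const hi) fun ξ => hh _

lemma Uraw_smooth (hU : Continuous U) {B : ℝ} (hB : ∀ x, |U x| ≤ B) (x : ℝ) {v w : ℝ} (hv : 0 ≤ v)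
    (hw : 0 ≤ w) : ∫ η, Uraw U (x + √w * η) v ∂gaussianReal 0 1 = Uraw U x (v + w) := by
  have h := gauss_pair (G := fun y => U (x + y)) (by fun_prop) (fun y => hB _) (√w) (√v)
  rw [Real.sq_sqrt hw, Real.sq_sqrt hv, add_comm w] at h
  simpa [Uraw, add_assoc] using h

lemma sq_div_ge {a b c : ℝ} (hb : 0 < b) : 2 * c * a - c ^ 2 * b ≤ a ^ 2 / b := by
  rw [le_div_iff₀ hb]; nlinarith [sq_nonneg (a - c * b)]

namespace Sm

variable (h : Sm U U1 U2 lo hi L)
include h

lemma contU : Continuous U := continuous_iff_continuousAt.2 fun x => (h.d0 x).continuousAt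

lemma cont1 : Continuous U1 := continuous_iff_continuousAt.2 fun x => (h.d1 x).continuousAt

lemma L_nonneg : 0 ≤ L := (abs_nonneg _).trans (h.b1 0)

lemma hi_pos : 0 < hi := h.pos.trans_le ((h.ge 0).trans (h.le 0))

lemma abs_U (x : ℝ) : |U x| ≤ hi := by
  rw [abs_of_pos (h.pos.trans_le (h.ge x))]; exact h.le x

lemma lipU (x y : ℝ) : |U x - U y| ≤ L * |x - y| := by
  have := convex_univ.norm_image_sub_le_of_norm_hasDerivWithin_le
    (fun z _ => (h.d0 z).hasDerivWithinAt) (fun z _ => by simpa using h.b1 z) (mem_univ y) (mem_univ x)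
  simpa using this

lemma lip1 (x y : ℝ) : |U1 x - U1 y| ≤ L * |x - y| := by
  have := convex_univ.norm_image_sub_le_of_norm_hasDerivWithin_le
    (fun z _ => (h.d1 z).hasDerivWithinAt) (fun z _ => by simpa using h.b2 z) (mem_univ y) (mem_univ x)
  simpa using this

lemma smoothed_mem (x v : ℝ) : lo ≤ Uraw U x v ∧ Uraw U x v ≤ hi := Uraw_mem h.contU h.ge h.le x v

lemma smoothed_pos (x v : ℝ) : 0 < Uraw U x v := h.pos.trans_le (h.smoothed_mem x v).1

lemma rho_integrand (q z : ℝ) :
    0 ≤ Uraw U1 (√q * z) (1 - q) ^ 2 / Uraw U (√q * z) (1 - q) ∧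
      Uraw U1 (√q * z) (1 - q) ^ 2 / Uraw U (√q * z) (1 - q) ≤ L ^ 2 / lo := by
  refine ⟨div_nonneg (sq_nonneg _) (h.smoothed_pos _ _).le, ?_⟩
  refine div_le_div₀ (sq_nonneg _) ?_ h.pos (h.smoothed_mem _ _).1
  rw [← sq_abs]; exact pow_le_pow_left₀ (abs_nonneg _) (abs_Uraw h.b1 _ _) 2

lemma cont_rho_integrand :
    Continuous fun p : ℝ × ℝ => Uraw U1 (√p.1 * p.2) (1 - p.1) ^ 2 / Uraw U (√p.1 * p.2) (1 - p.1) :=
  (((continuous_Uraw h.cont1 h.b1).comp (f := fun p : ℝ × ℝ => (√p.1 * p.2, 1 - p.1)) (by fun_prop)).pow 2).div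
    ((continuous_Uraw h.contU h.abs_U).comp (f := fun p : ℝ × ℝ => (√p.1 * p.2, 1 - p.1)) (by fun_prop))
    fun p => (h.smoothed_pos _ _).ne'

lemma continuous_rho : Continuous (rho U U1) :=
  continuous_of_dominated (bound := fun _ => L ^ 2 / lo)
    (fun q => (h.cont_rho_integrand.comp (Continuous.prodMk_right q)).aestronglyMeasurable)
    (fun q => Eventually.of_forall fun z => by
      rw [Real.norm_eq_abs, abs_of_nonneg (h.rho_integrand q z).1]; exact (h.rho_integrand q z).2)
    (integrable_const _) (Eventually.of_forall fun z => h.cont_rho_integrand.comp (Continuous.prodMk_left z))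

lemma rho_nonneg (q : ℝ) : 0 ≤ rho U U1 q := integral_nonneg fun z => (h.rho_integrand q z).1

lemma rho_mono {p q : ℝ} (hp : 0 ≤ p) (hpq : p ≤ q) (hq : q ≤ 1) : rho U U1 p ≤ rho U U1 q := by
  set G := fun w => Uraw U1 w (1 - q) ^ 2 / Uraw U w (1 - q)
  set C := L ^ 2 / lo
  have cG : Continuous G :=
    (((continuous_Uraw h.cont1 h.b1).comp (Continuous.prodMk_left (1 - q))).pow 2).div
      ((continuous_Uraw h.contU h.abs_U).comp (Continuous.prodMk_left (1 - q)))
      fun w => (h.smoothed_pos _ _).ne'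
  have bG : ∀ w, |G w| ≤ C := fun w => by
    rw [abs_of_nonneg (div_nonneg (sq_nonneg _) (h.smoothed_pos _ _).le)]
    refine div_le_div₀ (sq_nonneg _) ?_ h.pos (h.smoothed_mem _ _).1
    rw [← sq_abs]; exact pow_le_pow_left₀ (abs_nonneg _) (abs_Uraw h.b1 _ _) 2
  have e := gauss_pair cG.measurable bG (√p) (√(q - p))
  rw [Real.sq_sqrt hp, Real.sq_sqrt (by linarith), show p + (q - p) = q by ring] at e
  show _ ≤ ∫ z, G (√q * z) ∂gaussianReal 0 1
  rw [← e]
  have hint : Integrable (fun η => ∫ ξ, G (√p * η + √(q - p) * ξ) ∂gaussianReal 0 1) (gaussianReal 0 1) := by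
    refine Integrable.of_bound (Continuous.aestronglyMeasurable ?_) C (Eventually.of_forall fun η => ?_)
    · exact continuous_of_dominated (bound := fun _ => C)
        (fun η => (cG.comp (by fun_prop)).aestronglyMeasurable)
        (fun η => Eventually.of_forall fun ξ => bG _) (integrable_const _)
        (Eventually.of_forall fun ξ => cG.comp (by fun_prop))
    · have := norm_integral_le_of_norm_le_const (μ := gaussianReal 0 1)
        (f := fun ξ => G (√p * η + √(q - p) * ξ)) (Eventually.of_forall fun ξ => bG _)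
      simpa using this
  refine integral_mono_of_nonneg (Eventually.of_forall fun z => (h.rho_integrand p z).1) hint
    (Eventually.of_forall fun η => ?_)
  set x := √p * η
  set A := Uraw U1 x (1 - p)
  set B := Uraw U x (1 - p)
  have hB : 0 < B := h.smoothed_pos _ _
  have eA := Uraw_smooth h.cont1 h.b1 x (v := 1 - q) (w := q - p) (by linarith) (by linarith)
  have eB := Uraw_smooth h.contU h.abs_U x (v := 1 - q) (w := q - p) (by linarith) (by linarith)
  rw [show 1 - q + (q - p) = 1 - p by ring] at eA eB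
  set c := A / B
  have iA : Integrable (fun ξ => Uraw U1 (x + √(q - p) * ξ) (1 - q)) (gaussianReal 0 1) :=
    Integrable.of_bound ((continuous_Uraw h.cont1 h.b1).comp (by fun_prop : Continuous fun ξ =>
      (x + √(q - p) * ξ, 1 - q))).aestronglyMeasurable L (Eventually.of_forall fun ξ => abs_Uraw h.b1 _ _)
  have iB : Integrable (fun ξ => Uraw U (x + √(q - p) * ξ) (1 - q)) (gaussianReal 0 1) :=
    Integrable.of_bound ((continuous_Uraw h.contU h.abs_U).comp (by fun_prop : Continuous fun ξ =>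
      (x + √(q - p) * ξ, 1 - q))).aestronglyMeasurable hi (Eventually.of_forall fun ξ => abs_Uraw h.abs_U _ _)
  have iG : Integrable (fun ξ => G (x + √(q - p) * ξ)) (gaussianReal 0 1) :=
    Integrable.of_bound (cG.comp (by fun_prop)).aestronglyMeasurable C (Eventually.of_forall fun ξ => bG _)
  refine le_trans (le_of_eq ?_) (integral_mono ((iA.const_mul (2 * c)).sub (iB.const_mul (c ^ 2))) iG
    fun ξ => sq_div_ge (h.smoothed_pos _ _))
  rw [integral_sub' (iA.const_mul _) (iB.const_mul _), integral_const_mul, integral_const_mul, eA, eB]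
  show A ^ 2 / B = _
  simp only [c]; field_simp; ring

end Sm

end Vale.Agent.P157.Teach
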